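import Mathlib

namespace Vale.Agent.P245.LSI

open MeasureTheory Set
open scoped ENNReal RealInnerProductSpace

/-- The Euclidean space. -/
abbrev E (n : ℕ) := EuclideanSpace ℝ (Fin n)

/-- The entropy of a non-negative function with respect to a probability measure. -/
noncomputable def Ent {α : Type*} [MeasurableSpace α] (μ : Measure α) (g : α → ℝ) : ℝ :=
  ∫ x, g x * Real.log (g x) ∂μ - (∫ x, g x ∂μ) * Real.log (∫ x, g x ∂μ)

section general

variable {α : Type*} [MeasurableSpace α] {μ : Measure α}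

theorem mul_le_entropy {g u : ℝ} (hg : 0 ≤ g) : g * u ≤ g * Real.log g - g + Real.exp u := by
  rcases hg.eq_or_lt with rfl | hg
  · simp [(Real.exp_pos u).le]
  have h := Real.add_one_le_exp (u - Real.log g)
  rw [Real.exp_sub, Real.exp_log hg, le_div_iff₀ hg] at h
  linarith

theorem ent_congr {g g' : α → ℝ} (h : g =ᵐ[μ] g') : Ent μ g = Ent μ g' := by
  unfold Ent
  rw [integral_congr_ae h, integral_congr_ae (h.mono fun x hx => by show g x * _ = _; rw [hx])]

theorem ent_const [IsProbabilityMeasure μ] (c : ℝ) : Ent μ (fun _ => c) = 0 := by simp [Ent]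

theorem donsker [IsProbabilityMeasure μ] {g F : α → ℝ} (hg : ∀ x, 0 ≤ g x) (ig : Integrable g μ)
    (igl : Integrable (fun x => g x * Real.log (g x)) μ)
    (igF : Integrable (fun x => g x * F x) μ) (ieF : Integrable (fun x => Real.exp (F x)) μ) :
    ∫ x, g x * F x ∂μ ≤ Ent μ g + (∫ x, g x ∂μ) * Real.log (∫ x, Real.exp (F x) ∂μ) := by
  rcases (integral_nonneg hg : 0 ≤ ∫ x, g x ∂μ).eq_or_lt with hA | hA
  · have h0 : g =ᵐ[μ] 0 := (integral_eq_zero_iff_of_nonneg hg ig).1 hA.symm
    have e : ∫ x, g x * F x ∂μ = 0 := integral_eq_zero_of_ae (h0.mono fun x hx => by simp [hx])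
    rw [e, ent_congr h0, ← hA]
    simp [Ent]
  have hB : 0 < ∫ x, Real.exp (F x) ∂μ := integral_exp_pos ieF
  obtain ⟨c, hc⟩ : ∃ c, c = Real.log (∫ x, g x ∂μ) - Real.log (∫ x, Real.exp (F x) ∂μ) := ⟨_, rfl⟩
  have h : ∫ x, (g x * F x + c * g x) ∂μ
      ≤ ∫ x, (g x * Real.log (g x) - g x + Real.exp c * Real.exp (F x)) ∂μ := by
    refine integral_mono (igF.add (ig.const_mul c)) ((igl.sub ig).add (ieF.const_mul _)) fun x => ?_
    have := mul_le_entropy (u := F x + c) (hg x)
    rw [Real.exp_add] at this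
    show g x * F x + c * g x ≤ g x * Real.log (g x) - g x + Real.exp c * Real.exp (F x)
    linarith
  rw [integral_add igF (ig.const_mul c),
    integral_add (f := fun x => g x * Real.log (g x) - g x) (igl.sub ig) (ieF.const_mul _),
    integral_sub igl ig, integral_const_mul, integral_const_mul] at h
  rw [hc, Real.exp_sub, Real.exp_log hA, Real.exp_log hB, div_mul_cancel₀ _ hB.ne'] at h
  unfold Ent
  nlinarith [h]

theorem ent_nonneg [IsProbabilityMeasure μ] {g : α → ℝ} (hg : ∀ x, 0 ≤ g x) (ig : Integrable g μ)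
    (igl : Integrable (fun x => g x * Real.log (g x)) μ) : 0 ≤ Ent μ g := by
  simpa using donsker (F := fun _ => (0 : ℝ)) hg ig igl (by simp) (by simp)

/-- Subadditivity of the entropy. -/
theorem ent_add_le [IsProbabilityMeasure μ] {a b : α → ℝ} (ha : ∀ x, 0 ≤ a x) (hb : ∀ x, 0 ≤ b x)
    (ia : Integrable a μ) (ib : Integrable b μ)
    (ial : Integrable (fun x => a x * Real.log (a x)) μ)
    (ibl : Integrable (fun x => b x * Real.log (b x)) μ)
    (iab : Integrable (fun x => (a x + b x) * Real.log (a x + b x)) μ) :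
    Ent μ (fun x => a x + b x) ≤ Ent μ a + Ent μ b := by
  rcases (integral_nonneg ha : 0 ≤ ∫ x, a x ∂μ).eq_or_lt with hA | hA
  · have h0 : a =ᵐ[μ] 0 := (integral_eq_zero_iff_of_nonneg ha ia).1 hA.symm
    rw [ent_congr h0, ent_congr (g' := b) (h0.mono fun x hx => by simp [hx])]
    simp [Ent]
  rcases (integral_nonneg hb : 0 ≤ ∫ x, b x ∂μ).eq_or_lt with hB | hB
  · have h0 : b =ᵐ[μ] 0 := (integral_eq_zero_iff_of_nonneg hb ib).1 hB.symm
    rw [ent_congr h0, ent_congr (g' := a) (g := fun x => a x + b x) (h0.mono fun x hx => by simp [hx])]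
    simp [Ent]
  obtain ⟨A, eA⟩ : ∃ A, A = ∫ x, a x ∂μ := ⟨_, rfl⟩
  obtain ⟨B, eB⟩ : ∃ B, B = ∫ x, b x ∂μ := ⟨_, rfl⟩
  rw [← eA] at hA
  rw [← eB] at hB
  have hp : ∀ u v U : ℝ, 0 ≤ u → 0 ≤ v → 0 < U → U ≤ A + B →
      u * Real.log (u + v) - u * Real.log u + u * (Real.log U - Real.log (A + B))
        ≤ (u + v) * U / (A + B) - u := by
    intro u v U hu hv hU _
    rcases hu.eq_or_lt with rfl | hu
    · simp only [zero_mul, sub_zero, zero_add]
      positivity
    have h := Real.log_le_sub_one_of_pos (x := (u + v) * U / ((A + B) * u)) (by positivity)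
    rw [Real.log_div (by positivity) (by positivity), Real.log_mul (by positivity) hU.ne',
      Real.log_mul (by positivity) hu.ne'] at h
    have h' := mul_le_mul_of_nonneg_left h hu.le
    have e : u * ((u + v) * U / ((A + B) * u) - 1) = (u + v) * U / (A + B) - u := by
      field_simp
    rw [e] at h'
    linarith
  have h : ∫ x, (a x + b x) * Real.log (a x + b x) ∂μ
      ≤ ∫ x, ((a x * Real.log (a x) + b x * Real.log (b x))
        + ((Real.log (A + B) - Real.log A) * a x + (Real.log (A + B) - Real.log B) * b x)) ∂μ := by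
    refine integral_mono iab ((ial.add ibl).add ((ia.const_mul _).add (ib.const_mul _))) fun x => ?_
    have h1 := hp (a x) (b x) A (ha x) (hb x) hA (by linarith)
    have h2 := hp (b x) (a x) B (hb x) (ha x) hB (by linarith)
    rw [add_comm (b x) (a x)] at h2
    have e : (a x + b x) * A / (A + B) + (a x + b x) * B / (A + B) = a x + b x := by
      field_simp
    show (a x + b x) * Real.log (a x + b x) ≤ (a x * Real.log (a x) + b x * Real.log (b x))
      + ((Real.log (A + B) - Real.log A) * a x + (Real.log (A + B) - Real.log B) * b x)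
    linarith
  rw [integral_add (f := fun x => a x * Real.log (a x) + b x * Real.log (b x))
      (g := fun x => (Real.log (A + B) - Real.log A) * a x + (Real.log (A + B) - Real.log B) * b x)
      (ial.add ibl) ((ia.const_mul _).add (ib.const_mul _)), integral_add ial ibl,
    integral_add (ia.const_mul _) (ib.const_mul _), integral_const_mul, integral_const_mul,
    ← eA, ← eB] at h
  unfold Ent
  rw [integral_add ia ib, ← eA, ← eB]
  linarith

/-- The variance is at most the entropy of the square. -/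
theorem var_le_ent [IsProbabilityMeasure μ] {f : α → ℝ} (hf : ∀ x, 0 ≤ f x)
    (i1 : Integrable f μ) (i2 : Integrable (fun x => f x ^ 2) μ)
    (i3 : Integrable (fun x => f x ^ 2 * Real.log (f x ^ 2)) μ) :
    ∫ x, f x ^ 2 ∂μ - (∫ x, f x ∂μ) ^ 2 ≤ Ent μ (fun x => f x ^ 2) := by
  rcases (integral_nonneg (fun x => sq_nonneg (f x)) : 0 ≤ ∫ x, f x ^ 2 ∂μ).eq_or_lt with hA | hA
  · have h0 := (integral_eq_zero_iff_of_nonneg (fun x => sq_nonneg (f x)) i2).1 hA.symm
    rw [ent_congr h0, ← hA]
    simp [Ent, sq_nonneg]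
  obtain ⟨A, eA⟩ : ∃ A, A = ∫ x, f x ^ 2 ∂μ := ⟨_, rfl⟩
  rw [← eA] at hA
  have hp : ∀ u : ℝ, 0 ≤ u → u ^ 2 * Real.log A + 2 * (u ^ 2 - Real.sqrt A * u)
      ≤ u ^ 2 * Real.log (u ^ 2) := by
    intro u hu
    rcases hu.eq_or_lt with rfl | hu
    · simp
    have hs : 0 < Real.sqrt A := Real.sqrt_pos.2 hA
    have h := Real.one_sub_inv_le_log_of_pos (x := u / Real.sqrt A) (by positivity)
    rw [inv_div, Real.log_div hu.ne' hs.ne', Real.log_sqrt hA.le] at h
    have h' := mul_le_mul_of_nonneg_left h (by positivity : (0 : ℝ) ≤ 2 * u ^ 2)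
    rw [Real.log_pow]
    have e : 2 * u ^ 2 * (1 - Real.sqrt A / u) = 2 * (u ^ 2 - Real.sqrt A * u) := by
      field_simp
    rw [e] at h'
    push_cast
    linarith
  have h : ∫ x, (Real.log A * f x ^ 2 + 2 * (f x ^ 2 - Real.sqrt A * f x)) ∂μ
      ≤ ∫ x, f x ^ 2 * Real.log (f x ^ 2) ∂μ := by
    refine integral_mono ((i2.const_mul _).add ((i2.sub (i1.const_mul _)).const_mul 2)) i3 fun x => ?_
    have := hp (f x) (hf x)
    show Real.log A * f x ^ 2 + 2 * (f x ^ 2 - Real.sqrt A * f x) ≤ f x ^ 2 * Real.log (f x ^ 2)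
    linarith
  rw [integral_add (i2.const_mul _) (g := fun x => 2 * (f x ^ 2 - Real.sqrt A * f x))
      ((i2.sub (i1.const_mul _)).const_mul 2), integral_const_mul, integral_const_mul,
    integral_sub i2 (i1.const_mul _), integral_const_mul, ← eA] at h
  unfold Ent
  rw [← eA]
  nlinarith [sq_nonneg (Real.sqrt A - ∫ x, f x ∂μ), Real.sq_sqrt hA.le]

theorem ent_le_phi [IsProbabilityMeasure μ] {g : α → ℝ} {c : ℝ} (hc : 0 < c) (hg : ∀ x, 0 ≤ g x)
    (ig : Integrable g μ) (igl : Integrable (fun x => g x * Real.log (g x)) μ) :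
    Ent μ g ≤ ∫ x, (g x * Real.log (g x) - (Real.log c + 1) * g x + c) ∂μ := by
  rw [integral_add (f := fun x => g x * Real.log (g x) - (Real.log c + 1) * g x)
      (igl.sub (ig.const_mul _)) (integrable_const c), integral_sub igl (ig.const_mul _),
    integral_const_mul]
  simp only [integral_const, probReal_univ, one_smul]
  unfold Ent
  rcases (integral_nonneg hg : 0 ≤ ∫ x, g x ∂μ).eq_or_lt with hA | hA
  · rw [← hA]
    linarith
  · have h := mul_le_entropy (u := Real.log c) hA.le
    rw [Real.exp_log hc] at h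
    linarith

theorem phi_le_sq {a c : ℝ} (ha : 0 ≤ a) (hc : 0 < c) :
    a * Real.log a - (Real.log c + 1) * a + c ≤ (a - c) ^ 2 / c := by
  rcases ha.eq_or_lt with rfl | ha
  · simp only [zero_mul, zero_sub, mul_zero, neg_zero, zero_add]
    rw [neg_sq, sq, mul_div_assoc, div_self hc.ne', mul_one]
  have h := Real.log_le_sub_one_of_pos (x := a / c) (by positivity)
  rw [Real.log_div ha.ne' hc.ne'] at h
  have h' := mul_le_mul_of_nonneg_left h ha.le
  have e : (a - c) ^ 2 / c = a * (a / c - 1) - a + c := by field_simp; ring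
  rw [e]
  linarith

theorem rothaus_pointwise {u m s : ℝ} (hs : 0 < s) :
    (m + u) ^ 2 * Real.log ((m + u) ^ 2) - (Real.log (max (m ^ 2) s) + 1) * (m + u) ^ 2
      + max (m ^ 2) s
      ≤ 4 * (u ^ 2 * Real.log (u ^ 2) - Real.log s * u ^ 2) + 9 * u ^ 2 + 13 * s := by
  obtain ⟨c, hc⟩ : ∃ c, c = max (m ^ 2) s := ⟨_, rfl⟩
  rw [← hc]
  have hsc : s ≤ c := hc ▸ le_max_right _ _
  have hmc : m ^ 2 ≤ c := hc ▸ le_max_left _ _
  have hc0 : 0 < c := hs.trans_le hsc
  have low : -s ≤ u ^ 2 * Real.log (u ^ 2) - Real.log s * u ^ 2 := by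
    have := mul_le_entropy (u := Real.log s) (sq_nonneg u)
    rw [Real.exp_log hs] at this
    nlinarith [sq_nonneg u]
  have big : u ^ 2 * Real.log (c + u ^ 2) - Real.log c * u ^ 2
      ≤ u ^ 2 * Real.log (u ^ 2) - Real.log s * u ^ 2 + s := by
    rcases eq_or_ne u 0 with rfl | hu
    · simp [hs.le]
    have hu2 : 0 < u ^ 2 := by positivity
    have e1 : Real.log (c + u ^ 2) - Real.log c ≤ Real.log (s + u ^ 2) - Real.log s := by
      rw [← Real.log_div (by positivity) hc0.ne', ← Real.log_div (by positivity) hs.ne']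
      refine Real.log_le_log (by positivity) ?_
      rw [add_div, add_div, div_self hc0.ne', div_self hs.ne']
      gcongr
    have e2 : Real.log (s + u ^ 2) - Real.log (u ^ 2) ≤ s / u ^ 2 := by
      rw [← Real.log_div (by positivity) hu2.ne']
      refine (Real.log_le_sub_one_of_pos (by positivity)).trans (le_of_eq ?_)
      field_simp
      ring
    have := mul_le_mul_of_nonneg_left (add_le_add e1 e2) hu2.le
    have e : u ^ 2 * (s / u ^ 2) = s := by field_simp
    nlinarith
  rcases le_or_gt ((m + u) ^ 2) (4 * c) with h4 | h4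
  · refine (phi_le_sq (sq_nonneg _) hc0).trans ?_
    rw [div_le_iff₀ hc0]
    have hbound : ((m + u) ^ 2 - c) ^ 2 ≤ c * (9 * u ^ 2) + 9 * (c * s) := by
      rcases le_total (m ^ 2) s with hms | hms
      · have : c = s := by rw [hc]; exact max_eq_right hms
        nlinarith [sq_nonneg (m + u), sq_nonneg u]
      · have hcm : c = m ^ 2 := by rw [hc]; exact max_eq_left hms
        have e : ((m + u) ^ 2 - c) ^ 2 = u ^ 2 * (2 * m + u) ^ 2 := by rw [hcm]; ring
        rw [e, hcm]
        have : (2 * m + u) ^ 2 ≤ 9 * m ^ 2 := by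
          have h5 : |m + u| ≤ |2 * m| := by
            rw [← sq_le_sq, mul_pow]
            linarith
          have h6 : |2 * m + u| ≤ 3 * |m| := by
            have := abs_add_le m (m + u)
            rw [show m + (m + u) = 2 * m + u by ring] at this
            rw [abs_mul, abs_two] at h5
            linarith
          have := mul_self_le_mul_self (abs_nonneg _) h6
          nlinarith [sq_abs (2 * m + u), sq_abs m]
        nlinarith [mul_le_mul_of_nonneg_left this (sq_nonneg u)]
    nlinarith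
  · have hm : |m| ≤ |m + u| / 2 := by
      refine (pow_le_pow_iff_left₀ (abs_nonneg _) (by positivity) two_ne_zero).1 ?_
      rw [div_pow, sq_abs, sq_abs]
      linarith
    have hu4 : (m + u) ^ 2 ≤ 4 * u ^ 2 := by
      have h5 : |m + u| ≤ 2 * |u| := by
        have := abs_add_le m u
        linarith
      have := mul_self_le_mul_self (abs_nonneg _) h5
      nlinarith [sq_abs (m + u), sq_abs u]
    have hcu : c ≤ u ^ 2 := by linarith
    have hpos : 0 < (m + u) ^ 2 := by linarith
    have l1 : Real.log ((m + u) ^ 2) - Real.log c ≤ Real.log 4 + (Real.log (c + u ^ 2) - Real.log c) := by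
      have := Real.log_le_log hpos (hu4.trans (by linarith : 4 * u ^ 2 ≤ 4 * (c + u ^ 2)))
      rw [Real.log_mul (by norm_num) (by positivity)] at this
      linarith
    have l4 : Real.log 4 ≤ 2 := by
      rw [show (4 : ℝ) = 2 ^ 2 by norm_num, Real.log_pow]
      push_cast
      linarith [Real.log_two_lt_d9]
    have n1 : 0 ≤ Real.log ((m + u) ^ 2) - Real.log c := by
      linarith [Real.log_le_log hc0 (by linarith : c ≤ (m + u) ^ 2)]
    have k1 := mul_le_mul hu4 l1 n1 (by positivity)
    nlinarith [mul_le_mul_of_nonneg_left l4 (sq_nonneg u)]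

/-- Rothaus's inequality up to constants. -/
theorem rothaus [IsProbabilityMeasure μ] {u : α → ℝ} {m : ℝ}
    (i2 : Integrable (fun x => u x ^ 2) μ)
    (i3 : Integrable (fun x => u x ^ 2 * Real.log (u x ^ 2)) μ)
    (i4 : Integrable (fun x => (m + u x) ^ 2) μ)
    (i5 : Integrable (fun x => (m + u x) ^ 2 * Real.log ((m + u x) ^ 2)) μ) :
    Ent μ (fun x => (m + u x) ^ 2) ≤ 4 * Ent μ (fun x => u x ^ 2) + 22 * ∫ x, u x ^ 2 ∂μ := by
  rcases (integral_nonneg (fun x => sq_nonneg (u x)) : 0 ≤ ∫ x, u x ^ 2 ∂μ).eq_or_lt with hA | hA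
  · have h0 := (integral_eq_zero_iff_of_nonneg (fun x => sq_nonneg (u x)) i2).1 hA.symm
    rw [ent_congr h0, ent_congr (g := fun x => (m + u x) ^ 2) (g' := fun _ => m ^ 2)
      (h0.mono fun x hx => by
        have : u x = 0 := by simpa using hx
        simp [this]), ent_const, ← hA]
    simp [Ent]
  obtain ⟨s, es⟩ : ∃ s, s = ∫ x, u x ^ 2 ∂μ := ⟨_, rfl⟩
  rw [← es] at hA
  have hc : 0 < max (m ^ 2) s := hA.trans_le (le_max_right _ _)
  refine (ent_le_phi hc (fun x => sq_nonneg _) i4 i5).trans ?_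
  refine (integral_mono (g := fun x => 4 * (u x ^ 2 * Real.log (u x ^ 2) - Real.log s * u x ^ 2)
      + 9 * u x ^ 2 + 13 * s) ((i5.sub (i4.const_mul _)).add (integrable_const _))
    ((((i3.sub (i2.const_mul _)).const_mul 4).add (i2.const_mul 9)).add (integrable_const _))
    fun x => rothaus_pointwise hA).trans ?_
  rw [integral_add (f := fun x => 4 * (u x ^ 2 * Real.log (u x ^ 2) - Real.log s * u x ^ 2)
      + 9 * u x ^ 2) (((i3.sub (i2.const_mul _)).const_mul 4).add (i2.const_mul 9)) (integrable_const _),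
    integral_add (f := fun x => 4 * (u x ^ 2 * Real.log (u x ^ 2) - Real.log s * u x ^ 2))
      ((i3.sub (i2.const_mul _)).const_mul 4) (i2.const_mul 9),
    integral_const_mul, integral_const_mul, integral_sub i3 (i2.const_mul _), integral_const_mul]
  simp only [integral_const, probReal_univ, one_smul]
  unfold Ent
  rw [← es]
  linarith

end general

end Vale.Agent.P245.LSI
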