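import Mathlib
import Vale.Agent.P074.PL

namespace Vale.Agent.P245.LSI

open MeasureTheory Set
open scoped ENNReal

/-- Prékopa-Leindler on the line for normalised data. -/
theorem plw_one_normalised {a b : ℝ} (ha : 0 < a) (hb : 0 < b) (hab : a + b = 1)
    {f g h : ℝ → ℝ} (hf : Measurable f) (hg : Measurable g)
    (hh : Measurable h) (hf0 : ∀ x, 0 ≤ f x) (hg0 : ∀ x, 0 ≤ g x) (hh0 : ∀ x, 0 ≤ h x)
    (hf1 : ∀ x, f x ≤ 1) (hg1 : ∀ x, g x ≤ 1) (hfs : ∀ t < 1, ∃ x, t < f x)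
    (hgs : ∀ t < 1, ∃ x, t < g x) (H : ∀ x y, f x ^ a * g y ^ b ≤ h (a * x + b * y)) :
    ENNReal.ofReal a * (∫⁻ x, ENNReal.ofReal (f x)) + ENNReal.ofReal b * ∫⁻ x, ENNReal.ofReal (g x)
      ≤ ∫⁻ x, ENNReal.ofReal (h x) := by
  rw [lintegral_eq_lintegral_meas_lt _ (ae_of_all _ hf0) hf.aemeasurable,
    lintegral_eq_lintegral_meas_lt _ (ae_of_all _ hg0) hg.aemeasurable,
    lintegral_eq_lintegral_meas_lt _ (ae_of_all _ hh0) hh.aemeasurable]
  have hm : ∀ q : ℝ → ℝ, Measurable fun t : ℝ => volume {x : ℝ | t < q x} := fun q =>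
    Antitone.measurable fun s t hst => measure_mono fun x (hx : t < q x) => lt_of_le_of_lt hst hx
  rw [← lintegral_const_mul' _ _ ENNReal.ofReal_ne_top,
    ← lintegral_const_mul' _ _ ENNReal.ofReal_ne_top, ← lintegral_add_left ((hm f).const_mul _)]
  refine setLIntegral_mono_ae' measurableSet_Ioi (ae_of_all _ fun t ht => ?_)
  simp only [Set.mem_Ioi] at ht
  by_cases h1 : t < 1
  · have hA := measurableSet_lt (measurable_const (a := t)) hf
    have hB := measurableSet_lt (measurable_const (a := t)) hg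
    have e : ∀ (c : ℝ), 0 < c → ∀ A : Set ℝ,
        volume ((fun z : ℝ => c⁻¹ * z) ⁻¹' A) = ENNReal.ofReal c * volume A := fun c hc A => by
      rw [Real.volume_preimage_mul_left (inv_ne_zero hc.ne'), inv_inv, abs_of_pos hc]
    rw [← e a ha, ← e b hb]
    obtain ⟨x0, hx0⟩ := hfs t h1
    obtain ⟨y0, hy0⟩ := hgs t h1
    refine Vale.Agent.P074.volume_add_le (hA.preimage (measurable_const_mul _))
      (hB.preimage (measurable_const_mul _)) ⟨a * x0, ?_⟩ ⟨b * y0, ?_⟩ ?_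
    · simpa [ha.ne'] using hx0
    · simpa [hb.ne'] using hy0
    · intro x (hx : t < f (a⁻¹ * x)) y (hy : t < g (b⁻¹ * y))
      show t < h (x + y)
      have := H (a⁻¹ * x) (b⁻¹ * y)
      rw [mul_inv_cancel_left₀ ha.ne', mul_inv_cancel_left₀ hb.ne'] at this
      refine lt_of_lt_of_le ?_ this
      calc t = t ^ a * t ^ b := by rw [← Real.rpow_add ht, hab, Real.rpow_one]
        _ < _ := mul_lt_mul'' (Real.rpow_lt_rpow ht.le hx ha) (Real.rpow_lt_rpow ht.le hy hb)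
            (Real.rpow_nonneg ht.le _) (Real.rpow_nonneg ht.le _)
  · have e : ∀ q : ℝ → ℝ, (∀ x, q x ≤ 1) → {x | t < q x} = ∅ := fun q hq => by
      ext x
      simp only [Set.mem_empty_iff_false, iff_false]
      exact fun hx => absurd hx (not_lt.2 ((hq x).trans (not_lt.1 h1)))
    rw [e f hf1, e g hg1]
    simp

theorem geom_le_arith_ennreal {a b : ℝ} (ha : 0 < a) (hb : 0 < b) (hab : a + b = 1) (x y : ℝ≥0∞) :
    x ^ a * y ^ b ≤ ENNReal.ofReal a * x + ENNReal.ofReal b * y := by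
  rcases eq_or_ne x ⊤ with rfl | hx
  · simp [ENNReal.mul_top, ha]
  rcases eq_or_ne y ⊤ with rfl | hy
  · simp [ENNReal.mul_top, hb]
  rw [← ENNReal.ofReal_toReal hx, ← ENNReal.ofReal_toReal hy,
    ENNReal.ofReal_rpow_of_nonneg ENNReal.toReal_nonneg ha.le,
    ENNReal.ofReal_rpow_of_nonneg ENNReal.toReal_nonneg hb.le,
    ← ENNReal.ofReal_mul (Real.rpow_nonneg ENNReal.toReal_nonneg _), ← ENNReal.ofReal_mul ha.le,
    ← ENNReal.ofReal_mul hb.le, ← ENNReal.ofReal_add (by positivity) (by positivity)]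
  exact ENNReal.ofReal_le_ofReal (Real.geom_mean_le_arith_mean2_weighted ha.le hb.le
    ENNReal.toReal_nonneg ENNReal.toReal_nonneg hab)

theorem plw_one_bounded {a b : ℝ} (ha : 0 < a) (hb : 0 < b) (hab : a + b = 1)
    {f g h : ℝ → ℝ≥0∞} (hf : Measurable f) (hg : Measurable g)
    (hh : Measurable h) (hfb : (⨆ x, f x) ≠ ⊤) (hgb : (⨆ x, g x) ≠ ⊤)
    (H : ∀ x y, f x ^ a * g y ^ b ≤ h (a * x + b * y)) :
    (∫⁻ x, f x) ^ a * (∫⁻ x, g x) ^ b ≤ ∫⁻ x, h x := by
  obtain ⟨F, hF⟩ : ∃ F, F = ⨆ x, f x := ⟨_, rfl⟩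
  obtain ⟨G, hG⟩ : ∃ G, G = ⨆ x, g x := ⟨_, rfl⟩
  rcases eq_or_ne F 0 with hF0 | hF0
  · have : ∀ x, f x = 0 := fun x => le_antisymm (hF0 ▸ hF ▸ le_iSup f x) zero_le
    simp [this, ENNReal.zero_rpow_of_pos ha]
  rcases eq_or_ne G 0 with hG0 | hG0
  · have : ∀ x, g x = 0 := fun x => le_antisymm (hG0 ▸ hG ▸ le_iSup g x) zero_le
    simp [this, ENNReal.zero_rpow_of_pos hb]
  rw [← hF] at hfb
  rw [← hG] at hgb
  obtain ⟨S, hS⟩ : ∃ S, S = F ^ a * G ^ b := ⟨_, rfl⟩
  have hS0 : S ≠ 0 := by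
    rw [hS]
    exact mul_ne_zero (ENNReal.rpow_pos (pos_iff_ne_zero.2 hF0) hfb).ne'
      (ENNReal.rpow_pos (pos_iff_ne_zero.2 hG0) hgb).ne'
  have hSt : S ≠ ⊤ := by
    rw [hS]
    exact ENNReal.mul_ne_top (ENNReal.rpow_ne_top_of_nonneg ha.le hfb)
      (ENNReal.rpow_ne_top_of_nonneg hb.le hgb)
  let f' : ℝ → ℝ := fun x => (f x / F).toReal
  let g' : ℝ → ℝ := fun x => (g x / G).toReal
  let h' : ℝ → ℝ := fun x => (min (h x / S) 1).toReal
  have hfle : ∀ x, f x / F ≤ 1 := fun x => ENNReal.div_le_of_le_mul (by simpa [hF] using le_iSup f x)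
  have hgle : ∀ x, g x / G ≤ 1 := fun x => ENNReal.div_le_of_le_mul (by simpa [hG] using le_iSup g x)
  have hne : ∀ z : ℝ≥0∞, z ≤ 1 → z ≠ ⊤ := fun z hz => ne_top_of_le_ne_top ENNReal.one_ne_top hz
  have hsup : ∀ (q : ℝ → ℝ≥0∞) (Q : ℝ≥0∞), Q = ⨆ x, q x → Q ≠ 0 → Q ≠ ⊤ →
      (∀ x, q x / Q ≤ 1) → ∀ t < (1 : ℝ), ∃ x, t < (q x / Q).toReal := by
    intro q Q hQ hQ0 hQt hle t ht
    by_contra hcon
    push Not at hcon
    have hb : ∀ x, q x ≤ ENNReal.ofReal t * Q := fun x => by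
      rw [← ENNReal.div_le_iff hQ0 hQt, ← ENNReal.ofReal_toReal (hne _ (hle x))]
      exact ENNReal.ofReal_le_ofReal (hcon x)
    have h2 : Q ≤ ENNReal.ofReal t * Q := hQ ▸ iSup_le (fun x => hQ.symm ▸ hb x)
    have h3 : ENNReal.ofReal t * Q < 1 * Q :=
      ENNReal.mul_lt_mul_left hQ0 hQt (ENNReal.ofReal_lt_one.2 ht)
    rw [one_mul] at h3
    exact absurd h2 (not_le.2 h3)
  have key := plw_one_normalised ha hb hab (f := f') (g := g') (h := h') (hf.div_const F).ennreal_toReal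
    (hg.div_const G).ennreal_toReal ((hh.div_const S).min measurable_const).ennreal_toReal
    (fun _ => ENNReal.toReal_nonneg) (fun _ => ENNReal.toReal_nonneg)
    (fun _ => ENNReal.toReal_nonneg)
    (fun x => ENNReal.toReal_le_of_le_ofReal zero_le_one (by simpa using hfle x))
    (fun x => ENNReal.toReal_le_of_le_ofReal zero_le_one (by simpa using hgle x))
    (hsup f F hF hF0 hfb hfle) (hsup g G hG hG0 hgb hgle) ?_
  · simp only [f', g', h', ENNReal.ofReal_toReal (hne _ (hfle _)),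
      ENNReal.ofReal_toReal (hne _ (hgle _)), ENNReal.ofReal_toReal (hne _ (min_le_right _ _))]
      at key
    have ef : ∫⁻ x, f x = F * ∫⁻ x, f x / F := by
      rw [← lintegral_const_mul' _ _ hfb]
      exact lintegral_congr fun x => (ENNReal.mul_div_cancel hF0 hfb).symm
    have eg : ∫⁻ x, g x = G * ∫⁻ x, g x / G := by
      rw [← lintegral_const_mul' _ _ hgb]
      exact lintegral_congr fun x => (ENNReal.mul_div_cancel hG0 hgb).symm
    have eh : S * ∫⁻ x, min (h x / S) 1 ≤ ∫⁻ x, h x := by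
      rw [← lintegral_const_mul' _ _ hSt]
      exact lintegral_mono fun x =>
        (mul_le_mul' le_rfl (min_le_left _ _)).trans_eq (ENNReal.mul_div_cancel hS0 hSt)
    have h4 := (geom_le_arith_ennreal ha hb hab _ _).trans key
    calc (∫⁻ x, f x) ^ a * (∫⁻ x, g x) ^ b
        = S * ((∫⁻ x, f x / F) ^ a * (∫⁻ x, g x / G) ^ b) := by
          rw [ef, eg, hS, ENNReal.mul_rpow_of_nonneg _ _ ha.le,
            ENNReal.mul_rpow_of_nonneg _ _ hb.le]
          ring
      _ ≤ S * ∫⁻ x, min (h x / S) 1 := mul_le_mul' le_rfl h4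
      _ ≤ _ := eh
  · intro x y
    simp only [f', g', h', ENNReal.toReal_rpow, ← ENNReal.toReal_mul]
    refine ENNReal.toReal_mono (hne _ (min_le_right _ _)) ?_
    rcases le_total (h (a * x + b * y) / S) 1 with h5 | h5
    · rw [min_eq_left h5, hS, div_eq_mul_inv, div_eq_mul_inv, div_eq_mul_inv,
        ENNReal.mul_rpow_of_nonneg _ _ ha.le, ENNReal.mul_rpow_of_nonneg _ _ hb.le,
        ENNReal.inv_rpow, ENNReal.inv_rpow,
        ENNReal.mul_inv (Or.inl (ENNReal.rpow_pos (pos_iff_ne_zero.2 hF0) hfb).ne')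
          (Or.inl (ENNReal.rpow_ne_top_of_nonneg ha.le hfb)), mul_mul_mul_comm]
      exact mul_le_mul' (H x y) le_rfl
    · rw [min_eq_right h5]
      exact mul_le_one' (ENNReal.rpow_le_one (hfle x) ha.le) (ENNReal.rpow_le_one (hgle y) hb.le)

theorem plw_one {a b : ℝ} (ha : 0 < a) (hb : 0 < b) (hab : a + b = 1)
    {f g h : ℝ → ℝ≥0∞} (hf : Measurable f) (hg : Measurable g)
    (hh : Measurable h) (H : ∀ x y, f x ^ a * g y ^ b ≤ h (a * x + b * y)) :
    (∫⁻ x, f x) ^ a * (∫⁻ x, g x) ^ b ≤ ∫⁻ x, h x := by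
  have hsup : ∀ (q : ℝ → ℝ≥0∞) (c : ℝ), 0 < c → Measurable q →
      (∫⁻ x, q x) ^ c = ⨆ n : ℕ, (∫⁻ x, min (q x) n) ^ c := by
    intro q c hc hq
    have key := (ENNReal.orderIsoRpow c hc).map_iSup (fun n : ℕ => ∫⁻ x, min (q x) n)
    simp only [ENNReal.orderIsoRpow_apply] at key
    rw [← key]
    congr 1
    rw [← lintegral_iSup (fun n => hq.min measurable_const)
      (fun m n hmn x => min_le_min le_rfl (Nat.cast_le.2 hmn))]
    refine lintegral_congr fun x => ?_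
    refine le_antisymm ?_ (iSup_le fun n => min_le_left _ _)
    rcases eq_or_ne (q x) ⊤ with h0 | h0
    · rw [h0]
      simp only [min_eq_right le_top, ENNReal.iSup_natCast, le_refl]
    · obtain ⟨n, hn⟩ := ENNReal.exists_nat_gt h0
      exact le_iSup_of_le n (le_of_eq (min_eq_left hn.le).symm)
  rw [hsup f a ha hf, hsup g b hb hg, ENNReal.iSup_mul]
  refine iSup_le fun m => ?_
  rw [ENNReal.mul_iSup]
  refine iSup_le fun n => ?_
  refine plw_one_bounded ha hb hab (hf.min measurable_const) (hg.min measurable_const) hh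
    (ne_top_of_le_ne_top (ENNReal.natCast_ne_top m) (iSup_le fun x => min_le_right _ _))
    (ne_top_of_le_ne_top (ENNReal.natCast_ne_top n) (iSup_le fun x => min_le_right _ _))
    fun x y => (mul_le_mul' (ENNReal.rpow_le_rpow (min_le_left _ _) ha.le)
      (ENNReal.rpow_le_rpow (min_le_left _ _) hb.le)).trans (H x y)

theorem plw_pi {a b : ℝ} (ha : 0 < a) (hb : 0 < b) (hab : a + b = 1) :
    ∀ (n : ℕ) {f g h : (Fin n → ℝ) → ℝ≥0∞}, Measurable f → Measurable g →
    Measurable h → (∀ x y, f x ^ a * g y ^ b ≤ h (a • x + b • y)) →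
    (∫⁻ x, f x) ^ a * (∫⁻ x, g x) ^ b ≤ ∫⁻ x, h x := by
  intro n
  induction n with
  | zero =>
    intro f g h hf hg hh H
    rw [lintegral_unique, lintegral_unique, lintegral_unique]
    have hu : volume (univ : Set (Fin 0 → ℝ)) = 1 := by
      simp [volume_pi, Measure.pi_empty_univ]
    rw [hu, mul_one, mul_one, mul_one]
    exact (H _ _).trans_eq (congrArg h (funext fun i => i.elim0))
  | succ n ih =>
    intro f g h hf hg hh H
    rw [P074.lintegral_cons hf, P074.lintegral_cons hg, P074.lintegral_cons hh]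
    have hm : ∀ q : (Fin (n + 1) → ℝ) → ℝ≥0∞, Measurable q →
        Measurable fun s : ℝ => ∫⁻ v : Fin n → ℝ, q (Fin.cons s v) := fun q hq =>
      (hq.comp (P074.measurable_cons n)).lintegral_prod_right'
    refine plw_one ha hb hab (hm f hf) (hm g hg) (hm h hh) fun s t => ?_
    have hsl : ∀ (q : (Fin (n + 1) → ℝ) → ℝ≥0∞) (r : ℝ), Measurable q →
        Measurable fun v : Fin n → ℝ => q (Fin.cons r v) := fun q r hq =>
      hq.comp ((P074.measurable_cons n).comp measurable_prodMk_left)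
    refine ih (hsl f s hf) (hsl g t hg) (hsl h _ hh) fun v w => ?_
    refine (H _ _).trans_eq ?_
    congr 1
    funext i
    refine Fin.cases ?_ (fun j => ?_) i
    · simp
    · simp

/-- The weighted Prékopa-Leindler inequality. -/
theorem plw {a b : ℝ} (ha : 0 < a) (hb : 0 < b) (hab : a + b = 1) {d : ℕ}
    {f g h : EuclideanSpace ℝ (Fin d) → ℝ≥0∞} (hf : Measurable f)
    (hg : Measurable g) (hh : Measurable h)
    (H : ∀ x y, f x ^ a * g y ^ b ≤ h (a • x + b • y)) :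
    (∫⁻ x, f x) ^ a * (∫⁻ x, g x) ^ b ≤ ∫⁻ x, h x := by
  have e := PiLp.volume_preserving_toLp (Fin d)
  rw [← e.lintegral_comp hf, ← e.lintegral_comp hg, ← e.lintegral_comp hh]
  refine plw_pi ha hb hab d (hf.comp e.measurable) (hg.comp e.measurable) (hh.comp e.measurable)
    fun x y => ?_
  refine (H _ _).trans_eq ?_
  congr 1

end Vale.Agent.P245.LSI
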