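import Mathlib
import Vale.Agent.P245.LSI.PL
import Vale.Agent.P245.LSI.Basic

namespace Vale.Agent.P245.LSI

open MeasureTheory Set Filter
open scoped ENNReal RealInnerProductSpace Topology

variable {n : ℕ} {μ : Measure (E n)} {c : ℝ}

/-- A measure with a density that is strongly log-concave with modulus `c`. -/
def SLC (c : ℝ) (μ : Measure (E n)) : Prop :=
  ∃ ρ : E n → ℝ, Measurable ρ ∧ (∀ x, 0 ≤ ρ x) ∧
    μ = volume.withDensity (fun x => ENNReal.ofReal (ρ x)) ∧
    ∀ a b : ℝ, ∀ x y : E n, 0 < a → 0 < b → a + b = 1 →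
      ρ x ^ a * ρ y ^ b * Real.exp (c * (a * b) / 2 * ‖x - y‖ ^ 2) ≤ ρ (a • x + b • y)

theorem combo_sq (a b : ℝ) (hab : a + b = 1) (x y : E n) :
    ‖a • x + b • y‖ ^ 2 + a * b * ‖x - y‖ ^ 2 = a * ‖x‖ ^ 2 + b * ‖y‖ ^ 2 := by
  have ha : a = 1 - b := by linarith
  subst ha
  simp only [← real_inner_self_eq_norm_sq, inner_add_left, inner_add_right, inner_sub_left,
    inner_sub_right, real_inner_smul_left, real_inner_smul_right, real_inner_comm x y]
  ring

theorem SLC.ne_top (h : SLC c μ) : SFinite μ := by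
  obtain ⟨ρ, -, -, rfl, -⟩ := h
  infer_instance

/-- Multiplying by a linear function and a Gaussian factor. -/
theorem SLC.tilted (h : SLC c μ) (θ : E n) (T : ℝ) :
    SLC (c + T) (μ.tilted fun x => ⟪θ, x⟫ - T / 2 * ‖x‖ ^ 2) := by
  obtain ⟨ρ, hm, h0, hμ, hlc⟩ := h
  obtain ⟨φ, hφ⟩ : ∃ φ : E n → ℝ, φ = fun x => ⟪θ, x⟫ - T / 2 * ‖x‖ ^ 2 := ⟨_, rfl⟩
  rw [← hφ]
  have hφm : Measurable φ := by rw [hφ]; fun_prop
  obtain ⟨Z, hZ⟩ : ∃ Z, Z = ∫ x, Real.exp (φ x) ∂μ := ⟨_, rfl⟩
  have hZ0 : 0 ≤ Z := hZ ▸ integral_nonneg fun x => (Real.exp_pos _).le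
  refine ⟨fun x => ρ x * (Real.exp (φ x) / Z), hm.mul (hφm.exp.div_const _),
    fun x => mul_nonneg (h0 x) (div_nonneg (Real.exp_pos _).le hZ0), ?_, ?_⟩
  · unfold Measure.tilted
    rw [← hZ]
    have e : (fun x => ENNReal.ofReal (ρ x * (Real.exp (φ x) / Z)))
        = (fun x => ENNReal.ofReal (ρ x)) * fun x => ENNReal.ofReal (Real.exp (φ x) / Z) :=
      funext fun x => ENNReal.ofReal_mul (h0 x)
    rw [e, withDensity_mul _ hm.ennreal_ofReal (hφm.exp.div_const _).ennreal_ofReal, ← hμ]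
  · intro a b x y ha hb hab
    rcases hZ0.eq_or_lt with hz | hz
    · simp [← hz, Real.zero_rpow ha.ne']
    have key : a * φ x + b * φ y + T * (a * b) / 2 * ‖x - y‖ ^ 2 = φ (a • x + b • y) := by
      have := combo_sq a b hab x y
      rw [hφ]
      simp only [inner_add_right, real_inner_smul_right]
      linear_combination T / 2 * this
    show (ρ x * (Real.exp (φ x) / Z)) ^ a * (ρ y * (Real.exp (φ y) / Z)) ^ b * _
      ≤ ρ (a • x + b • y) * (Real.exp (φ (a • x + b • y)) / Z)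
    rw [Real.mul_rpow (h0 x) (by positivity), Real.mul_rpow (h0 y) (by positivity),
      Real.div_rpow (Real.exp_pos _).le hz.le, Real.div_rpow (Real.exp_pos _).le hz.le,
      ← Real.exp_mul, ← Real.exp_mul, ← key]
    have eZ : Z ^ a * Z ^ b = Z := by rw [← Real.rpow_add hz, hab, Real.rpow_one]
    calc ρ x ^ a * (Real.exp (φ x * a) / Z ^ a) * (ρ y ^ b * (Real.exp (φ y * b) / Z ^ b))
          * Real.exp ((c + T) * (a * b) / 2 * ‖x - y‖ ^ 2)
        = ρ x ^ a * ρ y ^ b * Real.exp (c * (a * b) / 2 * ‖x - y‖ ^ 2)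
          * (Real.exp (a * φ x + b * φ y + T * (a * b) / 2 * ‖x - y‖ ^ 2) / (Z ^ a * Z ^ b)) := by
          rw [show (c + T) * (a * b) / 2 * ‖x - y‖ ^ 2 = c * (a * b) / 2 * ‖x - y‖ ^ 2
            + T * (a * b) / 2 * ‖x - y‖ ^ 2 by ring]
          simp only [Real.exp_add, mul_comm a (φ x), mul_comm b (φ y)]
          field_simp
      _ ≤ _ := by
          rw [eZ]
          exact mul_le_mul_of_nonneg_right (hlc a b x y ha hb hab) (by positivity)

/-- Conditioning on a convex set. -/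
theorem SLC.cond (h : SLC c μ) {S : Set (E n)} (hS : Convex ℝ S) (hSm : MeasurableSet S)
    (h0S : μ S ≠ 0) (htS : μ S ≠ ⊤) : SLC c (ProbabilityTheory.cond μ S) := by
  obtain ⟨ρ, hm, h0, hμ, hlc⟩ := h
  obtain ⟨k, hk⟩ : ∃ k, k = (μ S).toReal := ⟨_, rfl⟩
  have hk0 : 0 < k := hk ▸ ENNReal.toReal_pos h0S htS
  refine ⟨fun x => k⁻¹ * S.indicator ρ x, (hm.indicator hSm).const_mul _,
    fun x => mul_nonneg (inv_nonneg.2 hk0.le) (Set.indicator_nonneg (fun y _ => h0 y) x), ?_, ?_⟩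
  · unfold ProbabilityTheory.cond
    have e : (fun x => ENNReal.ofReal (k⁻¹ * S.indicator ρ x))
        = (μ S)⁻¹ • S.indicator fun x => ENNReal.ofReal (ρ x) := by
      funext x
      rw [ENNReal.ofReal_mul (inv_nonneg.2 hk0.le), ENNReal.ofReal_inv_of_pos hk0, hk,
        ENNReal.ofReal_toReal htS]
      by_cases hx : x ∈ S <;> simp [hx]
    rw [e, withDensity_smul' _ _ (ENNReal.inv_ne_top.2 h0S), withDensity_indicator hSm,
      ← restrict_withDensity hSm, ← hμ]
  · intro a b x y ha hb hab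
    by_cases hx : x ∈ S
    swap
    · simp only [Set.indicator_of_notMem hx, mul_zero, Real.zero_rpow ha.ne', zero_mul]
      exact mul_nonneg (inv_nonneg.2 hk0.le) (Set.indicator_nonneg (fun y _ => h0 y) _)
    by_cases hy : y ∈ S
    swap
    · simp only [Set.indicator_of_notMem hy, mul_zero, Real.zero_rpow hb.ne', zero_mul]
      exact mul_nonneg (inv_nonneg.2 hk0.le) (Set.indicator_nonneg (fun y _ => h0 y) _)
    simp only []
    rw [Set.indicator_of_mem hx, Set.indicator_of_mem hy,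
      Set.indicator_of_mem (hS hx hy ha.le hb.le hab),
      Real.mul_rpow (inv_nonneg.2 hk0.le) (h0 x), Real.mul_rpow (inv_nonneg.2 hk0.le) (h0 y)]
    have ek : k⁻¹ ^ a * k⁻¹ ^ b = k⁻¹ := by
      rw [← Real.rpow_add (inv_pos.2 hk0), hab, Real.rpow_one]
    calc k⁻¹ ^ a * ρ x ^ a * (k⁻¹ ^ b * ρ y ^ b) * Real.exp (c * (a * b) / 2 * ‖x - y‖ ^ 2)
        = (k⁻¹ ^ a * k⁻¹ ^ b) * (ρ x ^ a * ρ y ^ b
          * Real.exp (c * (a * b) / 2 * ‖x - y‖ ^ 2)) := by ring
      _ ≤ _ := by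
          rw [ek]
          exact mul_le_mul_of_nonneg_left (hlc a b x y ha hb hab) (inv_nonneg.2 hk0.le)

/-- Prékopa-Leindler for a strongly log-concave measure. -/
theorem SLC.pl (h : SLC c μ) {S : Set (E n)} (hS : Convex ℝ S) (hSm : MeasurableSet S)
    (hμS : μ Sᶜ = 0) {a b : ℝ} (ha : 0 < a) (hb : 0 < b) (hab : a + b = 1) {F G H : E n → ℝ}
    (hF : Measurable F) (hG : Measurable G) (hH : Measurable H) (F0 : ∀ x, 0 ≤ F x)
    (G0 : ∀ x, 0 ≤ G x) (H0 : ∀ x, 0 ≤ H x) (iF : Integrable F μ) (iG : Integrable G μ)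
    (iH : Integrable H μ)
    (hyp : ∀ x ∈ S, ∀ y ∈ S,
      F x ^ a * G y ^ b ≤ H (a • x + b • y) * Real.exp (c * (a * b) / 2 * ‖x - y‖ ^ 2)) :
    (∫ x, F x ∂μ) ^ a * (∫ x, G x ∂μ) ^ b ≤ ∫ x, H x ∂μ := by
  obtain ⟨ρ, hm, h0, hμ, hlc⟩ := h
  obtain ⟨r, hr⟩ : ∃ r, r = S.indicator ρ := ⟨_, rfl⟩
  have rm : Measurable r := hr ▸ hm.indicator hSm
  have r0 : ∀ x, 0 ≤ r x := fun x => hr ▸ Set.indicator_nonneg (fun y _ => h0 y) x
  have hμr : μ = volume.withDensity fun x => ENNReal.ofReal (r x) := by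
    have e : (fun x => ENNReal.ofReal (r x)) = S.indicator fun x => ENNReal.ofReal (ρ x) := by
      funext x
      rw [hr]
      by_cases hx : x ∈ S <;> simp [hx]
    rw [e, withDensity_indicator hSm, ← restrict_withDensity hSm, ← hμ,
      Measure.restrict_eq_self_of_ae_mem (ae_iff.2 hμS)]
  have conv : ∀ Φ : E n → ℝ, Measurable Φ → (∀ x, 0 ≤ Φ x) → Integrable Φ μ →
      ∫⁻ x, ENNReal.ofReal (r x * Φ x) = ENNReal.ofReal (∫ x, Φ x ∂μ) := by
    intro Φ hΦ Φ0 iΦ
    rw [ofReal_integral_eq_lintegral_ofReal iΦ (ae_of_all _ Φ0), hμr,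
      lintegral_withDensity_eq_lintegral_mul _ rm.ennreal_ofReal hΦ.ennreal_ofReal]
    exact lintegral_congr fun x => by rw [Pi.mul_apply, ENNReal.ofReal_mul (r0 x)]
  have key := plw ha hb hab (f := fun x => ENNReal.ofReal (r x * F x))
    (g := fun x => ENNReal.ofReal (r x * G x)) (h := fun x => ENNReal.ofReal (r x * H x))
    (rm.mul hF).ennreal_ofReal (rm.mul hG).ennreal_ofReal (rm.mul hH).ennreal_ofReal ?_
  · rw [conv F hF F0 iF, conv G hG G0 iG, conv H hH H0 iH,
      ENNReal.ofReal_rpow_of_nonneg (integral_nonneg F0) ha.le,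
      ENNReal.ofReal_rpow_of_nonneg (integral_nonneg G0) hb.le,
      ← ENNReal.ofReal_mul (Real.rpow_nonneg (integral_nonneg F0) _),
      ENNReal.ofReal_le_ofReal_iff (integral_nonneg H0)] at key
    exact key
  · intro x y
    rw [ENNReal.ofReal_rpow_of_nonneg (mul_nonneg (r0 x) (F0 x)) ha.le,
      ENNReal.ofReal_rpow_of_nonneg (mul_nonneg (r0 y) (G0 y)) hb.le,
      ← ENNReal.ofReal_mul (Real.rpow_nonneg (mul_nonneg (r0 x) (F0 x)) _)]
    refine ENNReal.ofReal_le_ofReal ?_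
    rw [Real.mul_rpow (r0 x) (F0 x), Real.mul_rpow (r0 y) (G0 y)]
    by_cases hx : x ∈ S
    swap
    · simp only [hr, Set.indicator_of_notMem hx, Real.zero_rpow ha.ne', zero_mul]
      exact mul_nonneg (Set.indicator_nonneg (fun y _ => h0 y) _) (H0 _)
    by_cases hy : y ∈ S
    swap
    · simp only [hr, Set.indicator_of_notMem hy, Real.zero_rpow hb.ne', zero_mul, mul_zero]
      exact mul_nonneg (Set.indicator_nonneg (fun y _ => h0 y) _) (H0 _)
    simp only [hr, Set.indicator_of_mem hx, Set.indicator_of_mem hy,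
      Set.indicator_of_mem (hS hx hy ha.le hb.le hab)]
    calc ρ x ^ a * F x ^ a * (ρ y ^ b * G y ^ b) = ρ x ^ a * ρ y ^ b * (F x ^ a * G y ^ b) := by ring
      _ ≤ ρ x ^ a * ρ y ^ b * (H (a • x + b • y) * Real.exp (c * (a * b) / 2 * ‖x - y‖ ^ 2)) :=
          mul_le_mul_of_nonneg_left (hyp x hx y hy)
            (mul_nonneg (Real.rpow_nonneg (h0 x) _) (Real.rpow_nonneg (h0 y) _))
      _ = ρ x ^ a * ρ y ^ b * Real.exp (c * (a * b) / 2 * ‖x - y‖ ^ 2) * H (a • x + b • y) := by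
          ring
      _ ≤ _ := mul_le_mul_of_nonneg_right (hlc a b x y ha hb hab) (H0 _)

/-- Continuous functions are integrable for a finite measure carried by a ball. -/
theorem intBall [IsFiniteMeasure μ] {R : ℝ} (hμ : μ (Metric.closedBall 0 R)ᶜ = 0) {f : E n → ℝ}
    (hf : Continuous f) : Integrable f μ := by
  rw [← Measure.restrict_eq_self_of_ae_mem (μ := μ) (ae_iff.2 hμ)]
  exact hf.continuousOn.integrableOn_compact (isCompact_closedBall _ _)

/-- Bounded measurable functions are integrable. -/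
theorem intBdd [IsFiniteMeasure μ] {f : E n → ℝ} (hm : Measurable f) {M : ℝ}
    (hb : ∀ x, |f x| ≤ M) : Integrable f μ :=
  (integrable_const M).mono' hm.aestronglyMeasurable (ae_of_all _ fun x => by simpa using hb x)

/-- The exponential moment of a linear function. -/
theorem SLC.mgf [IsProbabilityMeasure μ] (h : SLC c μ) (hc : 0 < c) {R : ℝ}
    (hμ : μ (Metric.closedBall 0 R)ᶜ = 0) (u : E n) :
    ∫ x, Real.exp ⟪u, x⟫ ∂μ ≤ Real.exp ((∫ x, ⟪u, x⟫ ∂μ) + ‖u‖ ^ 2 / c) := by
  obtain ⟨A, eA⟩ : ∃ A, A = ∫ x, Real.exp ⟪u, x⟫ ∂μ := ⟨_, rfl⟩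
  obtain ⟨B, eB⟩ : ∃ B, B = ∫ x, Real.exp (-⟪u, x⟫) ∂μ := ⟨_, rfl⟩
  obtain ⟨m, em⟩ : ∃ m, m = ∫ x, ⟪u, x⟫ ∂μ := ⟨_, rfl⟩
  have c1 : Continuous fun x : E n => Real.exp ⟪u, x⟫ := by fun_prop
  have c2 : Continuous fun x : E n => Real.exp (-⟪u, x⟫) := by fun_prop
  have c3 : Continuous fun x : E n => ⟪u, x⟫ := by fun_prop
  have hpl := h.pl (convex_closedBall 0 R) measurableSet_closedBall hμ
    (a := 1 / 2) (b := 1 / 2) (by norm_num) (by norm_num) (by norm_num)
    (F := fun x => Real.exp ⟪u, x⟫) (G := fun x => Real.exp (-⟪u, x⟫))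
    (H := fun _ => Real.exp (‖u‖ ^ 2 / (2 * c))) c1.measurable c2.measurable measurable_const
    (fun x => (Real.exp_pos _).le) (fun x => (Real.exp_pos _).le) (fun x => (Real.exp_pos _).le)
    (intBall hμ c1) (intBall hμ c2) (integrable_const _) ?_
  swap
  · intro x _ y _
    rw [← Real.exp_mul, ← Real.exp_mul, ← Real.exp_add, ← Real.exp_add, Real.exp_le_exp]
    have h1 := real_inner_le_norm u (x - y)
    rw [inner_sub_right] at h1
    have h2 : ‖u‖ * ‖x - y‖ / 2 ≤ ‖u‖ ^ 2 / (2 * c) + c * ‖x - y‖ ^ 2 / 8 := by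
      rw [div_add_div _ _ (by positivity) (by norm_num), div_le_div_iff₀ (by norm_num) (by positivity)]
      nlinarith [sq_nonneg (2 * ‖u‖ - c * ‖x - y‖)]
    linarith
  rw [← eA, ← eB, integral_const, probReal_univ, one_smul] at hpl
  rw [← eA, ← em]
  have hA : 0 ≤ A := eA ▸ integral_nonneg fun x => (Real.exp_pos _).le
  have hB : Real.exp (-m) ≤ B := by
    have hmono : ∫ x, Real.exp (-m) * (1 + (m - ⟪u, x⟫)) ∂μ ≤ B := by
      rw [eB]
      refine integral_mono (intBall hμ (by fun_prop)) (intBall hμ c2) fun x => ?_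
      have := Real.add_one_le_exp (m - ⟪u, x⟫)
      calc Real.exp (-m) * (1 + (m - ⟪u, x⟫)) ≤ Real.exp (-m) * Real.exp (m - ⟪u, x⟫) := by
            gcongr
            linarith
        _ = Real.exp (-⟪u, x⟫) := by rw [← Real.exp_add]; congr 1; ring
    rw [integral_const_mul, integral_add (g := fun x => m - ⟪u, x⟫) (integrable_const _)
        ((integrable_const m).sub (intBall hμ c3)),
      integral_sub (integrable_const _) (intBall hμ c3), integral_const, integral_const,
      probReal_univ, one_smul, one_smul, ← em, sub_self, add_zero, mul_one] at hmono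
    exact hmono
  have hB0 : 0 ≤ B := (Real.exp_pos _).le.trans hB
  rw [← Real.sqrt_eq_rpow, ← Real.sqrt_eq_rpow, ← Real.sqrt_mul hA,
    Real.sqrt_le_left (Real.exp_pos _).le, ← Real.exp_nat_mul] at hpl
  have h3 : A * Real.exp (-m) ≤ Real.exp (‖u‖ ^ 2 / c) := by
    refine (mul_le_mul_of_nonneg_left hB hA).trans (hpl.trans (le_of_eq ?_))
    congr 1
    push_cast
    field_simp
  calc A = A * Real.exp (-m) * Real.exp m := by rw [mul_assoc, ← Real.exp_add]; simp
    _ ≤ Real.exp (‖u‖ ^ 2 / c) * Real.exp m := by gcongr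
    _ = _ := by rw [← Real.exp_add, add_comm]

theorem exp_le_quadratic {y : ℝ} (hy : 0 ≤ y) : Real.exp y ≤ 1 + y + y ^ 2 * Real.exp y := by
  have h : Real.exp y - 1 ≤ y * Real.exp y := by
    have := Real.add_one_le_exp (-y)
    have h2 : Real.exp y * Real.exp (-y) = 1 := by rw [← Real.exp_add]; simp
    nlinarith [Real.exp_pos y]
  nlinarith [mul_le_mul_of_nonneg_left h hy]

/-- The common limiting step in the two entropy inequalities. -/
theorem ent_of_pl [IsProbabilityMeasure μ] {φ B : E n → ℝ} {lm M : ℝ} (hφ : Continuous φ)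
    (hφb : ∀ x, |φ x| ≤ M) (hB : Measurable B) (hB0 : ∀ x, 0 ≤ B x) {MB : ℝ}
    (hBb : ∀ x, B x ≤ MB) {δ : ℝ} (hδ : 0 < δ)
    (hyp : ∀ t : ℝ, 0 < t → t < δ → t < 1 →
      (∫ x, Real.exp (φ x / (1 - t)) ∂μ) ^ (1 - t) * Real.exp (t * lm)
        ≤ ∫ x, Real.exp (φ x + t * B x) ∂μ) :
    Ent μ (fun x => Real.exp (φ x))
      ≤ ∫ x, Real.exp (φ x) * B x ∂μ - lm * ∫ x, Real.exp (φ x) ∂μ := by
  obtain ⟨A, eA⟩ : ∃ A, A = ∫ x, Real.exp (φ x) ∂μ := ⟨_, rfl⟩
  have hφm := hφ.measurable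
  have habs : ∀ x, |Real.exp (φ x)| ≤ Real.exp M := fun x => by
    rw [abs_of_pos (Real.exp_pos _)]
    exact Real.exp_le_exp.2 (le_of_abs_le (hφb x))
  have ip : Integrable (fun x => Real.exp (φ x)) μ := intBdd hφm.exp habs
  have ipl : Integrable (fun x => Real.exp (φ x) * φ x) μ :=
    intBdd (hφm.exp.mul hφm) (M := Real.exp M * M) fun x => by
      rw [abs_mul]
      exact mul_le_mul (habs x) (hφb x) (abs_nonneg _) (Real.exp_pos _).le
  have hBa : ∀ x, |B x| ≤ MB := fun x => by rw [abs_of_nonneg (hB0 x)]; exact hBb x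
  have ipB : Integrable (fun x => Real.exp (φ x) * B x) μ :=
    intBdd (hφm.exp.mul hB) (M := Real.exp M * MB) fun x => by
      rw [abs_mul]
      exact mul_le_mul (habs x) (hBa x) (abs_nonneg _) (Real.exp_pos _).le
  have hA : 0 < A := eA ▸ integral_exp_pos ip
  obtain ⟨m, em⟩ : ∃ m, m = (∫ x, Real.exp (φ x) * φ x ∂μ) / A := ⟨_, rfl⟩
  have eEnt : Ent μ (fun x => Real.exp (φ x)) = A * (m - Real.log A) := by
    unfold Ent
    simp only [Real.log_exp, ← eA, em]
    field_simp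
  obtain ⟨K, eK⟩ : ∃ K, K = MB ^ 2 * Real.exp MB * Real.exp M := ⟨_, rfl⟩
  have main : ∀ t : ℝ, 0 < t → t < δ → t < 1 →
      A * (m - Real.log A + lm) ≤ ∫ x, Real.exp (φ x) * B x ∂μ + t * K := by
    intro t ht htd ht1
    obtain ⟨k, ek⟩ : ∃ k, k = 1 / (1 - t) - 1 := ⟨_, rfl⟩
    have hs : 0 < 1 - t := by linarith
    have ibig : Integrable (fun x => Real.exp (φ x / (1 - t))) μ :=
      intBdd (hφm.div_const _).exp (M := Real.exp (M / (1 - t))) fun x => by
        rw [abs_of_pos (Real.exp_pos _)]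
        exact Real.exp_le_exp.2 ((div_le_div_iff_of_pos_right hs).2 (le_of_abs_le (hφb x)))
    have low : Real.exp (k * m) * A ≤ ∫ x, Real.exp (φ x / (1 - t)) ∂μ := by
      have h1 : ∫ x, (Real.exp (k * m) * (1 - k * m) * Real.exp (φ x)
          + Real.exp (k * m) * k * (Real.exp (φ x) * φ x)) ∂μ
          ≤ ∫ x, Real.exp (φ x / (1 - t)) ∂μ := by
        refine integral_mono ((ip.const_mul _).add (ipl.const_mul _)) ibig fun x => ?_
        have h2 := Real.add_one_le_exp (k * φ x - k * m)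
        have h3 : Real.exp (φ x / (1 - t))
            = Real.exp (φ x) * Real.exp (k * m) * Real.exp (k * φ x - k * m) := by
          rw [← Real.exp_add, ← Real.exp_add]
          congr 1
          rw [ek]
          ring
        show Real.exp (k * m) * (1 - k * m) * Real.exp (φ x)
          + Real.exp (k * m) * k * (Real.exp (φ x) * φ x) ≤ Real.exp (φ x / (1 - t))
        rw [h3]
        nlinarith [mul_le_mul_of_nonneg_left h2
          (mul_pos (Real.exp_pos (φ x)) (Real.exp_pos (k * m))).le]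
      rw [integral_add (ip.const_mul _) (ipl.const_mul _), integral_const_mul, integral_const_mul,
        ← eA] at h1
      have e : Real.exp (k * m) * (1 - k * m) * A
          + Real.exp (k * m) * k * ∫ x, Real.exp (φ x) * φ x ∂μ = Real.exp (k * m) * A := by
        rw [show (∫ x, Real.exp (φ x) * φ x ∂μ) = m * A by rw [em]; field_simp]
        ring
      rw [e] at h1
      exact h1
    have low2 : A * Real.exp (t * (m - Real.log A)) * Real.exp (t * lm)
        ≤ ∫ x, Real.exp (φ x + t * B x) ∂μ := by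
      refine le_trans ?_ (hyp t ht htd ht1)
      refine mul_le_mul_of_nonneg_right ?_ (Real.exp_pos _).le
      refine le_trans (le_of_eq ?_) (Real.rpow_le_rpow (by positivity) low hs.le)
      rw [Real.mul_rpow (Real.exp_pos _).le hA.le, ← Real.exp_mul, Real.rpow_def_of_pos hA,
        ← Real.exp_add]
      nth_rw 1 [← Real.exp_log hA]
      rw [← Real.exp_add]
      congr 1
      have e : k * (1 - t) = t := by rw [ek]; field_simp; ring
      linear_combination (-m) * e
    have up : ∫ x, Real.exp (φ x + t * B x) ∂μ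
        ≤ A + t * ∫ x, Real.exp (φ x) * B x ∂μ + t ^ 2 * K := by
      have i1 : Integrable (fun x => Real.exp (φ x + t * B x)) μ :=
        intBdd (hφm.add (hB.const_mul t)).exp (M := Real.exp (M + t * MB)) fun x => by
          rw [abs_of_pos (Real.exp_pos _)]
          exact Real.exp_le_exp.2 (add_le_add (le_of_abs_le (hφb x))
            (mul_le_mul_of_nonneg_left (hBb x) ht.le))
      refine (integral_mono (g := fun x => Real.exp (φ x) + t * (Real.exp (φ x) * B x) + t ^ 2 * K) i1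
        ((ip.add (ipB.const_mul t)).add (integrable_const (t ^ 2 * K))) fun x => ?_).trans_eq ?_
      · show Real.exp (φ x + t * B x)
          ≤ Real.exp (φ x) + t * (Real.exp (φ x) * B x) + t ^ 2 * K
        rw [Real.exp_add]
        have h1 := exp_le_quadratic (mul_nonneg ht.le (hB0 x))
        have h2 : Real.exp (φ x) * ((t * B x) ^ 2 * Real.exp (t * B x)) ≤ t ^ 2 * K := by
          rw [eK, mul_pow]
          have e1 : Real.exp (t * B x) ≤ Real.exp MB :=
            Real.exp_le_exp.2 ((mul_le_of_le_one_left (hB0 x) ht1.le).trans (hBb x))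
          have e2 : B x ^ 2 ≤ MB ^ 2 := pow_le_pow_left₀ (hB0 x) (hBb x) 2
          calc Real.exp (φ x) * (t ^ 2 * B x ^ 2 * Real.exp (t * B x))
              ≤ Real.exp M * (t ^ 2 * MB ^ 2 * Real.exp MB) := by
                refine mul_le_mul (Real.exp_le_exp.2 (le_of_abs_le (hφb x))) ?_ ?_ (Real.exp_pos _).le
                · gcongr
                · positivity
            _ = _ := by ring
        nlinarith [mul_le_mul_of_nonneg_left h1 (Real.exp_pos (φ x)).le]
      · rw [integral_add (f := fun x => Real.exp (φ x) + t * (Real.exp (φ x) * B x))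
          (ip.add (ipB.const_mul t)) (integrable_const _), integral_add ip (ipB.const_mul t),
          integral_const_mul, integral_const, probReal_univ, one_smul, ← eA]
    have h4 := low2.trans up
    rw [mul_assoc, ← Real.exp_add] at h4
    have h5 := mul_le_mul_of_nonneg_left
      (Real.add_one_le_exp (t * (m - Real.log A) + t * lm)) hA.le
    nlinarith
  rw [eEnt, ← eA]
  have : A * (m - Real.log A + lm) ≤ ∫ x, Real.exp (φ x) * B x ∂μ := by
    refine le_of_forall_pos_lt_add fun ε hε => ?_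
    obtain ⟨t, ht, h1, h2, h3⟩ : ∃ t : ℝ, 0 < t ∧ t < δ ∧ t < 1 ∧ t * K < ε := by
      have hK : 0 ≤ K := eK ▸ by positivity
      refine ⟨min (min (δ / 2) (1 / 2)) (ε / (2 * (K + 1))), ?_, ?_, ?_, ?_⟩
      · positivity
      · exact ((min_le_left _ _).trans (min_le_left _ _)).trans_lt (by linarith)
      · exact ((min_le_left _ _).trans (min_le_right _ _)).trans_lt (by norm_num)
      · refine (mul_le_mul_of_nonneg_right (min_le_right _ _) hK).trans_lt ?_
        rw [div_mul_eq_mul_div, div_lt_iff₀ (by positivity)]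
        nlinarith
    linarith [main t ht h1 h2]
  linarith

end Vale.Agent.P245.LSI
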