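import Mathlib
import Vale.Agent.P245.LSI.SLC

namespace Vale.Agent.P245.LSI

open MeasureTheory Set Filter
open scoped ENNReal RealInnerProductSpace Topology

variable {n : ℕ} {μ : Measure (E n)} {c : ℝ}

theorem mvt_seg {φ : E n → ℝ} (hφ : ContDiff ℝ 1 φ) {y z : E n} {L : ℝ}
    (hL : ∀ w ∈ segment ℝ z y, ‖fderiv ℝ φ w‖ ≤ L) : φ y ≤ φ z + L * ‖y - z‖ := by
  have h := (convex_segment z y).norm_image_sub_le_of_norm_fderiv_le
    (fun w _ => (hφ.differentiable one_ne_zero).differentiableAt) hL (left_mem_segment ℝ z y)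
    (right_mem_segment ℝ z y)
  linarith [le_abs_self (φ y - φ z), (Real.norm_eq_abs (φ y - φ z)).symm.le, h,
    (Real.norm_eq_abs (φ y - φ z)).le]

theorem unif_deriv {φ : E n → ℝ} (hφ : ContDiff ℝ 1 φ) (R : ℝ) {η : ℝ} (hη : 0 < η) :
    ∃ δ > 0, ∀ y z, ‖y‖ ≤ R → ‖z‖ ≤ R → ‖y - z‖ < δ →
      φ y ≤ φ z + (‖fderiv ℝ φ z‖ + η) * ‖y - z‖ := by
  have hu := (isCompact_closedBall (0 : E n) R).uniformContinuousOn_of_continuous
    (hφ.continuous_fderiv one_ne_zero).continuousOn
  obtain ⟨δ, hδ, h⟩ := Metric.uniformContinuousOn_iff.1 hu η hη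
  refine ⟨δ, hδ, fun y z hy hz hyz => mvt_seg hφ fun w hw => ?_⟩
  have hwB : w ∈ Metric.closedBall (0 : E n) R :=
    (convex_closedBall (0 : E n) R).segment_subset (by simpa using hz) (by simpa using hy) hw
  have hwz : dist w z < δ := by
    obtain ⟨s, t, hs, ht, hst, rfl⟩ := hw
    rw [dist_eq_norm]
    have e : s • z + t • y - z = t • (y - z) := by
      rw [show s = 1 - t by linarith]; module
    rw [e, norm_smul, Real.norm_of_nonneg ht]
    exact (mul_le_of_le_one_left (norm_nonneg _) (by linarith)).trans_lt hyz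
  have h2 := h w hwB z (by simpa using hz) hwz
  rw [dist_eq_norm] at h2
  linarith [norm_le_norm_add_norm_sub' (fderiv ℝ φ w) (fderiv ℝ φ z)]

theorem bdd_continuous_of_compact {f : E n → ℝ} (hf : Continuous f) (R : ℝ) :
    ∃ M, 0 ≤ M ∧ ∀ x, ‖x‖ ≤ R → |f x| ≤ M := by
  obtain ⟨M, hM⟩ := (isCompact_closedBall (0 : E n) R).exists_bound_of_continuousOn hf.continuousOn
  exact ⟨max M 0, le_max_right _ _, fun x hx => ((Real.norm_eq_abs _).ge.trans
    (hM x (by simpa using hx))).trans (le_max_left _ _)⟩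

/-- The exponential form of the log-Sobolev inequality. -/
theorem SLC.lsi_exp [IsProbabilityMeasure μ] (h : SLC c μ) (hc : 0 < c) {R : ℝ}
    (hμ : μ (Metric.closedBall 0 R)ᶜ = 0) {φ : E n → ℝ} (hφ : ContDiff ℝ 1 φ) {M : ℝ}
    (hφb : ∀ x, |φ x| ≤ M) :
    Ent μ (fun x => Real.exp (φ x))
      ≤ 1 / (2 * c) * ∫ x, Real.exp (φ x) * ‖fderiv ℝ φ x‖ ^ 2 ∂μ := by
  have cD : Continuous fun x => ‖fderiv ℝ φ x‖ := (hφ.continuous_fderiv one_ne_zero).norm
  have cφ : Continuous φ := hφ.continuous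
  obtain ⟨MD, -, hMD⟩ := bdd_continuous_of_compact cD R
  have key : ∀ η : ℝ, 0 < η → η < 1 → Ent μ (fun x => Real.exp (φ x))
      ≤ ∫ x, Real.exp (φ x) * ((‖fderiv ℝ φ x‖ + η) ^ 2 / (2 * c * (1 - η))) ∂μ := by
    intro η hη hη1
    obtain ⟨B, eB⟩ : ∃ B : E n → ℝ, B = fun x => (Metric.closedBall (0 : E n) R).indicator
        (fun x => (‖fderiv ℝ φ x‖ + η) ^ 2 / (2 * c * (1 - η))) x := ⟨_, rfl⟩
    have hden : 0 < 2 * c * (1 - η) := by nlinarith
    have hB : Measurable B := eB ▸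
      (((cD.add continuous_const).pow 2).div_const _).measurable.indicator measurableSet_closedBall
    have hB0 : ∀ x, 0 ≤ B x := fun x => by
      rw [eB]
      exact Set.indicator_nonneg (fun y _ => div_nonneg (sq_nonneg _) hden.le) x
    have hBb : ∀ x, B x ≤ (MD + η) ^ 2 / (2 * c * (1 - η)) := fun x => by
      rw [eB]
      refine Set.indicator_le' (fun y hy => ?_)
        (fun y _ => div_nonneg (sq_nonneg _) hden.le) x
      gcongr
      exact le_of_abs_le (hMD y (by simpa using hy))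
    obtain ⟨δ, hδ, hd⟩ := unif_deriv hφ R hη
    refine (ent_of_pl (lm := 0) (δ := min η (δ / (2 * (|R| + 1)))) cφ hφb hB hB0 hBb
      (lt_min hη (by positivity)) ?_).trans_eq ?_
    swap
    · rw [zero_mul, sub_zero]
      refine integral_congr_ae ((ae_iff.2 hμ).mono fun x hx => ?_)
      show _ * B x = _
      rw [eB]
      simp only [Set.indicator_of_mem (show x ∈ Metric.closedBall (0 : E n) R from hx)]
    intro t ht htd ht1
    have htη : t < η := htd.trans_le (min_le_left _ _)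
    have hs : 0 < 1 - t := by linarith
    have iF : Continuous fun x => Real.exp (φ x / (1 - t)) := by fun_prop
    have iH : Integrable (fun x => Real.exp (φ x + t * B x)) μ :=
      intBdd (cφ.measurable.add (hB.const_mul t)).exp
        (M := Real.exp (M + t * ((MD + η) ^ 2 / (2 * c * (1 - η))))) fun x => by
          rw [abs_of_pos (Real.exp_pos _)]
          exact Real.exp_le_exp.2 (add_le_add (le_of_abs_le (hφb x))
            (mul_le_mul_of_nonneg_left (hBb x) ht.le))
    have hpl := h.pl (convex_closedBall 0 R) measurableSet_closedBall hμ (a := 1 - t) (b := t) hs ht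
      (by ring) (F := fun x => Real.exp (φ x / (1 - t))) (G := fun _ => (1 : ℝ))
      (H := fun x => Real.exp (φ x + t * B x)) iF.measurable measurable_const
      (cφ.measurable.add (hB.const_mul t)).exp (fun x => (Real.exp_pos _).le) (fun x => zero_le_one)
      (fun x => (Real.exp_pos _).le) (intBall hμ iF) (integrable_const _) iH ?_
    · rw [integral_const, probReal_univ, one_smul, Real.one_rpow, mul_one] at hpl
      rw [mul_zero, Real.exp_zero, mul_one]
      exact hpl
    intro y hy x hx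
    rw [Real.one_rpow, mul_one, ← Real.exp_mul, div_mul_cancel₀ _ hs.ne', ← Real.exp_add,
      Real.exp_le_exp]
    obtain ⟨z, ez⟩ : ∃ z, z = (1 - t) • y + t • x := ⟨_, rfl⟩
    have hz : z ∈ Metric.closedBall (0 : E n) R :=
      ez ▸ (convex_closedBall (0 : E n) R) hy hx hs.le ht.le (by ring)
    rw [mem_closedBall_zero_iff] at hy hx
    have eyz : ‖y - z‖ = t * ‖y - x‖ := by
      rw [ez, show y - ((1 - t) • y + t • x) = t • (y - x) by module, norm_smul,
        Real.norm_of_nonneg ht.le]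
    have hyx : ‖y - x‖ ≤ 2 * (|R| + 1) := by
      linarith [norm_sub_le y x, le_abs_self R]
    have hlt : ‖y - z‖ < δ := by
      rw [eyz]
      refine (mul_le_mul_of_nonneg_left hyx ht.le).trans_lt ?_
      have := htd.trans_le (min_le_right _ _)
      rwa [lt_div_iff₀ (by positivity)] at this
    have hm := hd y z hy (by simpa using hz) hlt
    rw [eyz] at hm
    rw [← ez]
    have eBz : B z = (‖fderiv ℝ φ z‖ + η) ^ 2 / (2 * c * (1 - η)) := by
      rw [eB]; exact Set.indicator_of_mem hz _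
    obtain ⟨L, eL⟩ : ∃ L, L = ‖fderiv ℝ φ z‖ + η := ⟨_, rfl⟩
    rw [← eL] at hm eBz
    obtain ⟨d, ed⟩ : ∃ d, d = ‖y - x‖ := ⟨_, rfl⟩
    rw [← ed] at hm ⊢
    have h2 : L * d ≤ B z + c * (1 - η) / 2 * d ^ 2 := by
      rw [eBz, div_add' _ _ _ hden.ne', le_div_iff₀ hden]
      nlinarith [sq_nonneg (L - c * (1 - η) * d)]
    have h3 : c * (1 - η) / 2 * d ^ 2 ≤ c * (1 - t) / 2 * d ^ 2 := by gcongr
    have h4 := mul_le_mul_of_nonneg_left (h2.trans (by linarith : _ ≤ B z + c * (1 - t) / 2 * d ^ 2))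
      ht.le
    linarith
  have i2 : Integrable (fun x => Real.exp (φ x) * ‖fderiv ℝ φ x‖ ^ 2) μ := intBall hμ (by fun_prop)
  have i1 : Integrable (fun x => Real.exp (φ x) * ‖fderiv ℝ φ x‖) μ := intBall hμ (by fun_prop)
  have i0 : Integrable (fun x => Real.exp (φ x)) μ := intBall hμ (by fun_prop)
  have e : ∀ η : ℝ, ∫ x, Real.exp (φ x) * ((‖fderiv ℝ φ x‖ + η) ^ 2 / (2 * c * (1 - η))) ∂μ
      = ((∫ x, Real.exp (φ x) * ‖fderiv ℝ φ x‖ ^ 2 ∂μ)
        + 2 * η * (∫ x, Real.exp (φ x) * ‖fderiv ℝ φ x‖ ∂μ)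
        + η ^ 2 * ∫ x, Real.exp (φ x) ∂μ) / (2 * c * (1 - η)) := fun η => by
    rw [← integral_const_mul, ← integral_const_mul, ← integral_add i2 (i1.const_mul _),
      ← integral_add (f := fun x => Real.exp (φ x) * ‖fderiv ℝ φ x‖ ^ 2
        + 2 * η * (Real.exp (φ x) * ‖fderiv ℝ φ x‖)) (i2.add (i1.const_mul _)) (i0.const_mul _),
      ← integral_div]
    exact integral_congr_ae (ae_of_all _ fun x => by ring)
  obtain ⟨F, eF⟩ : ∃ F : ℝ → ℝ, F = fun η => ((∫ x, Real.exp (φ x) * ‖fderiv ℝ φ x‖ ^ 2 ∂μ)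
        + 2 * η * (∫ x, Real.exp (φ x) * ‖fderiv ℝ φ x‖ ∂μ)
        + η ^ 2 * ∫ x, Real.exp (φ x) ∂μ) / (2 * c * (1 - η)) := ⟨_, rfl⟩
  have hF : Tendsto F (𝓝[>] 0) (𝓝 (F 0)) := by
    refine (ContinuousAt.tendsto ?_).mono_left nhdsWithin_le_nhds
    rw [eF]
    refine ContinuousAt.div (by fun_prop) (by fun_prop) ?_
    norm_num
    exact hc.ne'
  refine (ge_of_tendsto hF ?_).trans_eq (by simp [eF]; ring)
  filter_upwards [Ioo_mem_nhdsGT (zero_lt_one (α := ℝ))] with η hη
  rw [eF]
  exact (key η hη.1 hη.2).trans_eq (e η)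

/-- The small-set entropy inequality. -/
theorem SLC.small_exp [IsProbabilityMeasure μ] (h : SLC 0 μ) {r lm : ℝ} (hr : 0 ≤ r)
    (hlm : Real.exp lm ≤ (μ (Metric.closedBall 0 r)).toReal) {φ : E n → ℝ} (hφ : ContDiff ℝ 1 φ)
    {M : ℝ} (hφb : ∀ x, |φ x| ≤ M) {R1 : ℝ} (hsupp : ∀ x, R1 < ‖x‖ → fderiv ℝ φ x = 0) :
    Ent μ (fun x => Real.exp (φ x))
      ≤ ∫ x, Real.exp (φ x) * ((‖x‖ + r) * ‖fderiv ℝ φ x‖) ∂μ
        - lm * ∫ x, Real.exp (φ x) ∂μ := by
  have cD : Continuous fun x => ‖fderiv ℝ φ x‖ := (hφ.continuous_fderiv one_ne_zero).norm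
  have cφ : Continuous φ := hφ.continuous
  obtain ⟨R0, eR0⟩ : ∃ R0, R0 = 2 * (|R1| + r + 1) := ⟨_, rfl⟩
  have hR1 : |R1| < R0 / 2 := by rw [eR0]; linarith [abs_nonneg R1]
  have hrR : r ≤ R0 := by rw [eR0]; linarith [abs_nonneg R1]
  have hR0 : 0 < R0 := by linarith [abs_nonneg R1]
  obtain ⟨MD, hMD0, hMD⟩ := bdd_continuous_of_compact cD R0
  have hDg : ∀ x, ‖fderiv ℝ φ x‖ ≤ MD := fun x => by
    rcases le_or_gt ‖x‖ R0 with hx | hx
    · exact le_of_abs_le (hMD x hx)
    · rw [hsupp x (by linarith [le_abs_self R1, hx, hR1, abs_nonneg R1]), norm_zero]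
      exact hMD0
  have key : ∀ η : ℝ, 0 < η → η < 1 → Ent μ (fun x => Real.exp (φ x))
      ≤ (1 - η)⁻¹ * (∫ x, Real.exp (φ x) * ((Metric.closedBall (0 : E n) R0).indicator
          (fun x => (‖x‖ + r) * (‖fderiv ℝ φ x‖ + η)) x) ∂μ)
        - lm * ∫ x, Real.exp (φ x) ∂μ := by
    intro η hη hη1
    have hinv : 0 ≤ (1 - η)⁻¹ := inv_nonneg.2 (by linarith)
    obtain ⟨B, eB⟩ : ∃ B : E n → ℝ, B = fun x => (1 - η)⁻¹ *
        (Metric.closedBall (0 : E n) R0).indicator (fun x => (‖x‖ + r) * (‖fderiv ℝ φ x‖ + η)) x :=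
      ⟨_, rfl⟩
    have hB : Measurable B := eB ▸ (((continuous_norm.add continuous_const).mul
      (cD.add continuous_const)).measurable.indicator measurableSet_closedBall).const_mul _
    have hB0 : ∀ x, 0 ≤ B x := fun x => by
      rw [eB]
      exact mul_nonneg hinv (Set.indicator_nonneg (fun y _ => by positivity) x)
    have hBb : ∀ x, B x ≤ (1 - η)⁻¹ * ((R0 + r) * (MD + η)) := fun x => by
      rw [eB]
      refine mul_le_mul_of_nonneg_left ?_ hinv
      refine Set.indicator_le' (g := fun _ => (R0 + r) * (MD + η)) (fun y hy => ?_)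
        (fun y _ => by positivity) x
      gcongr
      · simpa using hy
      · exact hDg y
    obtain ⟨δ, hδ, hd⟩ := unif_deriv hφ (2 * R0) hη
    refine (ent_of_pl (lm := lm) (δ := min (min η (1 / 8)) (δ / (4 * R0))) cφ hφb hB hB0 hBb
      (by positivity) ?_).trans_eq ?_
    swap
    · congr 1
      rw [← integral_const_mul]
      exact integral_congr_ae (ae_of_all _ fun x => by rw [eB]; ring)
    intro t ht htd ht1
    have htη : t < η := htd.trans_le ((min_le_left _ _).trans (min_le_left _ _))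
    have ht8 : t < 1 / 8 := htd.trans_le ((min_le_left _ _).trans (min_le_right _ _))
    have hs : 0 < 1 - t := by linarith
    have mF : Measurable fun x => Real.exp (φ x / (1 - t)) := (cφ.measurable.div_const _).exp
    have iF : Integrable (fun x => Real.exp (φ x / (1 - t))) μ :=
      intBdd mF (M := Real.exp (M / (1 - t))) fun x => by
        rw [abs_of_pos (Real.exp_pos _)]
        exact Real.exp_le_exp.2 ((div_le_div_iff_of_pos_right hs).2 (le_of_abs_le (hφb x)))
    have iH : Integrable (fun x => Real.exp (φ x + t * B x)) μ :=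
      intBdd (cφ.measurable.add (hB.const_mul t)).exp
        (M := Real.exp (M + t * ((1 - η)⁻¹ * ((R0 + r) * (MD + η))))) fun x => by
          rw [abs_of_pos (Real.exp_pos _)]
          exact Real.exp_le_exp.2 (add_le_add (le_of_abs_le (hφb x))
            (mul_le_mul_of_nonneg_left (hBb x) ht.le))
    have hpl := h.pl convex_univ MeasurableSet.univ (by simp) (a := 1 - t) (b := t) hs ht
      (by ring) (F := fun x => Real.exp (φ x / (1 - t)))
      (G := (Metric.closedBall (0 : E n) r).indicator fun _ => (1 : ℝ))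
      (H := fun x => Real.exp (φ x + t * B x)) mF (measurable_const.indicator measurableSet_closedBall)
      (cφ.measurable.add (hB.const_mul t)).exp (fun x => (Real.exp_pos _).le)
      (fun x => Set.indicator_nonneg (fun _ _ => zero_le_one) x) (fun x => (Real.exp_pos _).le)
      iF ((integrable_const _).indicator measurableSet_closedBall) iH ?_
    · rw [integral_indicator_const _ measurableSet_closedBall, smul_eq_mul, mul_one] at hpl
      refine le_trans (mul_le_mul_of_nonneg_left ?_ (Real.rpow_nonneg (integral_nonneg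
        fun x => (Real.exp_pos _).le) _)) hpl
      rw [mul_comm t lm, Real.exp_mul]
      exact Real.rpow_le_rpow (Real.exp_pos _).le hlm ht.le
    intro y _ x _
    by_cases hx : x ∈ Metric.closedBall (0 : E n) r
    swap
    · simp only [Set.indicator_of_notMem hx, Real.zero_rpow ht.ne', mul_zero]
      positivity
    rw [Set.indicator_of_mem hx, Real.one_rpow, mul_one, ← Real.exp_mul,
      div_mul_cancel₀ _ hs.ne', ← Real.exp_add, Real.exp_le_exp, zero_mul, zero_div, zero_mul,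
      add_zero]
    rw [mem_closedBall_zero_iff] at hx
    obtain ⟨z, ez⟩ : ∃ z, z = (1 - t) • y + t • x := ⟨_, rfl⟩
    rw [← ez]
    have eyz : ‖y - z‖ * (1 - t) = t * ‖z - x‖ := by
      rw [← Real.norm_of_nonneg hs.le, mul_comm, ← norm_smul, ← Real.norm_of_nonneg ht.le,
        ← norm_smul, ez]
      congr 1
      simp only [Real.norm_of_nonneg ht.le]
      module
    have hzx : ‖z - x‖ ≤ ‖z‖ + r := by linarith [norm_sub_le z x]
    have hyz : ‖y - z‖ ≤ (1 - t)⁻¹ * (t * (‖z‖ + r)) := by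
      rw [← div_eq_inv_mul, le_div_iff₀ hs, eyz]
      gcongr
    have hyz2 : ‖y - z‖ ≤ 2 * (t * (‖z‖ + r)) := by
      refine hyz.trans (mul_le_mul_of_nonneg_right ?_ (by positivity))
      rw [inv_le_iff_one_le_mul₀ hs]
      linarith
    rcases le_or_gt ‖z‖ R0 with hz | hz
    · have hlt : ‖y - z‖ < δ := by
        refine hyz2.trans_lt ?_
        have h1 := htd.trans_le (min_le_right _ _)
        rw [lt_div_iff₀ (by positivity)] at h1
        nlinarith [mul_le_mul_of_nonneg_left (by linarith : ‖z‖ + r ≤ 2 * R0) ht.le]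
      have hyR : ‖y‖ ≤ 2 * R0 := by
        have := norm_le_norm_add_norm_sub' y z
        nlinarith [mul_le_mul_of_nonneg_right ht8.le (by positivity : (0 : ℝ) ≤ ‖z‖ + r)]
      have hm := hd y z hyR (by linarith) hlt
      have eBz : B z = (1 - η)⁻¹ * ((‖z‖ + r) * (‖fderiv ℝ φ z‖ + η)) := by
        rw [eB]
        simp only [Set.indicator_of_mem (show z ∈ Metric.closedBall (0 : E n) R0 by simpa using hz)]
      rw [eBz]
      have hi : (1 - t)⁻¹ ≤ (1 - η)⁻¹ := inv_anti₀ (by linarith) (by linarith)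
      have h5 := (mul_le_mul_of_nonneg_left hyz (by positivity : 0 ≤ ‖fderiv ℝ φ z‖ + η)).trans
        (mul_le_mul_of_nonneg_left (mul_le_mul_of_nonneg_right hi (by positivity)) (by positivity))
      linarith
    · have h0 : φ y ≤ φ z := by
        have h6 := mvt_seg hφ (y := y) (z := z) (L := 0) fun w hw => ?_
        · linarith
        obtain ⟨p, q, hp, hq, hpq, rfl⟩ := hw
        rw [hsupp, norm_zero]
        have e : p • z + q • y = z + q • (y - z) := by
          rw [show p = 1 - q by linarith]; module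
        rw [e]
        have h7 := norm_sub_norm_le z (-(q • (y - z)))
        rw [sub_neg_eq_add, norm_neg, norm_smul, Real.norm_of_nonneg hq] at h7
        have h8 : q * ‖y - z‖ ≤ ‖z‖ / 2 := by
          refine (mul_le_of_le_one_left (norm_nonneg _) (by linarith)).trans (hyz2.trans ?_)
          nlinarith [mul_le_mul_of_nonneg_right ht8.le (by positivity : (0 : ℝ) ≤ ‖z‖ + r)]
        linarith [le_abs_self R1]
      nlinarith [hB0 z]
  obtain ⟨P, eP⟩ : ∃ P, P = ∫ x, Real.exp (φ x) * (Metric.closedBall (0 : E n) R0).indicator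
      (fun x => (‖x‖ + r) * ‖fderiv ℝ φ x‖) x ∂μ := ⟨_, rfl⟩
  obtain ⟨Q, eQ⟩ : ∃ Q, Q = ∫ x, Real.exp (φ x) * (Metric.closedBall (0 : E n) R0).indicator
      (fun x => ‖x‖ + r) x ∂μ := ⟨_, rfl⟩
  have ib : ∀ g : E n → ℝ, Continuous g →
      Integrable (fun x => Real.exp (φ x) * (Metric.closedBall (0 : E n) R0).indicator g x) μ := by
    intro g hg
    obtain ⟨Mg, -, hMg⟩ := bdd_continuous_of_compact hg R0
    refine intBdd (cφ.measurable.exp.mul (hg.measurable.indicator measurableSet_closedBall))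
      (M := Real.exp M * |Mg|) fun x => ?_
    rw [abs_mul, abs_of_pos (Real.exp_pos _)]
    refine mul_le_mul (Real.exp_le_exp.2 (le_of_abs_le (hφb x))) ?_ (abs_nonneg _) (Real.exp_pos _).le
    by_cases hx : x ∈ Metric.closedBall (0 : E n) R0
    · rw [Set.indicator_of_mem hx]
      exact (hMg x (by simpa using hx)).trans (le_abs_self _)
    · simp [Set.indicator_of_notMem hx]
  have ePQ : ∀ η : ℝ, ∫ x, Real.exp (φ x) * ((Metric.closedBall (0 : E n) R0).indicator
      (fun x => (‖x‖ + r) * (‖fderiv ℝ φ x‖ + η)) x) ∂μ = P + η * Q := fun η => by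
    rw [eP, eQ, ← integral_const_mul, ← integral_add (ib _ (by fun_prop)) ((ib _ (by fun_prop)).const_mul η)]
    refine integral_congr_ae (ae_of_all _ fun x => ?_)
    by_cases hx : x ∈ Metric.closedBall (0 : E n) R0
    · simp only [Set.indicator_of_mem hx]
      ring
    · simp [Set.indicator_of_notMem hx]
  have eP2 : P = ∫ x, Real.exp (φ x) * ((‖x‖ + r) * ‖fderiv ℝ φ x‖) ∂μ := by
    rw [eP]
    refine integral_congr_ae (ae_of_all _ fun x => ?_)
    by_cases hx : x ∈ Metric.closedBall (0 : E n) R0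
    · simp only [Set.indicator_of_mem hx]
    · rw [mem_closedBall_zero_iff, not_le] at hx
      simp [hsupp x (by linarith [le_abs_self R1, abs_nonneg R1])]
  obtain ⟨F, eF⟩ : ∃ F : ℝ → ℝ,
      F = fun η => (1 - η)⁻¹ * (P + η * Q) - lm * ∫ x, Real.exp (φ x) ∂μ := ⟨_, rfl⟩
  have hF : Tendsto F (𝓝[>] 0) (𝓝 (F 0)) := by
    refine (ContinuousAt.tendsto ?_).mono_left nhdsWithin_le_nhds
    rw [eF]
    refine ((ContinuousAt.inv₀ (by fun_prop) (by norm_num)).mul (by fun_prop)).sub (by fun_prop)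
  refine (ge_of_tendsto hF ?_).trans_eq (by simp [eF, eP2])
  filter_upwards [Ioo_mem_nhdsGT (zero_lt_one (α := ℝ))] with η hη
  rw [eF]
  exact (key η hη.1 hη.2).trans_eq (by rw [ePQ])

end Vale.Agent.P245.LSI
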