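import Mathlib
import Vale.Agent.P245.LSI.Ineq

namespace Vale.Agent.P245.LSI

open MeasureTheory Set Filter
open scoped ENNReal RealInnerProductSpace Topology

variable {n : ℕ} {μ : Measure (E n)} {c : ℝ}

theorem abs_mul_log_le {a M : ℝ} (ha : 0 ≤ a) (haM : a ≤ M) :
    |a * Real.log a| ≤ M * |Real.log M| + M + 1 := by
  rw [abs_le]
  constructor
  · have := mul_le_entropy (u := (0 : ℝ)) ha
    rw [Real.exp_zero, mul_zero] at this
    have := mul_nonneg (ha.trans haM) (abs_nonneg (Real.log M))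
    linarith
  · rcases ha.eq_or_lt with rfl | ha'
    · simp only [zero_mul]
      have := mul_nonneg haM (abs_nonneg (Real.log M))
      linarith
    · have h1 := Real.log_le_log ha' haM
      have h2 : a * Real.log a ≤ a * |Real.log M| :=
        mul_le_mul_of_nonneg_left (h1.trans (le_abs_self _)) ha
      have h3 : a * |Real.log M| ≤ M * |Real.log M| :=
        mul_le_mul_of_nonneg_right haM (abs_nonneg _)
      linarith

theorem intLog [IsFiniteMeasure μ] {g : E n → ℝ} (hm : Measurable g) (h0 : ∀ x, 0 ≤ g x) {M : ℝ}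
    (hb : ∀ x, g x ≤ M) : Integrable (fun x => g x * Real.log (g x)) μ :=
  intBdd (hm.mul (Real.measurable_log.comp hm)) fun x => abs_mul_log_le (h0 x) (hb x)

theorem tendsto_ent_add [IsProbabilityMeasure μ] {g : E n → ℝ} (hm : Measurable g)
    (h0 : ∀ x, 0 ≤ g x) {M : ℝ} (hb : ∀ x, g x ≤ M) :
    Tendsto (fun δ : ℝ => Ent μ (fun x => g x + δ)) (𝓝[>] 0) (𝓝 (Ent μ g)) := by
  have ig : Integrable g μ := intBdd hm fun x => abs_le.2 ⟨by linarith [h0 x, hb x], hb x⟩
  have hM : 0 ≤ M := (h0 0).trans (hb 0)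
  have hclose : ∀ᶠ δ : ℝ in 𝓝[>] 0, 0 < δ ∧ δ < 1 := Ioo_mem_nhdsGT zero_lt_one
  have t1 : Tendsto (fun δ : ℝ => ∫ x, (g x + δ) ∂μ) (𝓝[>] 0) (𝓝 (∫ x, g x ∂μ)) := by
    have : Tendsto (fun δ : ℝ => ∫ x, g x ∂μ + δ) (𝓝[>] 0) (𝓝 (∫ x, g x ∂μ)) := by
      have hc : Continuous fun δ : ℝ => ∫ x, g x ∂μ + δ := by fun_prop
      simpa using (hc.tendsto 0).mono_left nhdsWithin_le_nhds
    refine this.congr fun δ => ?_
    simp [integral_add ig (integrable_const δ)]
  have t2 : Tendsto (fun δ : ℝ => ∫ x, (g x + δ) * Real.log (g x + δ) ∂μ) (𝓝[>] 0)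
      (𝓝 (∫ x, g x * Real.log (g x) ∂μ)) := by
    refine tendsto_integral_filter_of_dominated_convergence
      (fun _ => (M + 1) * |Real.log (M + 1)| + (M + 1) + 1) ?_ ?_ (integrable_const _) ?_
    · exact Eventually.of_forall fun δ =>
        ((hm.add_const δ).mul (Real.measurable_log.comp (hm.add_const δ))).aestronglyMeasurable
    · filter_upwards [hclose] with δ hδ
      refine ae_of_all _ fun x => ?_
      rw [Real.norm_eq_abs]
      exact abs_mul_log_le (by linarith [h0 x]) (by linarith [hb x])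
    · refine ae_of_all _ fun x => ?_
      have hc : Continuous fun δ : ℝ => (g x + δ) * Real.log (g x + δ) :=
        Real.continuous_mul_log.comp (f := fun δ : ℝ => g x + δ) (by fun_prop)
      simpa using (hc.tendsto 0).mono_left nhdsWithin_le_nhds
  unfold Ent
  exact t2.sub ((Real.continuous_mul_log.tendsto _).comp t1)

theorem log_sq_data {f : E n → ℝ} (hf : ContDiff ℝ 1 f) {M : ℝ} (hb : ∀ x, |f x| ≤ M) {δ : ℝ}
    (hδ : 0 < δ) :
    ContDiff ℝ 1 (fun x => Real.log (f x ^ 2 + δ)) ∧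
    (∀ x, |Real.log (f x ^ 2 + δ)| ≤ |Real.log δ| + |Real.log (M ^ 2 + δ)|) ∧
    (∀ x, fderiv ℝ (fun x => Real.log (f x ^ 2 + δ)) x = (2 * f x / (f x ^ 2 + δ)) • fderiv ℝ f x) := by
  have hpos : ∀ x, 0 < f x ^ 2 + δ := fun x => by positivity
  refine ⟨((hf.pow 2).add contDiff_const).log fun x => (hpos x).ne', fun x => ?_, fun x => ?_⟩
  · have h1 := Real.log_le_log hδ (by linarith [sq_nonneg (f x)] : δ ≤ f x ^ 2 + δ)
    have h2 := Real.log_le_log (hpos x) (by
      have := pow_le_pow_left₀ (abs_nonneg _) (hb x) 2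
      rw [sq_abs] at this
      linarith : f x ^ 2 + δ ≤ M ^ 2 + δ)
    rw [abs_le]
    constructor <;>
      linarith [le_abs_self (Real.log δ), neg_abs_le (Real.log δ),
        le_abs_self (Real.log (M ^ 2 + δ)), abs_nonneg (Real.log δ),
        abs_nonneg (Real.log (M ^ 2 + δ))]
  · have h := (((hf.differentiable one_ne_zero x).hasFDerivAt.pow 2).add_const δ).log (hpos x).ne'
    rw [h.fderiv]
    ext v
    simp
    try ring

/-- The log-Sobolev inequality of a strongly log-concave measure carried by a ball. -/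
theorem SLC.lsi [IsProbabilityMeasure μ] (h : SLC c μ) (hc : 0 < c) {R : ℝ}
    (hμ : μ (Metric.closedBall 0 R)ᶜ = 0) {f : E n → ℝ} (hf : ContDiff ℝ 1 f) {M : ℝ}
    (hb : ∀ x, |f x| ≤ M) :
    Ent μ (fun x => f x ^ 2) ≤ 2 / c * ∫ x, ‖fderiv ℝ f x‖ ^ 2 ∂μ := by
  have hg2 : ∀ x, f x ^ 2 ≤ M ^ 2 := fun x => by
    have := pow_le_pow_left₀ (abs_nonneg _) (hb x) 2
    rwa [sq_abs] at this
  refine le_of_tendsto (tendsto_ent_add (hf.continuous.measurable.pow_const 2)
    (fun x => sq_nonneg _) hg2) ?_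
  filter_upwards [self_mem_nhdsWithin] with δ hδ
  obtain ⟨hc1, hbd, hD⟩ := log_sq_data hf hb hδ
  have hpos : ∀ x, 0 < f x ^ 2 + δ := fun x => add_pos_of_nonneg_of_pos (sq_nonneg _) hδ
  have key := h.lsi_exp hc hμ hc1 hbd
  simp only [Real.exp_log (hpos _)] at key
  refine key.trans ?_
  rw [← integral_const_mul, ← integral_const_mul]
  have cD : Continuous fun x => ‖fderiv ℝ f x‖ := (hf.continuous_fderiv one_ne_zero).norm
  have c1 : Continuous fun x => ‖fderiv ℝ (fun x => Real.log (f x ^ 2 + δ)) x‖ :=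
    (hc1.continuous_fderiv one_ne_zero).norm
  have cf := hf.continuous
  refine integral_mono (intBall hμ (by fun_prop)) (intBall hμ (by fun_prop)) fun x => ?_
  show 1 / (2 * c) * ((f x ^ 2 + δ) * _) ≤ 2 / c * ‖fderiv ℝ f x‖ ^ 2
  rw [hD, norm_smul, mul_pow, Real.norm_eq_abs, sq_abs, div_pow]
  have e : 1 / (2 * c) * ((f x ^ 2 + δ) * ((2 * f x) ^ 2 / (f x ^ 2 + δ) ^ 2 * ‖fderiv ℝ f x‖ ^ 2))
      = 2 / c * ‖fderiv ℝ f x‖ ^ 2 * (f x ^ 2 / (f x ^ 2 + δ)) := by
    have := (hpos x).ne'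
    field_simp
  rw [e]
  refine mul_le_of_le_one_right (by positivity) ((div_le_one (hpos x)).2 ?_)
  linarith [Set.mem_Ioi.1 hδ]

/-- The small-set entropy inequality for squares. -/
theorem SLC.small [IsProbabilityMeasure μ] (h : SLC 0 μ) {r lm : ℝ} (hr : 0 ≤ r)
    (hlm : Real.exp lm ≤ (μ (Metric.closedBall 0 r)).toReal) {f : E n → ℝ} (hf : ContDiff ℝ 1 f)
    {M : ℝ} (hb : ∀ x, |f x| ≤ M) {R1 : ℝ} (hsupp : ∀ x, R1 < ‖x‖ → fderiv ℝ f x = 0) :
    Ent μ (fun x => f x ^ 2)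
      ≤ ∫ x, 2 * |f x| * ((‖x‖ + r) * ‖fderiv ℝ f x‖) ∂μ - lm * ∫ x, f x ^ 2 ∂μ := by
  have hg2 : ∀ x, f x ^ 2 ≤ M ^ 2 := fun x => by
    have := pow_le_pow_left₀ (abs_nonneg _) (hb x) 2
    rwa [sq_abs] at this
  have i2 : Integrable (fun x => f x ^ 2) μ := intBdd (hf.continuous.measurable.pow_const 2)
    fun x => by rw [abs_of_nonneg (sq_nonneg _)]; exact hg2 x
  have lim : Tendsto (fun δ : ℝ => (∫ x, 2 * |f x| * ((‖x‖ + r) * ‖fderiv ℝ f x‖) ∂μ)
      - lm * (∫ x, f x ^ 2 ∂μ + δ)) (𝓝[>] 0) (𝓝 ((∫ x, 2 * |f x| * ((‖x‖ + r) * ‖fderiv ℝ f x‖) ∂μ)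
      - lm * ∫ x, f x ^ 2 ∂μ)) := by
    have hc : Continuous fun δ : ℝ => (∫ x, 2 * |f x| * ((‖x‖ + r) * ‖fderiv ℝ f x‖) ∂μ)
        - lm * (∫ x, f x ^ 2 ∂μ + δ) := by fun_prop
    simpa using (hc.tendsto 0).mono_left nhdsWithin_le_nhds
  refine le_of_tendsto_of_tendsto (tendsto_ent_add (hf.continuous.measurable.pow_const 2)
    (fun x => sq_nonneg _) hg2) lim ?_
  filter_upwards [self_mem_nhdsWithin] with δ hδ
  obtain ⟨hc1, hbd, hD⟩ := log_sq_data hf hb hδ
  have hpos : ∀ x, 0 < f x ^ 2 + δ := fun x => add_pos_of_nonneg_of_pos (sq_nonneg _) hδ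
  have key := h.small_exp hr hlm hc1 hbd (R1 := R1) fun x hx => by rw [hD, hsupp x hx, smul_zero]
  simp only [Real.exp_log (hpos _)] at key
  refine key.trans_eq ?_
  rw [integral_add i2 (integrable_const δ), integral_const, probReal_univ, one_smul]
  congr 1
  refine integral_congr_ae (ae_of_all _ fun x => ?_)
  show (f x ^ 2 + δ) * _ = _
  rw [hD, norm_smul, Real.norm_eq_abs, abs_div, abs_mul, abs_two, abs_of_pos (hpos x)]
  have := (hpos x).ne'
  field_simp

/-- The standard Gaussian measure. -/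
noncomputable def gauss (n : ℕ) : Measure (E n) :=
  (volume : Measure (E n)).tilted fun x => ⟪(0 : E n), x⟫ - 1 / 2 * ‖x‖ ^ 2

theorem integrable_gauss_weight (n : ℕ) :
    Integrable (fun x : E n => Real.exp (-(1 / 2) * ‖x‖ ^ 2)) := by
  have h := (GaussianFourier.integrable_cexp_neg_mul_sq_norm_add (V := E n) (b := (1 / 2 : ℂ))
    (by norm_num) 0 0).norm
  refine h.congr (ae_of_all _ fun x => ?_)
  simp [Complex.norm_exp, ← Complex.ofReal_pow]

instance gauss_prob (n : ℕ) : IsProbabilityMeasure (gauss n) := by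
  refine isProbabilityMeasure_tilted ?_
  simpa using integrable_gauss_weight n

theorem integral_gauss (F : E n → ℝ) :
    ∫ w, F w ∂(gauss n)
      = (∫ w, Real.exp (-(1 / 2) * ‖w‖ ^ 2) * F w) / ∫ w : E n, Real.exp (-(1 / 2) * ‖w‖ ^ 2) := by
  unfold gauss
  rw [integral_tilted, ← integral_div]
  refine integral_congr_ae (ae_of_all _ fun w => ?_)
  simp only [inner_zero_left, zero_sub, smul_eq_mul, neg_mul]
  ring

theorem gauss_slc (n : ℕ) : SLC 1 (gauss n) := by
  have h0 : SLC 0 (volume : Measure (E n)) :=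
    ⟨fun _ => 1, measurable_const, fun _ => zero_le_one, by simp,
      fun a b x y _ _ _ => by simp⟩
  simpa [gauss] using h0.tilted 0 1

/-- The Gaussian log-Sobolev inequality, for bounded functions with bounded gradient. -/
theorem gauss_lsi {f : E n → ℝ} (hf : ContDiff ℝ 1 f) {M M' : ℝ} (hb : ∀ x, |f x| ≤ M)
    (hb' : ∀ x, ‖fderiv ℝ f x‖ ≤ M') :
    Ent (gauss n) (fun x => f x ^ 2) ≤ 2 * ∫ x, ‖fderiv ℝ f x‖ ^ 2 ∂(gauss n) := by
  obtain ⟨γ, hγ⟩ : ∃ γ, γ = gauss n := ⟨_, rfl⟩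
  have := gauss_prob n
  rw [← hγ] at this ⊢
  have hB : Tendsto (fun k : ℕ => (γ (Metric.closedBall 0 k)).toReal) atTop (𝓝 1) := by
    have h1 := tendsto_measure_iUnion_atTop (μ := γ)
      (s := fun k : ℕ => Metric.closedBall (0 : E n) k)
      fun i j hij => Metric.closedBall_subset_closedBall (by exact_mod_cast hij)
    rw [Metric.iUnion_closedBall_nat, measure_univ] at h1
    exact (ENNReal.tendsto_toReal ENNReal.one_ne_top).comp h1
  have hlim : ∀ F : E n → ℝ, Integrable F γ → Tendsto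
      (fun k : ℕ => ∫ x, F x ∂(ProbabilityTheory.cond γ (Metric.closedBall 0 k))) atTop
      (𝓝 (∫ x, F x ∂γ)) := by
    intro F iF
    have h1 := tendsto_setIntegral_of_monotone (μ := γ) (f := F)
      (s := fun k : ℕ => Metric.closedBall (0 : E n) k) (fun _ => measurableSet_closedBall)
      (fun i j hij => Metric.closedBall_subset_closedBall (by exact_mod_cast hij))
      iF.integrableOn
    rw [Metric.iUnion_closedBall_nat, setIntegral_univ] at h1
    have := (hB.inv₀ one_ne_zero).mul h1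
    rw [inv_one, one_mul] at this
    refine this.congr fun k => ?_
    rw [ProbabilityTheory.cond, integral_smul_measure, ENNReal.toReal_inv, smul_eq_mul]
  have hm := hf.continuous.measurable
  have hg2 : ∀ x, f x ^ 2 ≤ M ^ 2 := fun x => by
    have := pow_le_pow_left₀ (abs_nonneg _) (hb x) 2
    rwa [sq_abs] at this
  have i1 : Integrable (fun x => f x ^ 2) γ := intBdd (hm.pow_const 2)
    fun x => by rw [abs_of_nonneg (sq_nonneg _)]; exact hg2 x
  have i2 := intLog (μ := γ) (hm.pow_const 2) (fun x => sq_nonneg _) hg2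
  have i3 : Integrable (fun x => ‖fderiv ℝ f x‖ ^ 2) γ :=
    intBdd ((hf.continuous_fderiv one_ne_zero).norm.pow 2).measurable (M := M' ^ 2) fun x => by
      rw [abs_of_nonneg (sq_nonneg _)]
      exact pow_le_pow_left₀ (norm_nonneg _) (hb' x) 2
  have lhs : Tendsto (fun k : ℕ => Ent (ProbabilityTheory.cond γ (Metric.closedBall 0 k))
      (fun x => f x ^ 2)) atTop (𝓝 (Ent γ fun x => f x ^ 2)) :=
    (hlim _ i2).sub ((Real.continuous_mul_log.tendsto _).comp (hlim _ i1))
  refine le_of_tendsto_of_tendsto lhs ((hlim _ i3).const_mul 2) ?_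
  filter_upwards [hB.eventually (lt_mem_nhds zero_lt_one)] with k hk
  have hk0 : γ (Metric.closedBall 0 k) ≠ 0 := fun h0 => by simp [h0] at hk
  have := ProbabilityTheory.cond_isProbabilityMeasure (μ := γ) hk0
  have hs := (hγ ▸ gauss_slc n : SLC 1 γ).cond (convex_closedBall (0 : E n) k)
    measurableSet_closedBall hk0 (measure_ne_top _ _)
  have := hs.lsi one_pos (R := k) (by
    rw [ProbabilityTheory.cond_apply measurableSet_closedBall]; simp) hf hb
  simpa using this

end Vale.Agent.P245.LSI
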