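import Mathlib
import Vale.Agent.P245.LSI.Square

namespace Vale.Agent.P245.LSI

open MeasureTheory Set
open scoped ENNReal RealInnerProductSpace

/-- Exponential square moment of all unit linear functionals bounded by `K`. -/
def SubG {n : ℕ} (K : ℝ) (μ : Measure (E n)) : Prop :=
  ∀ v : E n, ‖v‖ = 1 → ∫⁻ x, ENNReal.ofReal (Real.exp (⟪x, v⟫ ^ 2)) ∂μ ≤ ENNReal.ofReal K

/-- Interface: the inequality for measures carried by a ball of radius a multiple of `√n`. -/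
def StmtCore : Prop :=
  ∀ L : ℝ, 1 ≤ L → ∃ A : ℝ, 0 < A ∧ ∀ n : ℕ, 1 ≤ n → ∀ μ : Measure (E n), IsProbabilityMeasure μ →
    SLC 0 μ → μ (Metric.closedBall 0 (L * Real.sqrt n))ᶜ = 0 → SubG 4 μ →
    ∀ f : E n → ℝ, ContDiff ℝ 1 f → ∀ M : ℝ, (∀ x, |f x| ≤ M) →
      Ent μ (fun x => f x ^ 2) ≤ A * (n : ℝ) ^ (1 / 3 : ℝ) * ∫ x, ‖fderiv ℝ f x‖ ^ 2 ∂μ

/-- Interface: the inequality for all measures, at subgaussian constant one. -/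
def StmtUnit : Prop :=
  ∃ C : ℝ, 0 < C ∧ ∀ n : ℕ, 1 ≤ n → ∀ μ : Measure (E n), IsProbabilityMeasure μ →
    SLC 0 μ → SubG 2 μ →
    ∀ f : E n → ℝ, ContDiff ℝ 1 f → HasCompactSupport f →
      Ent μ (fun x => f x ^ 2) ≤ C * (n : ℝ) ^ (1 / 3 : ℝ) * ∫ x, ‖fderiv ℝ f x‖ ^ 2 ∂μ

end Vale.Agent.P245.LSI
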