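import Mathlib
import Vale.Agent.P245.LSI.Iface

namespace Vale.Agent.P245.LSI

open MeasureTheory Set Filter
open scoped ENNReal RealInnerProductSpace Topology

variable {n : ℕ}

/-- The exponent of the posterior. -/
noncomputable def phase (T : ℝ) (θ x : E n) : ℝ := ⟪θ, x⟫ - T / 2 * ‖x‖ ^ 2

/-- The posterior measure. -/
noncomputable def post (μ : Measure (E n)) (T : ℝ) (θ : E n) : Measure (E n) := μ.tilted (phase T θ)

/-- The posterior expectation. -/
noncomputable def pexp (μ : Measure (E n)) (T : ℝ) (F : E n → ℝ) (θ : E n) : ℝ :=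
  ∫ x, F x ∂(post μ T θ)

/-- The unnormalised posterior expectation. -/
noncomputable def num (μ : Measure (E n)) (T : ℝ) (F : E n → ℝ) (θ : E n) : ℝ :=
  ∫ x, F x * Real.exp (phase T θ x) ∂μ

/-- The observation. -/
noncomputable def obs (T : ℝ) (x w : E n) : E n := T • x + Real.sqrt T • w

/-- The average over the observation noise. -/
noncomputable def avg (T : ℝ) (G : E n → ℝ) (x : E n) : ℝ := ∫ w, G (obs T x w) ∂(gauss n)

/-- Continuity with a uniform bound. -/
def BddCont (G : E n → ℝ) : Prop := Continuous G ∧ ∃ M, ∀ x, |G x| ≤ M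

variable {μ : Measure (E n)} {T R : ℝ}

theorem BddCont.integrable {G : E n → ℝ} (h : BddCont G) (ν : Measure (E n)) [IsFiniteMeasure ν] :
    Integrable G ν := by
  obtain ⟨M, hM⟩ := h.2
  exact intBdd h.1.measurable hM

theorem BddCont.comp_obs {G : E n → ℝ} (h : BddCont G) (T : ℝ) (x : E n) :
    BddCont fun w => G (obs T x w) := by
  obtain ⟨M, hM⟩ := h.2
  exact ⟨h.1.comp (by unfold obs; fun_prop), M, fun w => hM _⟩

theorem BddCont.const (c : ℝ) : BddCont fun _ : E n => c := ⟨continuous_const, |c|, fun _ => le_rfl⟩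

theorem BddCont.add {F G : E n → ℝ} (hF : BddCont F) (hG : BddCont G) :
    BddCont fun x => F x + G x := by
  obtain ⟨A, hA⟩ := hF.2
  obtain ⟨B, hB⟩ := hG.2
  exact ⟨hF.1.add hG.1, A + B, fun x => (abs_add_le _ _).trans (add_le_add (hA x) (hB x))⟩

theorem BddCont.mul {F G : E n → ℝ} (hF : BddCont F) (hG : BddCont G) :
    BddCont fun x => F x * G x := by
  obtain ⟨A, hA⟩ := hF.2
  obtain ⟨B, hB⟩ := hG.2
  refine ⟨hF.1.mul hG.1, A * B, fun x => ?_⟩
  rw [abs_mul]
  exact mul_le_mul (hA x) (hB x) (abs_nonneg _) ((abs_nonneg _).trans (hA x))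

theorem BddCont.sub {F G : E n → ℝ} (hF : BddCont F) (hG : BddCont G) :
    BddCont fun x => F x - G x := by
  simpa [sub_eq_add_neg] using hF.add ((BddCont.const (-1)).mul hG)

theorem BddCont.mul_log {G : E n → ℝ} (h : BddCont G) (h0 : ∀ x, 0 ≤ G x) :
    BddCont fun x => G x * Real.log (G x) := by
  obtain ⟨M, hM⟩ := h.2
  exact ⟨Real.continuous_mul_log.comp h.1, _,
    fun x => abs_mul_log_le (h0 x) ((le_abs_self _).trans (hM x))⟩

theorem continuous_phase (T : ℝ) (θ : E n) : Continuous (phase T θ) := by unfold phase; fun_prop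

theorem continuous_phase_left (T : ℝ) (x : E n) : Continuous fun θ : E n => phase T θ x := by
  unfold phase; fun_prop

theorem intBall_vec {V : Type*} [NormedAddCommGroup V] [IsFiniteMeasure μ]
    (hμ : μ (Metric.closedBall 0 R)ᶜ = 0) {f : E n → V} (hf : Continuous f) : Integrable f μ := by
  rw [← Measure.restrict_eq_self_of_ae_mem (μ := μ) (ae_iff.2 hμ)]
  exact hf.continuousOn.integrableOn_compact (isCompact_closedBall _ _)

theorem isProb_post [IsProbabilityMeasure μ] (hμ : μ (Metric.closedBall 0 R)ᶜ = 0) (T : ℝ) (θ : E n) :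
    IsProbabilityMeasure (post μ T θ) :=
  isProbabilityMeasure_tilted (intBall hμ (continuous_phase T θ).rexp)

theorem post_ball (hμ : μ (Metric.closedBall 0 R)ᶜ = 0) (T : ℝ) (θ : E n) :
    post μ T θ (Metric.closedBall 0 R)ᶜ = 0 :=
  tilted_absolutelyContinuous μ _ hμ

theorem SLC.post {c : ℝ} (h : SLC c μ) (T : ℝ) (θ : E n) : SLC (c + T) (post μ T θ) := h.tilted θ T

theorem num_one_pos [IsProbabilityMeasure μ] (hμ : μ (Metric.closedBall 0 R)ᶜ = 0) (T : ℝ)
    (θ : E n) : 0 < num μ T (fun _ => 1) θ := by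
  simpa [num] using integral_exp_pos (intBall hμ (continuous_phase T θ).rexp)

theorem pexp_eq (T : ℝ) (F : E n → ℝ) (θ : E n) :
    pexp μ T F θ = num μ T F θ / num μ T (fun _ => 1) θ := by
  unfold pexp post num
  rw [integral_tilted, ← integral_div]
  simp only [one_mul, smul_eq_mul]
  exact integral_congr_ae (ae_of_all _ fun x => by ring)

theorem num_eq [IsProbabilityMeasure μ] (hμ : μ (Metric.closedBall 0 R)ᶜ = 0) (T : ℝ)
    (F : E n → ℝ) (θ : E n) : num μ T F θ = num μ T (fun _ => 1) θ * pexp μ T F θ := by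
  rw [pexp_eq, mul_div_cancel₀ _ (num_one_pos hμ T θ).ne']

theorem abs_pexp_le [IsProbabilityMeasure μ] (hμ : μ (Metric.closedBall 0 R)ᶜ = 0) (T : ℝ)
    {F : E n → ℝ} {M : ℝ} (hM : ∀ x, ‖x‖ ≤ R → |F x| ≤ M) (θ : E n) : |pexp μ T F θ| ≤ M := by
  have := isProb_post hμ T θ
  have h := norm_integral_le_of_norm_le_const (μ := post μ T θ) (f := F) (C := M)
    ((ae_iff.2 (post_ball hμ T θ)).mono fun x hx => by
      rw [Real.norm_eq_abs]
      exact hM x (mem_closedBall_zero_iff.1 hx))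
  simpa [pexp] using h

theorem pexp_mono [IsProbabilityMeasure μ] (hμ : μ (Metric.closedBall 0 R)ᶜ = 0) (T : ℝ)
    {F G : E n → ℝ} (hF : Continuous F) (hG : Continuous G) (h : ∀ x, ‖x‖ ≤ R → F x ≤ G x)
    (θ : E n) : pexp μ T F θ ≤ pexp μ T G θ := by
  have := isProb_post hμ T θ
  exact integral_mono_ae (intBall (post_ball hμ T θ) hF) (intBall (post_ball hμ T θ) hG)
    ((ae_iff.2 (post_ball hμ T θ)).mono fun x hx => h x (mem_closedBall_zero_iff.1 hx))

theorem hasFDerivAt_num [IsProbabilityMeasure μ] (hμ : μ (Metric.closedBall 0 R)ᶜ = 0) (T : ℝ)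
    {F : E n → ℝ} (hF : Continuous F) (θ : E n) :
    HasFDerivAt (num μ T F) (∫ x, (F x * Real.exp (phase T θ x)) • innerSL ℝ x ∂μ) θ := by
  obtain ⟨MF, hMF0, hMF⟩ := bdd_continuous_of_compact hF |R|
  refine hasFDerivAt_integral_of_dominated_of_fderiv_le (F := fun θ x => F x * Real.exp (phase T θ x))
    (F' := fun θ x => (F x * Real.exp (phase T θ x)) • innerSL ℝ x)
    (bound := fun _ => MF * Real.exp ((‖θ‖ + 1) * |R| + |T| / 2 * |R| ^ 2) * |R|)
    (Metric.ball_mem_nhds θ one_pos) (Eventually.of_forall fun θ' => ?_) ?_ ?_ ?_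
    (integrable_const _) (ae_of_all _ fun x θ' _ => ?_)
  · exact (hF.mul (continuous_phase T θ').rexp).aestronglyMeasurable
  · exact intBall hμ (hF.mul (continuous_phase T θ).rexp)
  · exact ((hF.mul (continuous_phase T θ).rexp).smul (innerSL ℝ).continuous).aestronglyMeasurable
  · refine (ae_iff.2 hμ).mono fun x hx θ' hθ' => ?_
    have hxR : ‖x‖ ≤ |R| := (mem_closedBall_zero_iff.1 hx).trans (le_abs_self R)
    have hθ : ‖θ'‖ ≤ ‖θ‖ + 1 := by
      rw [mem_ball_iff_norm] at hθ'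
      linarith [norm_le_norm_add_norm_sub' θ' θ]
    rw [norm_smul, innerSL_apply_norm, Real.norm_eq_abs, abs_mul, abs_of_pos (Real.exp_pos _)]
    refine mul_le_mul (mul_le_mul (hMF x hxR) (Real.exp_le_exp.2 ?_) (Real.exp_pos _).le hMF0) hxR
      (norm_nonneg _) (mul_nonneg hMF0 (Real.exp_pos _).le)
    unfold phase
    have h1 : ⟪θ', x⟫ ≤ (‖θ‖ + 1) * |R| :=
      (real_inner_le_norm θ' x).trans (mul_le_mul hθ hxR (norm_nonneg _) (by positivity))
    have h2 : ‖x‖ ^ 2 ≤ |R| ^ 2 := pow_le_pow_left₀ (norm_nonneg _) hxR 2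
    have h3 : -(T / 2 * ‖x‖ ^ 2) ≤ |T| / 2 * |R| ^ 2 := by
      have := mul_le_mul_of_nonneg_left h2 (abs_nonneg T)
      nlinarith [mul_le_mul_of_nonneg_right (neg_abs_le T) (sq_nonneg ‖x‖)]
    linarith
  · have h : HasFDerivAt (fun θ : E n => phase T θ x) (innerSL ℝ x) θ' := by
      have := ((innerSL ℝ x).hasFDerivAt (x := θ')).sub_const (T / 2 * ‖x‖ ^ 2)
      refine this.congr_of_eventuallyEq (Eventually.of_forall fun θ'' => ?_)
      simp [phase, real_inner_comm]
    simpa [smul_smul] using h.exp.const_mul (F x)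

theorem fderiv_num_apply [IsProbabilityMeasure μ] (hμ : μ (Metric.closedBall 0 R)ᶜ = 0) (T : ℝ)
    {F : E n → ℝ} (hF : Continuous F) (θ v : E n) :
    fderiv ℝ (num μ T F) θ v = num μ T (fun x => F x * ⟪v, x⟫) θ := by
  have hi : Integrable (fun x => (F x * Real.exp (phase T θ x)) • innerSL ℝ x) μ := by
    refine intBall_vec hμ ?_
    exact (hF.mul (continuous_phase T θ).rexp).smul (innerSL ℝ).continuous
  rw [(hasFDerivAt_num hμ T hF θ).fderiv, ContinuousLinearMap.integral_apply hi]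
  refine integral_congr_ae (ae_of_all _ fun x => ?_)
  simp [real_inner_comm]
  ring

theorem continuous_num [IsProbabilityMeasure μ] (hμ : μ (Metric.closedBall 0 R)ᶜ = 0) (T : ℝ)
    {F : E n → ℝ} (hF : Continuous F) : Continuous (num μ T F) :=
  continuous_iff_continuousAt.2 fun θ => (hasFDerivAt_num hμ T hF θ).continuousAt

theorem contDiff_num [IsProbabilityMeasure μ] (hμ : μ (Metric.closedBall 0 R)ᶜ = 0) (T : ℝ)
    {F : E n → ℝ} (hF : Continuous F) : ContDiff ℝ 1 (num μ T F) := by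
  rw [contDiff_one_iff_fderiv]
  refine ⟨fun θ => (hasFDerivAt_num hμ T hF θ).differentiableAt, continuous_clm_apply.2 fun v => ?_⟩
  simp only [fderiv_num_apply hμ T hF]
  exact continuous_num hμ T (hF.mul (by fun_prop))

theorem contDiff_pexp [IsProbabilityMeasure μ] (hμ : μ (Metric.closedBall 0 R)ᶜ = 0) (T : ℝ)
    {F : E n → ℝ} (hF : Continuous F) : ContDiff ℝ 1 (pexp μ T F) := by
  have h := (contDiff_num hμ T hF).div (contDiff_num hμ T (continuous_const (y := (1 : ℝ))))
    fun θ => (num_one_pos hμ T θ).ne'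
  exact (funext fun θ => pexp_eq T F θ : pexp μ T F = _) ▸ h

theorem fderiv_pexp_apply [IsProbabilityMeasure μ] (hμ : μ (Metric.closedBall 0 R)ᶜ = 0) (T : ℝ)
    {F : E n → ℝ} (hF : Continuous F) (θ v : E n) :
    fderiv ℝ (pexp μ T F) θ v
      = pexp μ T (fun x => F x * ⟪v, x⟫) θ
        - pexp μ T F θ * pexp μ T (fun x => ⟪v, x⟫) θ := by
  have c1 : Continuous fun _ : E n => (1 : ℝ) := continuous_const
  have d1 := (contDiff_pexp hμ T hF).differentiable one_ne_zero θ
  have d2 := (contDiff_num hμ T c1).differentiable one_ne_zero θ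
  have hprod : fderiv ℝ (num μ T F) θ
      = num μ T (fun _ => 1) θ • fderiv ℝ (pexp μ T F) θ
        + pexp μ T F θ • fderiv ℝ (num μ T fun _ => 1) θ := by
    have e : num μ T F = fun θ => num μ T (fun _ => 1) θ * pexp μ T F θ :=
      funext fun θ => num_eq hμ T F θ
    nth_rw 1 [e]
    exact fderiv_fun_mul d2 d1
  have h := DFunLike.congr_fun hprod v
  simp only [add_apply, smul_apply, smul_eq_mul,
    fderiv_num_apply hμ T hF, fderiv_num_apply hμ T c1, one_mul] at h
  rw [num_eq hμ T (fun x => F x * ⟪v, x⟫), num_eq hμ T (fun x => ⟪v, x⟫)] at h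
  have hN := (num_one_pos hμ T θ).ne'
  refine mul_left_cancel₀ hN ?_
  linarith

theorem norm_fderiv_pexp_le [IsProbabilityMeasure μ] (hμ : μ (Metric.closedBall 0 R)ᶜ = 0) (T : ℝ)
    {F : E n → ℝ} (hF : Continuous F) {M : ℝ} (hM : ∀ x, ‖x‖ ≤ R → |F x| ≤ M) (θ : E n) :
    ‖fderiv ℝ (pexp μ T F) θ‖ ≤ 2 * M * |R| := by
  have hM0 : 0 ≤ M := (abs_nonneg _).trans (abs_pexp_le hμ T hM θ)
  refine ContinuousLinearMap.opNorm_le_bound _ (by positivity) fun v => ?_
  rw [fderiv_pexp_apply hμ T hF, Real.norm_eq_abs]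
  have hv : ∀ x : E n, ‖x‖ ≤ R → |⟪v, x⟫| ≤ ‖v‖ * |R| := fun x hx =>
    (abs_real_inner_le_norm v x).trans
      (mul_le_mul_of_nonneg_left (hx.trans (le_abs_self R)) (norm_nonneg v))
  have h1 := abs_pexp_le hμ T (F := fun x => F x * ⟪v, x⟫) (M := M * (‖v‖ * |R|))
    (fun x hx => by rw [abs_mul]; exact mul_le_mul (hM x hx) (hv x hx) (abs_nonneg _) hM0) θ
  have h2 := mul_le_mul (abs_pexp_le hμ T hM θ) (abs_pexp_le hμ T hv θ) (abs_nonneg _) hM0
  rw [← abs_mul] at h2
  refine (abs_sub _ _).trans ?_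
  linarith

theorem bddCont_pexp [IsProbabilityMeasure μ] (hμ : μ (Metric.closedBall 0 R)ᶜ = 0) (T : ℝ)
    {F : E n → ℝ} (hF : Continuous F) : BddCont (pexp μ T F) := by
  obtain ⟨M, -, hM⟩ := bdd_continuous_of_compact hF R
  exact ⟨(contDiff_pexp hμ T hF).continuous, M, fun θ => abs_pexp_le hμ T hM θ⟩

theorem hasFDerivAt_avg (T : ℝ) {G : E n → ℝ} (hG : ContDiff ℝ 1 G) {M M' : ℝ}
    (hM : ∀ θ, |G θ| ≤ M) (hM' : ∀ θ, ‖fderiv ℝ G θ‖ ≤ M') (x : E n) :
    HasFDerivAt (avg T G) (∫ w, T • fderiv ℝ G (obs T x w) ∂(gauss n)) x := by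
  have cobs : ∀ x : E n, Continuous fun w => obs T x w := fun x => by unfold obs; fun_prop
  refine hasFDerivAt_integral_of_dominated_of_fderiv_le (F := fun x w => G (obs T x w))
    (F' := fun x w => T • fderiv ℝ G (obs T x w)) (bound := fun _ => |T| * M')
    (Metric.ball_mem_nhds x one_pos) (Eventually.of_forall fun y => ?_) ?_ ?_
    (ae_of_all _ fun w y _ => ?_) (integrable_const _) (ae_of_all _ fun w y _ => ?_)
  · exact (hG.continuous.comp (cobs y)).aestronglyMeasurable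
  · exact intBdd (hG.continuous.comp (cobs x)).measurable fun w => hM _
  · exact (((hG.continuous_fderiv one_ne_zero).comp (cobs x)).const_smul T).aestronglyMeasurable
  · rw [norm_smul, Real.norm_eq_abs]
    exact mul_le_mul_of_nonneg_left (hM' _) (abs_nonneg _)
  · have h1 : HasFDerivAt (fun y => obs T y w) (T • ContinuousLinearMap.id ℝ (E n)) y :=
      ((hasFDerivAt_id y).const_smul T).add_const _
    have := (hG.differentiable one_ne_zero (obs T y w)).hasFDerivAt.comp y h1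
    simpa [Function.comp_def] using this

theorem contDiff_avg (T : ℝ) {G : E n → ℝ} (hG : ContDiff ℝ 1 G) {M M' : ℝ}
    (hM : ∀ θ, |G θ| ≤ M) (hM' : ∀ θ, ‖fderiv ℝ G θ‖ ≤ M') : ContDiff ℝ 1 (avg T G) := by
  rw [contDiff_one_iff_fderiv]
  refine ⟨fun x => (hasFDerivAt_avg T hG hM hM' x).differentiableAt, ?_⟩
  rw [funext fun x => (hasFDerivAt_avg T hG hM hM' x).fderiv]
  refine continuous_of_dominated (bound := fun _ => |T| * M') (fun x => ?_)
    (fun x => ae_of_all _ fun w => ?_) (integrable_const _) (ae_of_all _ fun w => ?_)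
  · exact (((hG.continuous_fderiv one_ne_zero).comp (by unfold obs; fun_prop)).const_smul
      T).aestronglyMeasurable
  · rw [norm_smul, Real.norm_eq_abs]
    exact mul_le_mul_of_nonneg_left (hM' _) (abs_nonneg _)
  · exact ((hG.continuous_fderiv one_ne_zero).comp (by unfold obs; fun_prop)).const_smul T

theorem fderiv_avg_apply (T : ℝ) {G : E n → ℝ} (hG : ContDiff ℝ 1 G) {M M' : ℝ}
    (hM : ∀ θ, |G θ| ≤ M) (hM' : ∀ θ, ‖fderiv ℝ G θ‖ ≤ M') (x v : E n) :
    fderiv ℝ (avg T G) x v = T * ∫ w, fderiv ℝ G (obs T x w) v ∂(gauss n) := by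
  have hc : Continuous fun w => fderiv ℝ G (obs T x w) :=
    (hG.continuous_fderiv one_ne_zero).comp (by unfold obs; fun_prop)
  rw [(hasFDerivAt_avg T hG hM hM' x).fderiv, ContinuousLinearMap.integral_apply, ← integral_const_mul]
  · rfl
  · exact ((integrable_const M').mono' hc.aestronglyMeasurable
      (ae_of_all _ fun w => hM' _)).smul T

/-- Exchange of the order of integration. -/
theorem swap [IsProbabilityMeasure μ] (hμ : μ (Metric.closedBall 0 R)ᶜ = 0) (hT : 0 ≤ T)
    {F G : E n → ℝ} (hF : Continuous F) (hG : BddCont G) :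
    ∫ x, F x * avg T G x ∂μ
      = (∫ w, Real.exp (-(1 / 2) * ‖w‖ ^ 2) * (G (Real.sqrt T • w) * num μ T F (Real.sqrt T • w)))
        / ∫ w : E n, Real.exp (-(1 / 2) * ‖w‖ ^ 2) := by
  obtain ⟨MF, hMF0, hMF⟩ := bdd_continuous_of_compact hF |R|
  obtain ⟨MG, hMG⟩ := hG.2
  have hGc := hG.1
  obtain ⟨s, es⟩ : ∃ s, s = Real.sqrt T := ⟨_, rfl⟩
  have hs : s * s = T := by rw [es]; exact Real.mul_self_sqrt hT
  rw [← es]
  have shift : ∀ x : E n, ∫ w, Real.exp (-(1 / 2) * ‖w‖ ^ 2) * G (obs T x w)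
      = ∫ w, Real.exp (-(1 / 2) * ‖w - s • x‖ ^ 2) * G (s • w) := fun x => by
    rw [← integral_sub_right_eq_self (fun w => Real.exp (-(1 / 2) * ‖w‖ ^ 2) * G (obs T x w)) (s • x)]
    refine integral_congr_ae (ae_of_all _ fun w => ?_)
    simp only [obs, ← es, smul_sub, smul_smul, hs]
    congr 2
    module
  simp only [avg, integral_gauss, shift, mul_div_assoc']
  rw [integral_div]
  congr 1
  have key : ∀ (x w : E n), Real.exp (-(1 / 2) * ‖w - s • x‖ ^ 2)
      = Real.exp (-(1 / 2) * ‖w‖ ^ 2) * Real.exp (phase T (s • w) x) := fun x w => by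
    rw [← Real.exp_add]
    congr 1
    unfold phase
    rw [norm_sub_sq_real, norm_smul, Real.norm_eq_abs, mul_pow, sq_abs, real_inner_smul_left,
      real_inner_smul_right, sq s, hs]
    ring
  simp only [← integral_const_mul]
  rw [integral_integral_swap]
  · refine integral_congr_ae (ae_of_all _ fun w => ?_)
    simp only [num, ← integral_const_mul]
    refine integral_congr_ae (ae_of_all _ fun x => ?_)
    show _ * (_ * _) = _ * (_ * (_ * _))
    rw [key]
    ring
  refine Integrable.mono' (g := fun p : E n × E n => MF * Real.exp (T * |R| ^ 2 / 2) * MG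
      * Real.exp (-(1 / 4) * ‖p.2‖ ^ 2)) ?_ ?_ ?_
  · refine ((integrable_const (MF * Real.exp (T * |R| ^ 2 / 2) * MG) (μ := μ)).mul_prod
      (g := fun w : E n => Real.exp (-(1 / 4) * ‖w‖ ^ 2)) (ν := volume) ?_)
    have h := (GaussianFourier.integrable_cexp_neg_mul_sq_norm_add (V := E n) (b := (1 / 4 : ℂ))
      (by norm_num) 0 0).norm
    refine h.congr (ae_of_all _ fun x => ?_)
    simp [Complex.norm_exp, ← Complex.ofReal_pow]
  · exact Continuous.aestronglyMeasurable (by unfold Function.uncurry; fun_prop)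
  · have hae : ∀ᵐ p : E n × E n ∂(μ.prod volume), p.1 ∈ Metric.closedBall (0 : E n) R :=
      Measure.quasiMeasurePreserving_fst.ae (ae_iff.2 hμ)
    refine hae.mono fun p hp => ?_
    have hxR : ‖p.1‖ ≤ |R| := (mem_closedBall_zero_iff.1 hp).trans (le_abs_self R)
    simp only [Function.uncurry, norm_mul, Real.norm_eq_abs, abs_of_pos (Real.exp_pos _)]
    have h1 : -(1 / 2) * ‖p.2 - s • p.1‖ ^ 2 ≤ -(1 / 4) * ‖p.2‖ ^ 2 + T * |R| ^ 2 / 2 := by
      have ha := norm_le_norm_add_norm_sub' p.2 (s • p.1)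
      rw [norm_smul, Real.norm_eq_abs] at ha
      have hb := mul_self_le_mul_self (norm_nonneg _) ha
      have hc : (|s| * ‖p.1‖) ^ 2 ≤ T * |R| ^ 2 := by
        rw [mul_pow, sq_abs, sq s, hs]
        exact mul_le_mul_of_nonneg_left (pow_le_pow_left₀ (norm_nonneg _) hxR 2) hT
      nlinarith [sq_nonneg (|s| * ‖p.1‖ - ‖p.2 - s • p.1‖)]
    calc |F p.1| * (Real.exp (-(1 / 2) * ‖p.2 - s • p.1‖ ^ 2) * |G (s • p.2)|)
        ≤ MF * (Real.exp (-(1 / 4) * ‖p.2‖ ^ 2 + T * |R| ^ 2 / 2) * MG) := by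
          refine mul_le_mul (hMF _ hxR) ?_ (by positivity) hMF0
          exact mul_le_mul (Real.exp_le_exp.2 h1) (hMG _) (abs_nonneg _) (Real.exp_pos _).le
      _ = _ := by rw [Real.exp_add]; ring

/-- The proximal averaging preserves integrals. -/
theorem integral_avg_pexp [IsProbabilityMeasure μ] (hμ : μ (Metric.closedBall 0 R)ᶜ = 0)
    (hT : 0 ≤ T) {F : E n → ℝ} (hF : Continuous F) :
    ∫ x, avg T (pexp μ T F) x ∂μ = ∫ x, F x ∂μ := by
  have h1 := swap hμ hT (F := fun _ => (1 : ℝ)) continuous_const (bddCont_pexp hμ T hF)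
  have h2 := swap hμ hT hF (BddCont.const (1 : ℝ))
  simp only [one_mul] at h1
  simp only [avg, integral_const, probReal_univ, one_smul, mul_one, one_mul] at h2
  rw [h1, h2]
  congr 1
  refine integral_congr_ae (ae_of_all _ fun w => ?_)
  show _ * (_ * _) = _ * _
  rw [num_eq hμ T F, mul_comm (pexp μ T F _)]

end Vale.Agent.P245.LSI
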