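import Mathlib
import Vale.Agent.P245.LSI.Post

namespace Vale.Agent.P245.LSI

open MeasureTheory Set Filter
open scoped ENNReal RealInnerProductSpace Topology

variable {n : ℕ} {μ : Measure (E n)} {T R : ℝ}

/-- The posterior entropy. -/
noncomputable def entP (μ : Measure (E n)) (T : ℝ) (g : E n → ℝ) (θ : E n) : ℝ :=
  pexp μ T (fun x => g x * Real.log (g x)) θ - pexp μ T g θ * Real.log (pexp μ T g θ)

/-- The centred exponential moment of the posterior. -/
noncomputable def cen (μ : Measure (E n)) (T : ℝ) (u θ : E n) : ℝ :=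
  pexp μ T (fun x => Real.exp ⟪u, x⟫) θ * Real.exp (-pexp μ T (fun x => ⟪u, x⟫) θ)

/-- The symmetrised exponential moment of the posterior. -/
noncomputable def sym (μ : Measure (E n)) (T : ℝ) (u θ : E n) : ℝ :=
  pexp μ T (fun x => Real.exp ⟪u, x⟫) θ * pexp μ T (fun x => Real.exp ⟪-u, x⟫) θ

variable [IsProbabilityMeasure μ] (hlc : SLC 0 μ) (hμ : μ (Metric.closedBall 0 R)ᶜ = 0) (hT : 0 < T)

omit [IsProbabilityMeasure μ] in
theorem entP_eq (g : E n → ℝ) (θ : E n) : entP μ T g θ = Ent (post μ T θ) g := rfl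

include hμ in
theorem entP_nonneg {g : E n → ℝ} (hg : Continuous g) (h0 : ∀ x, 0 ≤ g x) (θ : E n) :
    0 ≤ entP μ T g θ := by
  have := isProb_post hμ T θ
  exact ent_nonneg h0 (intBall (post_ball hμ T θ) hg)
    (intBall (post_ball hμ T θ) (Real.continuous_mul_log.comp hg))

include hμ in
theorem bddCont_entP {g : E n → ℝ} (hg : Continuous g) (h0 : ∀ x, 0 ≤ g x) :
    BddCont (entP μ T g) := by
  have h1 := bddCont_pexp hμ T hg
  exact (bddCont_pexp hμ T (Real.continuous_mul_log.comp hg)).sub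
    (h1.mul_log fun θ => integral_nonneg h0)

include hμ in
theorem donskerPost {g F : E n → ℝ} (hg : Continuous g) (h0 : ∀ x, 0 ≤ g x) (hF : Continuous F)
    (θ : E n) : pexp μ T (fun x => g x * F x) θ
      ≤ entP μ T g θ + pexp μ T g θ * Real.log (pexp μ T (fun x => Real.exp (F x)) θ) := by
  have := isProb_post hμ T θ
  exact donsker h0 (intBall (post_ball hμ T θ) hg)
    (intBall (post_ball hμ T θ) (Real.continuous_mul_log.comp hg))
    (intBall (post_ball hμ T θ) (hg.mul hF)) (intBall (post_ball hμ T θ) hF.rexp)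

omit [IsProbabilityMeasure μ] in
theorem pexp_neg_lin (u θ : E n) :
    pexp μ T (fun x => ⟪-u, x⟫) θ = -pexp μ T (fun x => ⟪u, x⟫) θ := by
  simp only [pexp, inner_neg_left, integral_neg]

include hμ in
theorem one_le_cen (u θ : E n) : 1 ≤ cen μ T u θ := by
  have := isProb_post hμ T θ
  obtain ⟨b, hb⟩ : ∃ b, b = pexp μ T (fun x => ⟪u, x⟫) θ := ⟨_, rfl⟩
  have i1 : Integrable (fun x => ⟪u, x⟫) (post μ T θ) := intBall (post_ball hμ T θ) (by fun_prop)
  have h : ∫ x, Real.exp b * (1 + (⟪u, x⟫ - b)) ∂(post μ T θ)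
      ≤ pexp μ T (fun x => Real.exp ⟪u, x⟫) θ := by
    refine integral_mono (intBall (post_ball hμ T θ) (by fun_prop))
      (intBall (post_ball hμ T θ) (by fun_prop)) fun x => ?_
    calc Real.exp b * (1 + (⟪u, x⟫ - b)) ≤ Real.exp b * Real.exp (⟪u, x⟫ - b) := by
          gcongr
          linarith [Real.add_one_le_exp (⟪u, x⟫ - b)]
      _ = Real.exp ⟪u, x⟫ := by rw [← Real.exp_add]; congr 1; ring
  rw [integral_const_mul, integral_add (g := fun x => ⟪u, x⟫ - b) (integrable_const _)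
      (i1.sub (integrable_const b)), integral_sub i1 (integrable_const b), integral_const,
    integral_const, probReal_univ, one_smul, one_smul, show (∫ x, ⟪u, x⟫ ∂(post μ T θ)) = b from hb.symm,
    sub_self, add_zero, mul_one] at h
  unfold cen
  rw [← hb, Real.exp_neg, ← div_eq_mul_inv, one_le_div (Real.exp_pos _)]
  exact h

include hlc hμ hT in
theorem cen_le (u θ : E n) : cen μ T u θ ≤ Real.exp (‖u‖ ^ 2 / T) := by
  have := isProb_post hμ T θ
  have hs : SLC T (post μ T θ) := by simpa using hlc.post T θ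
  have h := hs.mgf hT (post_ball hμ T θ) u
  unfold cen
  rw [Real.exp_neg, ← div_eq_mul_inv, div_le_iff₀ (Real.exp_pos _), ← Real.exp_add, add_comm]
  exact h

omit [IsProbabilityMeasure μ] in
theorem sym_eq (u θ : E n) : sym μ T u θ = cen μ T u θ * cen μ T (-u) θ := by
  unfold sym cen
  rw [pexp_neg_lin, neg_neg, Real.exp_neg]
  have := Real.exp_ne_zero (pexp μ T (fun x => ⟪u, x⟫) θ)
  field_simp

include hμ in
theorem cen_le_sym (u θ : E n) : cen μ T u θ ≤ sym μ T u θ := by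
  rw [sym_eq]
  exact le_mul_of_one_le_right (zero_le_one.trans (one_le_cen hμ u θ)) (one_le_cen hμ (-u) θ)

include hμ in
theorem one_le_sym (u θ : E n) : 1 ≤ sym μ T u θ :=
  (one_le_cen hμ u θ).trans (cen_le_sym hμ u θ)

include hlc hμ hT in
theorem sym_le (u θ : E n) : sym μ T u θ ≤ Real.exp (2 * ‖u‖ ^ 2 / T) := by
  rw [sym_eq]
  refine (mul_le_mul (cen_le hlc hμ hT u θ) (cen_le hlc hμ hT (-u) θ)
    (zero_le_one.trans (one_le_cen hμ _ θ)) (Real.exp_pos _).le).trans_eq ?_
  rw [norm_neg, ← Real.exp_add]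
  congr 1
  ring

include hlc hμ hT in
theorem bddCont_cen (u : E n) : BddCont (cen μ T u) := by
  refine ⟨?_, Real.exp (‖u‖ ^ 2 / T), fun θ => ?_⟩
  · exact (bddCont_pexp hμ T (by fun_prop)).1.mul (bddCont_pexp hμ T (by fun_prop)).1.neg.rexp
  · rw [abs_of_nonneg (zero_le_one.trans (one_le_cen hμ u θ))]
    exact cen_le hlc hμ hT u θ

include hμ in
theorem bddCont_sym (u : E n) : BddCont (sym μ T u) :=
  (bddCont_pexp hμ T (by fun_prop)).mul (bddCont_pexp hμ T (by fun_prop))

include hlc hμ hT in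
theorem bddCont_log_cen (u : E n) : BddCont fun θ => Real.log (cen μ T u θ) := by
  refine ⟨(bddCont_cen hlc hμ hT u).1.log fun θ => (zero_lt_one.trans_le (one_le_cen hμ u θ)).ne',
    ‖u‖ ^ 2 / T, fun θ => ?_⟩
  rw [abs_of_nonneg (Real.log_nonneg (one_le_cen hμ u θ)),
    Real.log_le_iff_le_exp (zero_lt_one.trans_le (one_le_cen hμ u θ))]
  exact cen_le hlc hμ hT u θ

include hlc hμ hT in
theorem bddCont_log_sym (u : E n) : BddCont fun θ => Real.log (sym μ T u θ) := by
  refine ⟨(bddCont_sym hμ u).1.log fun θ => (zero_lt_one.trans_le (one_le_sym hμ u θ)).ne',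
    2 * ‖u‖ ^ 2 / T, fun θ => ?_⟩
  rw [abs_of_nonneg (Real.log_nonneg (one_le_sym hμ u θ)),
    Real.log_le_iff_le_exp (zero_lt_one.trans_le (one_le_sym hμ u θ))]
  exact sym_le hlc hμ hT u θ

include hμ in
/-- The derivative of a posterior expectation against the entropy. -/
theorem fderiv_pexp_le {g : E n → ℝ} (hg : Continuous g) (h0 : ∀ x, 0 ≤ g x) (θ v : E n) :
    fderiv ℝ (pexp μ T g) θ v
      ≤ entP μ T g θ + pexp μ T g θ * Real.log (cen μ T v θ) := by
  have := isProb_post hμ T θ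
  obtain ⟨b, hb⟩ : ∃ b, b = pexp μ T (fun x => ⟪v, x⟫) θ := ⟨_, rfl⟩
  have h := donskerPost (T := T) hμ hg h0 (F := fun x => ⟪v, x⟫ - b) (by fun_prop) θ
  have e1 : pexp μ T (fun x => Real.exp (⟪v, x⟫ - b)) θ = cen μ T v θ := by
    unfold cen
    rw [← hb]
    simp only [pexp, sub_eq_add_neg, Real.exp_add, integral_mul_const]
  have e2 : pexp μ T (fun x => g x * (⟪v, x⟫ - b)) θ
      = fderiv ℝ (pexp μ T g) θ v := by
    rw [fderiv_pexp_apply hμ T hg, ← hb]
    simp only [pexp, mul_sub]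
    rw [integral_sub (intBall (post_ball hμ T θ) (by fun_prop))
      ((intBall (post_ball hμ T θ) hg).mul_const b), integral_mul_const]
  rw [e1, e2] at h
  exact h

include hlc hμ hT in
theorem sq_fderiv_pexp_le {g : E n → ℝ} (hg : Continuous g) (h0 : ∀ x, 0 ≤ g x) (θ v : E n)
    (hG : 0 < pexp μ T g θ) :
    T * (fderiv ℝ (pexp μ T g) θ v) ^ 2 ≤ 4 * pexp μ T g θ * entP μ T g θ * ‖v‖ ^ 2 := by
  rcases eq_or_ne v 0 with rfl | hv
  · simp
  obtain ⟨D, eD⟩ : ∃ D, D = fderiv ℝ (pexp μ T g) θ v := ⟨_, rfl⟩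
  obtain ⟨G, eG⟩ : ∃ G, G = pexp μ T g θ := ⟨_, rfl⟩
  rw [← eG] at hG
  have hv' : 0 < ‖v‖ := norm_pos_iff.2 hv
  obtain ⟨c, ec⟩ : ∃ c, c = D * T / (2 * G * ‖v‖ ^ 2) := ⟨_, rfl⟩
  have h := fderiv_pexp_le (T := T) hμ hg h0 θ (c • v)
  rw [map_smul, smul_eq_mul, ← eD, ← eG] at h
  have h2 : Real.log (cen μ T (c • v) θ) ≤ c ^ 2 * ‖v‖ ^ 2 / T := by
    rw [Real.log_le_iff_le_exp (zero_lt_one.trans_le (one_le_cen hμ _ θ))]
    refine (cen_le hlc hμ hT _ θ).trans_eq ?_
    rw [norm_smul, mul_pow, Real.norm_eq_abs, sq_abs]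
  have h3 := h.trans (add_le_add le_rfl (mul_le_mul_of_nonneg_left h2 hG.le))
  have e : c * D - G * (c ^ 2 * ‖v‖ ^ 2 / T) = T * D ^ 2 / (4 * G * ‖v‖ ^ 2) := by
    rw [ec]
    field_simp
    ring
  have h4 : T * D ^ 2 / (4 * G * ‖v‖ ^ 2) ≤ entP μ T g θ := by linarith
  rw [div_le_iff₀ (by positivity)] at h4
  rw [← eD, ← eG]
  linarith

include hlc hμ hT in
/-- The Gaussian part of the entropy. -/
theorem ent_gauss_le {g : E n → ℝ} (hg : Continuous g) {δ : ℝ} (hδ : 0 < δ) (hgδ : ∀ x, δ ≤ g x)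
    (x : E n) :
    Ent (gauss n) (fun w => pexp μ T g (obs T x w)) ≤ 2 * avg T (entP μ T g) x := by
  have h0 : ∀ x, 0 ≤ g x := fun x => hδ.le.trans (hgδ x)
  have hGpos : ∀ θ, δ ≤ pexp μ T g θ := fun θ => by
    have := isProb_post hμ T θ
    have h := pexp_mono (T := T) hμ (continuous_const (y := δ)) hg (fun x _ => hgδ x) θ
    rwa [pexp, integral_const, probReal_univ, one_smul] at h
  obtain ⟨MG, -, hMG⟩ := bdd_continuous_of_compact hg R
  obtain ⟨p, ep⟩ : ∃ p : E n → ℝ, p = fun w => Real.sqrt (pexp μ T g (obs T x w)) := ⟨_, rfl⟩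
  have hcomp : ContDiff ℝ 1 fun w => pexp μ T g (obs T x w) :=
    (contDiff_pexp hμ T hg).comp (contDiff_const.add (contDiff_id.const_smul (Real.sqrt T)))
  have hp : ContDiff ℝ 1 p := ep ▸ hcomp.sqrt fun w => (hδ.trans_le (hGpos _)).ne'
  have hD : ∀ w, ‖fderiv ℝ p w‖ ^ 2 ≤ entP μ T g (obs T x w) := by
    intro w
    obtain ⟨θ, eθ⟩ : ∃ θ, θ = obs T x w := ⟨_, rfl⟩
    have hE : 0 ≤ entP μ T g θ := entP_nonneg hμ hg h0 θ
    have hGθ : 0 < pexp μ T g θ := hδ.trans_le (hGpos θ)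
    have hd1 : HasFDerivAt (fun w => obs T x w) (Real.sqrt T • ContinuousLinearMap.id ℝ (E n)) w :=
      ((hasFDerivAt_id w).const_smul (Real.sqrt T)).const_add _
    have hd2 := (((contDiff_pexp hμ T hg).differentiable one_ne_zero (obs T x w)).hasFDerivAt.comp w
      hd1).sqrt (hδ.trans_le (hGpos _)).ne'
    rw [← eθ]
    refine Real.le_sqrt (norm_nonneg _) hE |>.1 ?_
    refine ContinuousLinearMap.opNorm_le_bound _ (Real.sqrt_nonneg _) fun v => ?_
    rw [ep, show fderiv ℝ (fun w => Real.sqrt (pexp μ T g (obs T x w))) w = _ from hd2.fderiv]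
    simp only [Function.comp_apply, ← eθ, smul_apply, ContinuousLinearMap.comp_apply,
      ContinuousLinearMap.id_apply, smul_eq_mul, map_smul, Real.norm_eq_abs]
    have hq := sq_fderiv_pexp_le hlc hμ hT hg h0 θ v hGθ
    refine abs_le_of_sq_le_sq (b := Real.sqrt (entP μ T g θ) * ‖v‖) ?_ (by positivity)
    rw [mul_pow, mul_pow, mul_pow, Real.sq_sqrt hT.le, div_pow, one_pow, mul_pow,
      Real.sq_sqrt hGθ.le, Real.sq_sqrt hE]
    rw [div_mul_eq_mul_div, one_mul, div_le_iff₀ (by positivity)]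
    linarith
  obtain ⟨ME, hME⟩ := (bddCont_entP (T := T) hμ hg h0).2
  have h := gauss_lsi hp (M := Real.sqrt MG) (M' := Real.sqrt ME) (fun w => by
    rw [ep, abs_of_nonneg (Real.sqrt_nonneg _)]
    exact Real.sqrt_le_sqrt ((le_abs_self _).trans (abs_pexp_le hμ T hMG _)))
    fun w => Real.le_sqrt_of_sq_le ((hD w).trans ((le_abs_self _).trans (hME _)))
  refine le_trans (le_of_eq ?_) (h.trans ?_)
  · refine congrArg (Ent _) (funext fun w => ?_)
    rw [ep, Real.sq_sqrt (hδ.le.trans (hGpos _))]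
  · refine mul_le_mul_of_nonneg_left ?_ (by norm_num)
    exact integral_mono_of_nonneg (ae_of_all _ fun w => sq_nonneg _)
      (((bddCont_entP hμ hg h0).comp_obs T x).integrable _) (ae_of_all _ hD)

/-- The entropy of the resampled point. -/
noncomputable def jEnt (μ : Measure (E n)) (T : ℝ) (g : E n → ℝ) (x : E n) : ℝ :=
  avg T (pexp μ T fun y => g y * Real.log (g y)) x
    - avg T (pexp μ T g) x * Real.log (avg T (pexp μ T g) x)

include hμ in
theorem jEnt_eq {g : E n → ℝ} (hg : Continuous g) (h0 : ∀ x, 0 ≤ g x) (x : E n) :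
    jEnt μ T g x = avg T (entP μ T g) x + Ent (gauss n) (fun w => pexp μ T g (obs T x w)) := by
  have h1 := (bddCont_pexp hμ T (Real.continuous_mul_log.comp hg)).comp_obs T x
  have h2 := ((bddCont_pexp hμ T hg).mul_log fun θ => integral_nonneg h0).comp_obs T x
  unfold jEnt Ent avg entP
  rw [integral_sub (f := fun w => pexp μ T (fun y => g y * Real.log (g y)) (obs T x w))
    (h1.integrable _) (h2.integrable _)]
  ring

include hlc hμ hT in
theorem jEnt_le {g : E n → ℝ} (hg : Continuous g) {δ : ℝ} (hδ : 0 < δ) (hgδ : ∀ x, δ ≤ g x) (x : E n) :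
    jEnt μ T g x ≤ 3 * avg T (entP μ T g) x := by
  rw [jEnt_eq hμ hg (fun x => hδ.le.trans (hgδ x))]
  linarith [ent_gauss_le hlc hμ hT hg hδ hgδ x]

omit [IsProbabilityMeasure μ] in
theorem avg_le_avg {F G : E n → ℝ} (hF : BddCont F) (hG : BddCont G) (h : ∀ θ, F θ ≤ G θ) (x : E n) :
    avg T F x ≤ avg T G x := by
  exact integral_mono ((hF.comp_obs T x).integrable _) ((hG.comp_obs T x).integrable _) fun w => h _

include hμ in
theorem jEnt_nonneg {g : E n → ℝ} (hg : Continuous g) (h0 : ∀ x, 0 ≤ g x) (x : E n) :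
    0 ≤ jEnt μ T g x := by
  rw [jEnt_eq hμ hg h0]
  have h1 : 0 ≤ avg T (entP μ T g) x := integral_nonneg fun w => entP_nonneg hμ hg h0 _
  have hb := (bddCont_pexp hμ T hg).comp_obs T x
  have h2 : 0 ≤ Ent (gauss n) fun w => pexp μ T g (obs T x w) :=
    ent_nonneg (fun w => integral_nonneg h0) (hb.integrable _)
      ((hb.mul_log fun w => integral_nonneg h0).integrable _)
  linarith

include hlc hμ hT in
/-- The derivative of the resampled function. -/
theorem fderiv_avg_pexp_le {g : E n → ℝ} (hg : Continuous g) (h0 : ∀ x, 0 ≤ g x) (x v : E n) :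
    fderiv ℝ (avg T (pexp μ T g)) x v
      ≤ T * (jEnt μ T g x + avg T (pexp μ T g) x * Real.log (avg T (cen μ T v) x)) := by
  obtain ⟨M, -, hM⟩ := bdd_continuous_of_compact hg R
  rw [fderiv_avg_apply T (contDiff_pexp hμ T hg) (fun θ => abs_pexp_le hμ T hM θ)
    (fun θ => norm_fderiv_pexp_le hμ T hg hM θ)]
  refine mul_le_mul_of_nonneg_left ?_ hT.le
  have hG := (bddCont_pexp hμ T hg).comp_obs T x
  have hL := (bddCont_log_cen hlc hμ hT v).comp_obs T x
  have hE := (bddCont_entP (T := T) hμ hg h0).comp_obs T x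
  have hC := (bddCont_cen hlc hμ hT v).comp_obs T x
  have hcpos : ∀ w, 0 < cen μ T v (obs T x w) := fun w => zero_lt_one.trans_le (one_le_cen hμ v _)
  have h1 : ∫ w, fderiv ℝ (pexp μ T g) (obs T x w) v ∂(gauss n)
      ≤ ∫ w, (entP μ T g (obs T x w)
        + pexp μ T g (obs T x w) * Real.log (cen μ T v (obs T x w))) ∂(gauss n) := by
    refine integral_mono ?_ ((hE.add (hG.mul hL)).integrable _) fun w => fderiv_pexp_le hμ hg h0 _ v
    refine intBdd ?_ (M := 2 * M * |R| * ‖v‖) fun w => ?_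
    · exact ((((contDiff_pexp hμ T hg).continuous_fderiv one_ne_zero).clm_apply
        continuous_const).comp (by unfold obs; fun_prop)).measurable
    · rw [← Real.norm_eq_abs]
      exact (ContinuousLinearMap.le_opNorm _ v).trans
        (mul_le_mul_of_nonneg_right (norm_fderiv_pexp_le hμ T hg hM _) (norm_nonneg v))
  rw [integral_add (hE.integrable _) ((hG.mul hL).integrable _)] at h1
  have h2 := donsker (μ := gauss n) (g := fun w => pexp μ T g (obs T x w))
    (F := fun w => Real.log (cen μ T v (obs T x w)))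
    (fun w => integral_nonneg h0) (hG.integrable _)
    ((hG.mul_log fun w => integral_nonneg h0).integrable _) ((hG.mul hL).integrable _)
    (by simp only [Real.exp_log (hcpos _)]; exact hC.integrable _)
  simp only [Real.exp_log (hcpos _)] at h2
  rw [jEnt_eq hμ hg h0]
  simp only [avg] at h1 h2 ⊢
  linarith

include hlc hμ hT in
/-- The derivative of the averaged symmetrised moment. -/
theorem fderiv_avg_sym_le (u x v : E n) :
    fderiv ℝ (avg T (sym μ T u)) x v
      ≤ 2 * T * avg T (sym μ T u) x * (Real.log (avg T (sym μ T ((2 : ℝ) • u)) x)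
        + Real.log (avg T (cen μ T v) x)) := by
  obtain ⟨gp, egp⟩ : ∃ g : E n → ℝ, g = fun y => Real.exp ⟪u, y⟫ := ⟨_, rfl⟩
  obtain ⟨gm, egm⟩ : ∃ g : E n → ℝ, g = fun y => Real.exp ⟪-u, y⟫ := ⟨_, rfl⟩
  have cp : Continuous gp := by rw [egp]; fun_prop
  have cm : Continuous gm := by rw [egm]; fun_prop
  have p0 : ∀ y, 0 ≤ gp y := fun y => by rw [egp]; exact (Real.exp_pos _).le
  have m0 : ∀ y, 0 ≤ gm y := fun y => by rw [egm]; exact (Real.exp_pos _).le
  have esym : sym μ T u = fun θ => pexp μ T gp θ * pexp μ T gm θ := by rw [egp, egm]; rfl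
  have hcd : ContDiff ℝ 1 (sym μ T u) :=
    esym ▸ (contDiff_pexp hμ T cp).mul (contDiff_pexp hμ T cm)
  obtain ⟨Bp, hBp0, hBp⟩ := bdd_continuous_of_compact cp R
  obtain ⟨Bm, hBm0, hBm⟩ := bdd_continuous_of_compact cm R
  have hDapply : ∀ θ, fderiv ℝ (sym μ T u) θ = pexp μ T gp θ • fderiv ℝ (pexp μ T gm) θ
      + pexp μ T gm θ • fderiv ℝ (pexp μ T gp) θ := fun θ => by
    rw [esym]
    exact fderiv_fun_mul ((contDiff_pexp hμ T cp).differentiable one_ne_zero θ)
      ((contDiff_pexp hμ T cm).differentiable one_ne_zero θ)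
  have hDb : ∀ θ, ‖fderiv ℝ (sym μ T u) θ‖ ≤ 4 * Bp * Bm * |R| := fun θ => by
    rw [hDapply]
    refine (norm_add_le _ _).trans ?_
    rw [norm_smul, norm_smul, Real.norm_eq_abs, Real.norm_eq_abs]
    have h1 := mul_le_mul (abs_pexp_le hμ T hBp θ) (norm_fderiv_pexp_le hμ T cm hBm θ)
      (norm_nonneg _) hBp0
    have h2 := mul_le_mul (abs_pexp_le hμ T hBm θ) (norm_fderiv_pexp_le hμ T cp hBp θ)
      (norm_nonneg _) hBm0
    linarith
  obtain ⟨P, eP⟩ : ∃ P : E n → ℝ, P = fun θ => pexp μ T gp θ * entP μ T gm θ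
      + pexp μ T gm θ * entP μ T gp θ := ⟨_, rfl⟩
  have hPc : BddCont P := eP ▸ ((bddCont_pexp hμ T cp).mul (bddCont_entP hμ cm m0)).add
    ((bddCont_pexp hμ T cm).mul (bddCont_entP hμ cp p0))
  have hP0 : ∀ θ, 0 ≤ P θ := fun θ => by
    rw [eP]
    exact add_nonneg (mul_nonneg (integral_nonneg p0) (entP_nonneg hμ cm m0 θ))
      (mul_nonneg (integral_nonneg m0) (entP_nonneg hμ cp p0 θ))
  have hpos : ∀ θ, 0 < pexp μ T gp θ ∧ 0 < pexp μ T gm θ := fun θ => by
    have := isProb_post hμ T θ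
    rw [egp, egm]
    exact ⟨integral_exp_pos (intBall (post_ball hμ T θ) (by fun_prop)),
      integral_exp_pos (intBall (post_ball hμ T θ) (by fun_prop))⟩
  have hD : ∀ θ, fderiv ℝ (sym μ T u) θ v
      ≤ P θ + 2 * (sym μ T u θ * Real.log (cen μ T v θ)) := fun θ => by
    rw [hDapply, esym, eP]
    simp only [add_apply, smul_apply, smul_eq_mul]
    have h1 := mul_le_mul_of_nonneg_left (fderiv_pexp_le (T := T) hμ cm m0 θ v) (hpos θ).1.le
    have h2 := mul_le_mul_of_nonneg_left (fderiv_pexp_le (T := T) hμ cp p0 θ v) (hpos θ).2.le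
    linarith
  have hEP : ∀ (a : E n) (θ : E n), entP μ T (fun y => Real.exp ⟪a, y⟫) θ
      ≤ pexp μ T (fun y => Real.exp ⟪a, y⟫) θ
        * (Real.log (pexp μ T (fun y => Real.exp ⟪(2 : ℝ) • a, y⟫) θ)
          - 2 * Real.log (pexp μ T (fun y => Real.exp ⟪a, y⟫) θ)) := fun a θ => by
    have h := donskerPost (T := T) hμ (g := fun y => Real.exp ⟪a, y⟫) (by fun_prop)
      (fun y => (Real.exp_pos _).le) (F := fun y => ⟪(2 : ℝ) • a, y⟫) (by fun_prop) θ
    have e : pexp μ T (fun y => Real.exp ⟪a, y⟫ * ⟪(2 : ℝ) • a, y⟫) θ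
        = 2 * pexp μ T (fun y => Real.exp ⟪a, y⟫ * ⟪a, y⟫) θ := by
      simp only [pexp, ← integral_const_mul, real_inner_smul_left]
      exact integral_congr_ae (ae_of_all _ fun y => by ring)
    rw [e] at h
    unfold entP at h ⊢
    simp only [Real.log_exp] at h ⊢
    linarith
  have hPle : ∀ θ, P θ ≤ sym μ T u θ * Real.log (sym μ T ((2 : ℝ) • u) θ)
      - 2 * (sym μ T u θ * Real.log (sym μ T u θ)) := fun θ => by
    have hp2 : 0 < pexp μ T (fun y => Real.exp ⟪(2 : ℝ) • u, y⟫) θ := by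
      have := isProb_post hμ T θ
      exact integral_exp_pos (intBall (post_ball hμ T θ) (by fun_prop))
    have hm2 : 0 < pexp μ T (fun y => Real.exp ⟪-((2 : ℝ) • u), y⟫) θ := by
      have := isProb_post hμ T θ
      exact integral_exp_pos (intBall (post_ball hμ T θ) (by fun_prop))
    have h1 := mul_le_mul_of_nonneg_left (hEP (-u) θ) (hpos θ).1.le
    have h2 := mul_le_mul_of_nonneg_left (hEP u θ) (hpos θ).2.le
    rw [smul_neg] at h1
    unfold sym
    rw [Real.log_mul hp2.ne' hm2.ne', eP]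
    have hq := hpos θ
    simp only [egp, egm] at h1 h2 hq ⊢
    rw [Real.log_mul hq.1.ne' hq.2.ne']
    linarith
  rw [fderiv_avg_apply T hcd (M := Bp * Bm) (fun θ => by
      rw [esym, abs_mul]
      exact mul_le_mul (abs_pexp_le hμ T hBp θ) (abs_pexp_le hμ T hBm θ) (abs_nonneg _) hBp0)
    hDb x v]
  have hS := (bddCont_sym (T := T) hμ u).comp_obs T x
  have hS2 := (bddCont_sym (T := T) hμ ((2 : ℝ) • u)).comp_obs T x
  have hLS2 := (bddCont_log_sym hlc hμ hT ((2 : ℝ) • u)).comp_obs T x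
  have hLC := (bddCont_log_cen hlc hμ hT v).comp_obs T x
  have hC := (bddCont_cen hlc hμ hT v).comp_obs T x
  have hP := hPc.comp_obs T x
  have hS0 : ∀ w, 0 ≤ sym μ T u (obs T x w) := fun w => zero_le_one.trans (one_le_sym hμ u _)
  have hspos : ∀ w, 0 < sym μ T ((2 : ℝ) • u) (obs T x w) :=
    fun w => zero_lt_one.trans_le (one_le_sym hμ _ _)
  have hcpos : ∀ w, 0 < cen μ T v (obs T x w) := fun w => zero_lt_one.trans_le (one_le_cen hμ v _)
  have hSl := hS.mul_log hS0
  have d1 := donsker (μ := gauss n) (F := fun w => Real.log (sym μ T ((2 : ℝ) • u) (obs T x w)))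
    hS0 (hS.integrable _) (hSl.integrable _) ((hS.mul hLS2).integrable _)
    (by simp only [Real.exp_log (hspos _)]; exact hS2.integrable _)
  have d2 := donsker (μ := gauss n) (F := fun w => Real.log (cen μ T v (obs T x w)))
    hS0 (hS.integrable _) (hSl.integrable _) ((hS.mul hLC).integrable _)
    (by simp only [Real.exp_log (hcpos _)]; exact hC.integrable _)
  simp only [Real.exp_log (hspos _)] at d1
  simp only [Real.exp_log (hcpos _)] at d2
  have i1 : ∫ w, fderiv ℝ (sym μ T u) (obs T x w) v ∂(gauss n)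
      ≤ ∫ w, (P (obs T x w) + 2 * (sym μ T u (obs T x w) * Real.log (cen μ T v (obs T x w))))
        ∂(gauss n) := by
    refine integral_mono ?_ ((hP.add ((BddCont.const 2).mul (hS.mul hLC))).integrable _) fun w => hD _
    refine intBdd ?_ (M := 4 * Bp * Bm * |R| * ‖v‖) fun w => ?_
    · exact (((hcd.continuous_fderiv one_ne_zero).clm_apply continuous_const).comp
        (by unfold obs; fun_prop)).measurable
    · rw [← Real.norm_eq_abs]
      exact (ContinuousLinearMap.le_opNorm _ v).trans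
        (mul_le_mul_of_nonneg_right (hDb _) (norm_nonneg v))
  have i2 : ∫ w, P (obs T x w) ∂(gauss n)
      ≤ ∫ w, (sym μ T u (obs T x w) * Real.log (sym μ T ((2 : ℝ) • u) (obs T x w))
        - 2 * (sym μ T u (obs T x w) * Real.log (sym μ T u (obs T x w)))) ∂(gauss n) :=
    integral_mono (hP.integrable _) (((hS.mul hLS2).sub ((BddCont.const 2).mul hSl)).integrable _)
      fun w => hPle _
  rw [integral_add (hP.integrable _) (((BddCont.const 2).mul (hS.mul hLC)).integrable _),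
    integral_const_mul] at i1
  rw [integral_sub ((hS.mul hLS2).integrable _) (((BddCont.const 2).mul hSl).integrable _),
    integral_const_mul] at i2
  have i3 : 0 ≤ ∫ w, P (obs T x w) ∂(gauss n) := integral_nonneg fun w => hP0 _
  have hA : 1 ≤ ∫ w, sym μ T u (obs T x w) ∂(gauss n) := by
    have := integral_mono (integrable_const (1 : ℝ)) (hS.integrable (gauss n))
      fun w => one_le_sym hμ u (obs T x w)
    simpa using this
  have i4 : 0 ≤ (∫ w, sym μ T u (obs T x w) ∂(gauss n))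
      * Real.log (∫ w, sym μ T u (obs T x w) ∂(gauss n)) :=
    mul_nonneg (zero_le_one.trans hA) (Real.log_nonneg hA)
  have i5 : ∫ w, fderiv ℝ (sym μ T u) (obs T x w) v ∂(gauss n)
      ≤ 2 * avg T (sym μ T u) x * (Real.log (avg T (sym μ T ((2 : ℝ) • u)) x)
        + Real.log (avg T (cen μ T v) x)) := by
    unfold Ent at d1 d2
    simp only [avg]
    linarith
  have := mul_le_mul_of_nonneg_left i5 hT.le
  linarith

end Vale.Agent.P245.LSI
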