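import Mathlib
import Vale.Agent.P245.LSI.Step

namespace Vale.Agent.P245.LSI

open MeasureTheory Set Filter
open scoped ENNReal RealInnerProductSpace Topology

variable {n : ℕ} {μ : Measure (E n)} {T R p0 : ℝ}

/-- The log-Sobolev inequality with a given constant, for bounded smooth functions. -/
def LSIK (μ : Measure (E n)) (K : ℝ) : Prop :=
  ∀ f : E n → ℝ, ContDiff ℝ 1 f → ∀ M : ℝ, (∀ x, |f x| ≤ M) →
    Ent μ (fun x => f x ^ 2) ≤ K * ∫ x, ‖fderiv ℝ f x‖ ^ 2 ∂μ

/-- The averaged symmetrised moment is controlled on the ball. -/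
def Good (μ : Measure (E n)) (T R p0 S : ℝ) : Prop :=
  ∀ x : E n, ‖x‖ ≤ R → ∀ u : E n, p0 ≤ ‖u‖ ^ 2 → Real.log (avg T (sym μ T u) x) ≤ S * ‖u‖ ^ 2

variable [IsProbabilityMeasure μ] (hlc : SLC 0 μ) (hμ : μ (Metric.closedBall 0 R)ᶜ = 0) (hT : 0 < T)
  (hsub : ∀ u : E n, ∫ x, Real.exp ⟪u, x⟫ ∂μ ≤ 5 * Real.exp (‖u‖ ^ 2 / 4))

include hμ in
theorem one_le_avg_sym (u x : E n) : 1 ≤ avg T (sym μ T u) x := by
  have := integral_mono (integrable_const (1 : ℝ))
    (((bddCont_sym (T := T) hμ u).comp_obs T x).integrable (gauss n)) fun w => one_le_sym hμ u _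
  simpa [avg] using this

include hlc hμ hT in
theorem one_le_avg_cen (u x : E n) : 1 ≤ avg T (cen μ T u) x := by
  have := integral_mono (integrable_const (1 : ℝ))
    (((bddCont_cen hlc hμ hT u).comp_obs T x).integrable (gauss n)) fun w => one_le_cen hμ u _
  simpa [avg] using this

include hlc hμ hT in
theorem good_base : Good μ T R p0 (2 / T) := by
  intro x _ u _
  rw [Real.log_le_iff_le_exp (zero_lt_one.trans_le (one_le_avg_sym hμ u x))]
  have h := integral_mono (((bddCont_sym (T := T) hμ u).comp_obs T x).integrable (gauss n))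
    (integrable_const (Real.exp (2 * ‖u‖ ^ 2 / T))) fun w => sym_le hlc hμ hT u _
  rw [integral_const, probReal_univ, one_smul] at h
  exact h.trans_eq (by ring_nf)

include hμ hT hsub in
theorem exists_avg_sym_le (u : E n) :
    ∃ z : E n, ‖z‖ ≤ R ∧ avg T (sym μ T u) z ≤ 5 * Real.exp (‖u‖ ^ 2) := by
  have c2 : ∀ a : E n, Continuous fun y : E n => Real.exp ⟪a, y⟫ := fun a => by fun_prop
  have hb1 := bddCont_pexp hμ T (c2 ((2 : ℝ) • u))
  have hb2 := bddCont_pexp hμ T (c2 (-((2 : ℝ) • u)))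
  have hsq : ∀ (a θ : E n), pexp μ T (fun y => Real.exp ⟪a, y⟫) θ ^ 2
      ≤ pexp μ T (fun y => Real.exp ⟪(2 : ℝ) • a, y⟫) θ := by
    intro a θ
    have := isProb_post hμ T θ
    obtain ⟨m, hm⟩ : ∃ m, m = pexp μ T (fun y => Real.exp ⟪a, y⟫) θ := ⟨_, rfl⟩
    have i1 := intBall (post_ball hμ T θ) (c2 ((2 : ℝ) • a))
    have i2 := intBall (post_ball hμ T θ) (c2 a)
    have h : 0 ≤ ∫ y, (Real.exp ⟪(2 : ℝ) • a, y⟫ - (2 * m) * Real.exp ⟪a, y⟫ + m ^ 2)
        ∂(post μ T θ) := by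
      refine integral_nonneg fun y => ?_
      show 0 ≤ Real.exp ⟪(2 : ℝ) • a, y⟫ - (2 * m) * Real.exp ⟪a, y⟫ + m ^ 2
      rw [real_inner_smul_left, two_mul, Real.exp_add]
      nlinarith [sq_nonneg (Real.exp ⟪a, y⟫ - m)]
    rw [integral_add (f := fun y => Real.exp ⟪(2 : ℝ) • a, y⟫ - (2 * m) * Real.exp ⟪a, y⟫)
      (i1.sub (i2.const_mul _)) (integrable_const _), integral_sub i1 (i2.const_mul _),
      integral_const_mul, integral_const, probReal_univ, one_smul,
      show (∫ y, Real.exp ⟪a, y⟫ ∂(post μ T θ)) = m from hm.symm] at h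
    rw [← hm]
    unfold pexp
    nlinarith [h]
  have hle : ∀ θ, sym μ T u θ ≤ 1 / 2 * (pexp μ T (fun y => Real.exp ⟪(2 : ℝ) • u, y⟫) θ
      + pexp μ T (fun y => Real.exp ⟪-((2 : ℝ) • u), y⟫) θ) := fun θ => by
    have h1 := hsq u θ
    have h2 := hsq (-u) θ
    rw [smul_neg] at h2
    unfold sym
    nlinarith [sq_nonneg (pexp μ T (fun y => Real.exp ⟪u, y⟫) θ
      - pexp μ T (fun y => Real.exp ⟪-u, y⟫) θ)]
  obtain ⟨M, hM, hdM⟩ : ∃ M : E n → ℝ, Continuous M ∧ ∀ x, M x = avg T (sym μ T u) x := by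
    refine ⟨_, ?_, fun x => rfl⟩
    obtain ⟨Mb, hMb⟩ := (bddCont_sym (T := T) hμ u).2
    refine continuous_of_dominated (bound := fun _ => Mb) (fun x => ?_)
      (fun x => ae_of_all _ fun w => ?_) (integrable_const _) (ae_of_all _ fun w => ?_)
    · exact ((bddCont_sym (T := T) hμ u).comp_obs T x).1.aestronglyMeasurable
    · exact (Real.norm_eq_abs _).trans_le (hMb _)
    · exact (bddCont_sym (T := T) hμ u).1.comp (by unfold obs; fun_prop)
  have hiM : Integrable M μ := intBall hμ hM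
  have hcont : ∀ a : E n, Continuous (avg T (pexp μ T fun y => Real.exp ⟪a, y⟫)) := fun a => by
    obtain ⟨Mb, hMb⟩ := (bddCont_pexp hμ T (c2 a)).2
    refine continuous_of_dominated (bound := fun _ => Mb) (fun x => ?_)
      (fun x => ae_of_all _ fun w => ?_) (integrable_const _) (ae_of_all _ fun w => ?_)
    · exact ((bddCont_pexp hμ T (c2 a)).comp_obs T x).1.aestronglyMeasurable
    · exact (Real.norm_eq_abs _).trans_le (hMb _)
    · exact (bddCont_pexp hμ T (c2 a)).1.comp (by unfold obs; fun_prop)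
  have hint : ∫ x, M x ∂μ ≤ 5 * Real.exp (‖u‖ ^ 2) := by
    calc ∫ x, M x ∂μ ≤ ∫ x, (1 / 2 * avg T (pexp μ T fun y => Real.exp ⟪(2 : ℝ) • u, y⟫) x
          + 1 / 2 * avg T (pexp μ T fun y => Real.exp ⟪-((2 : ℝ) • u), y⟫) x) ∂μ := by
          refine integral_mono hiM (((intBall hμ (hcont _)).const_mul _).add
            ((intBall hμ (hcont _)).const_mul _)) fun x => ?_
          rw [hdM]
          have h := integral_mono (((bddCont_sym (T := T) hμ u).comp_obs T x).integrable (gauss n))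
            ((((hb1.comp_obs T x).integrable _).add ((hb2.comp_obs T x).integrable _)).const_mul
              (1 / 2)) fun w => hle _
          simp only [Pi.add_apply] at h
          rw [integral_const_mul, integral_add ((hb1.comp_obs T x).integrable _)
            ((hb2.comp_obs T x).integrable _)] at h
          show avg T (sym μ T u) x ≤ _
          unfold avg
          linarith
      _ ≤ 5 * Real.exp (‖u‖ ^ 2) := by
          rw [integral_add ((intBall hμ (hcont _)).const_mul _) ((intBall hμ (hcont _)).const_mul _),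
            integral_const_mul, integral_const_mul, integral_avg_pexp hμ hT.le (c2 _),
            integral_avg_pexp hμ hT.le (c2 _)]
          have h1 := hsub ((2 : ℝ) • u)
          have h2 := hsub (-((2 : ℝ) • u))
          rw [norm_smul, Real.norm_two] at h1
          rw [norm_neg, norm_smul, Real.norm_two] at h2
          rw [show (2 * ‖u‖) ^ 2 / 4 = ‖u‖ ^ 2 by ring] at h1 h2
          linarith
  obtain ⟨z, hz, hz2⟩ := exists_notMem_null_le_integral hiM hμ
  refine ⟨z, by simpa using hz, ?_⟩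
  rw [← hdM]
  exact hz2.trans hint

include hμ in
theorem contDiff_avg_sym (u : E n) :
    ContDiff ℝ 1 (avg T (sym μ T u)) := by
  obtain ⟨Bp, hBp0, hBp⟩ := bdd_continuous_of_compact
    (f := fun y : E n => Real.exp ⟪u, y⟫) (by fun_prop) R
  obtain ⟨Bm, hBm0, hBm⟩ := bdd_continuous_of_compact
    (f := fun y : E n => Real.exp ⟪-u, y⟫) (by fun_prop) R
  have c1 : Continuous fun y : E n => Real.exp ⟪u, y⟫ := by fun_prop
  have c2 : Continuous fun y : E n => Real.exp ⟪-u, y⟫ := by fun_prop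
  have esym : sym μ T u = fun θ => pexp μ T (fun y => Real.exp ⟪u, y⟫) θ
      * pexp μ T (fun y => Real.exp ⟪-u, y⟫) θ := rfl
  rw [esym]
  refine contDiff_avg T ((contDiff_pexp hμ T c1).mul (contDiff_pexp hμ T c2)) (M := Bp * Bm)
    (M' := 4 * Bp * Bm * |R|) (fun θ => ?_) fun θ => ?_
  · rw [abs_mul]
    exact mul_le_mul (abs_pexp_le hμ T hBp θ) (abs_pexp_le hμ T hBm θ) (abs_nonneg _) hBp0
  · rw [fderiv_fun_mul ((contDiff_pexp hμ T c1).differentiable one_ne_zero θ)
      ((contDiff_pexp hμ T c2).differentiable one_ne_zero θ)]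
    refine (norm_add_le _ _).trans ?_
    rw [norm_smul, norm_smul, Real.norm_eq_abs, Real.norm_eq_abs]
    have h1 := mul_le_mul (abs_pexp_le hμ T hBp θ) (norm_fderiv_pexp_le hμ T c2 hBm θ)
      (norm_nonneg _) hBp0
    have h2 := mul_le_mul (abs_pexp_le hμ T hBm θ) (norm_fderiv_pexp_le hμ T c1 hBp θ)
      (norm_nonneg _) hBm0
    linarith

theorem opNorm_le_of_le {L : E n →L[ℝ] ℝ} {B : ℝ} (hB : 0 ≤ B)
    (h : ∀ e : E n, ‖e‖ = 1 → L e ≤ B) : ‖L‖ ≤ B := by
  refine L.opNorm_le_bound hB fun v => ?_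
  rcases eq_or_ne v 0 with rfl | hv
  · simp
  have hv' : 0 < ‖v‖ := norm_pos_iff.2 hv
  obtain ⟨e, he⟩ : ∃ e, e = ‖v‖⁻¹ • v := ⟨_, rfl⟩
  have he1 : ‖e‖ = 1 := by rw [he, norm_smul, norm_inv, norm_norm, inv_mul_cancel₀ hv'.ne']
  have hv2 : v = ‖v‖ • e := by rw [he, smul_smul, mul_inv_cancel₀ hv'.ne', one_smul]
  have h1 := h e he1
  have h2 := h (-e) (by rw [norm_neg, he1])
  rw [map_neg] at h2
  rw [hv2, map_smul, smul_eq_mul, norm_mul, norm_norm, Real.norm_eq_abs, norm_smul, norm_norm, he1,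
    mul_one, mul_comm B]
  exact mul_le_mul_of_nonneg_left (abs_le.2 ⟨by linarith, h1⟩) (norm_nonneg v)

include hlc hμ hT hsub in
theorem good_step (hp0 : 1 ≤ p0) (hpR : 32 * T * R ≤ Real.sqrt p0) {S : ℝ}
    (hS0 : 0 ≤ S) (h : Good μ T R p0 S) : Good μ T R p0 (3 + S / 2) := by
  intro x hx u hu
  obtain ⟨z, hz, hz5⟩ := exists_avg_sym_le hμ hT hsub u
  have hpos : ∀ y, 0 < avg T (sym μ T u) y := fun y => zero_lt_one.trans_le (one_le_avg_sym hμ u y)
  have hu1 : 1 ≤ ‖u‖ ^ 2 := hp0.trans hu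
  have hsu : Real.sqrt p0 ≤ ‖u‖ := (Real.sqrt_le_sqrt hu).trans_eq (Real.sqrt_sq (norm_nonneg _))
  have hupos : 0 < ‖u‖ := (Real.sqrt_pos.2 (zero_lt_one.trans_le hp0)).trans_le hsu
  have hlogz : Real.log (avg T (sym μ T u) z) ≤ 3 * ‖u‖ ^ 2 := by
    have h5 := Real.log_le_log (hpos z) hz5
    rw [Real.log_mul (by norm_num) (Real.exp_ne_zero _), Real.log_exp] at h5
    have : Real.log 5 ≤ 2 := by
      rw [Real.log_le_iff_le_exp (by norm_num), show (2 : ℝ) = 1 + 1 by norm_num, Real.exp_add]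
      nlinarith [Real.exp_one_gt_d9]
    linarith
  have hsm := contDiff_avg_sym (T := T) hμ u
  have hφ : ContDiff ℝ 1 fun y => Real.log (avg T (sym μ T u) y) := hsm.log fun y => (hpos y).ne'
  have hb : ∀ y : E n, ‖y‖ ≤ R →
      ‖fderiv ℝ (fun y => Real.log (avg T (sym μ T u) y)) y‖ ≤ 8 * T * S * ‖u‖ := by
    intro y hy
    refine opNorm_le_of_le (by positivity) fun e he => ?_
    obtain ⟨A, eA⟩ : ∃ A, A = avg T (sym μ T u) y := ⟨_, rfl⟩
    have hA : 0 < A := eA ▸ hpos y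
    rw [((hsm.differentiable one_ne_zero y).hasFDerivAt.log (hpos y).ne').fderiv, smul_apply,
      smul_eq_mul, ← eA]
    have hD := fderiv_avg_sym_le hlc hμ hT u y ((2 * ‖u‖) • e)
    rw [map_smul, smul_eq_mul, ← eA] at hD
    have hv2 : ‖(2 * ‖u‖) • e‖ = 2 * ‖u‖ := by
      rw [norm_smul, he, mul_one, Real.norm_of_nonneg (by positivity)]
    have n1 := h y hy ((2 : ℝ) • u) (by rw [norm_smul, Real.norm_two]; nlinarith)
    have n2 := h y hy ((2 * ‖u‖) • e) (by rw [hv2]; nlinarith)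
    rw [norm_smul, Real.norm_two] at n1
    rw [hv2] at n2
    have hcs : Real.log (avg T (cen μ T ((2 * ‖u‖) • e)) y)
        ≤ Real.log (avg T (sym μ T ((2 * ‖u‖) • e)) y) := by
      refine Real.log_le_log (zero_lt_one.trans_le (one_le_avg_cen hlc hμ hT _ y)) ?_
      exact avg_le_avg (bddCont_cen hlc hμ hT _) (bddCont_sym hμ _) (fun θ => cen_le_sym hμ _ θ) y
    have h3 := hD.trans (mul_le_mul_of_nonneg_left (add_le_add n1 (hcs.trans n2))
      (by positivity : 0 ≤ 2 * T * A))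
    rw [inv_mul_le_iff₀ hA]
    refine le_of_mul_le_mul_left ?_ (by positivity : 0 < 2 * ‖u‖)
    nlinarith
  have hseg : ∀ w ∈ segment ℝ z x,
      ‖fderiv ℝ (fun y => Real.log (avg T (sym μ T u) y)) w‖ ≤ 8 * T * S * ‖u‖ := fun w hw =>
    hb w (mem_closedBall_zero_iff.1 ((convex_closedBall (0 : E n) R).segment_subset
      (by simpa using hz) (by simpa using hx) hw))
  have h4 := mvt_seg hφ hseg
  have h5 : ‖x - z‖ ≤ 2 * R := by linarith [norm_sub_le x z]
  have h6 := mul_le_mul_of_nonneg_left h5 (by positivity : 0 ≤ 8 * T * S * ‖u‖)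
  have h7 : 8 * T * S * ‖u‖ * (2 * R) ≤ S / 2 * ‖u‖ ^ 2 := by
    have := mul_le_mul_of_nonneg_right (hpR.trans hsu) (by positivity : 0 ≤ S / 2 * ‖u‖)
    nlinarith
  linarith

include hlc hμ hT hsub in
theorem good_seven (hp0 : 1 ≤ p0) (hpR : 32 * T * R ≤ Real.sqrt p0) :
    Good μ T R p0 7 := by
  have key : ∀ k : ℕ, Good μ T R p0 (6 + 2 / T * (1 / 2) ^ k) := by
    intro k
    induction k with
    | zero =>
      intro x hx u hu
      refine (good_base hlc hμ hT x hx u hu).trans ?_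
      rw [pow_zero, mul_one]
      nlinarith [sq_nonneg ‖u‖]
    | succ k ih =>
      have := good_step hlc hμ hT hsub hp0 hpR (by positivity) ih
      intro x hx u hu
      refine (this x hx u hu).trans_eq ?_
      rw [pow_succ]
      ring
  obtain ⟨k, hk⟩ := exists_pow_lt_of_lt_one (show (0 : ℝ) < T / 2 by positivity)
    (show (1 / 2 : ℝ) < 1 by norm_num)
  intro x hx u hu
  refine (key k x hx u hu).trans ?_
  have : 2 / T * (1 / 2) ^ k ≤ 1 := by
    rw [div_mul_eq_mul_div, div_le_one hT]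
    linarith
  nlinarith [sq_nonneg ‖u‖]

theorem exp_quad (y : ℝ) {l : ℝ} (hl : |l| ≤ 1 / 4) :
    Real.exp (l * y) ≤ 1 + l * y + 8 * l ^ 2 * (Real.exp y + Real.exp (-y)) := by
  have h1 : Real.exp (l * y) ≤ 1 + l * y + (l * y) ^ 2 * Real.exp |l * y| := by
    rcases le_total 0 (l * y) with h | h
    · rw [abs_of_nonneg h]
      exact exp_le_quadratic h
    · have h2 : Real.exp (l * y) ≤ 1 + l * y + (l * y) ^ 2 := by
        have h3 := Real.add_one_le_exp (-(l * y))
        rw [Real.exp_neg] at h3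
        have hp := Real.exp_pos (l * y)
        have h4 : Real.exp (l * y) * (1 - l * y) ≤ 1 := by
          have := mul_le_mul_of_nonneg_left h3 hp.le
          rw [mul_inv_cancel₀ hp.ne'] at this
          linarith
        nlinarith [mul_nonneg (sq_nonneg (l * y)) (neg_nonneg.2 h)]
      refine h2.trans ?_
      have := mul_le_mul_of_nonneg_left (Real.one_le_exp (abs_nonneg (l * y))) (sq_nonneg (l * y))
      linarith
  refine h1.trans (add_le_add_right ?_ _)
  have h2 : 3 / 8 * |y| ≤ Real.exp (3 / 8 * |y|) := by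
    linarith [Real.add_one_le_exp (3 / 8 * |y|)]
  have h3 := pow_le_pow_left₀ (by positivity) h2 2
  rw [← Real.exp_nat_mul, mul_pow, sq_abs] at h3
  have h4 : Real.exp |l * y| ≤ Real.exp (1 / 4 * |y|) := by
    rw [Real.exp_le_exp, abs_mul]
    exact mul_le_mul_of_nonneg_right hl (abs_nonneg _)
  have h5 : y ^ 2 * Real.exp |l * y| ≤ 8 * Real.exp |y| := by
    have h6 := mul_le_mul h3 h4 (Real.exp_pos _).le (Real.exp_pos _).le
    rw [← Real.exp_add] at h6
    have e : ((2 : ℕ) : ℝ) * (3 / 8 * |y|) + 1 / 4 * |y| = |y| := by push_cast; ring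
    rw [e] at h6
    nlinarith [mul_nonneg (sq_nonneg y) (Real.exp_pos |l * y|).le]
  have h7 : Real.exp |y| ≤ Real.exp y + Real.exp (-y) := by
    rcases le_total 0 y with h | h
    · rw [abs_of_nonneg h]; linarith [Real.exp_pos (-y)]
    · rw [abs_of_nonpos h]; linarith [Real.exp_pos y]
  have h8 := mul_le_mul_of_nonneg_left (h5.trans (mul_le_mul_of_nonneg_left h7 (by norm_num)))
    (sq_nonneg l)
  nlinarith

include hlc hμ hT in
theorem small_scale (hp0 : 1 ≤ p0) (h7 : Good μ T R p0 7) {x e : E n} (hx : ‖x‖ ≤ R) (he : ‖e‖ = 1)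
    {c : ℝ} (hc0 : 0 ≤ c) (hc : c ≤ 1 / (28 * Real.sqrt p0)) :
    Real.log (avg T (cen μ T (c • e)) x) ≤ 2352 * p0 * c ^ 2 := by
  obtain ⟨s, es⟩ : ∃ s, s = Real.sqrt p0 := ⟨_, rfl⟩
  have hs1 : 1 ≤ s := es ▸ Real.one_le_sqrt.2 hp0
  have hs2 : s ^ 2 = p0 := by rw [es]; exact Real.sq_sqrt (zero_le_one.trans hp0)
  rw [← es] at hc
  obtain ⟨l, el⟩ : ∃ l, l = 7 * s * c := ⟨_, rfl⟩
  have hl : |l| ≤ 1 / 4 := by
    rw [el, abs_of_nonneg (by positivity)]
    rw [le_div_iff₀ (by positivity)] at hc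
    linarith
  obtain ⟨α, eα⟩ : ∃ α, α = 1 / (7 * p0) := ⟨_, rfl⟩
  have hα0 : 0 ≤ α := eα ▸ by positivity
  have hα1 : α ≤ 1 := by rw [eα, div_le_one (by positivity)]; linarith
  obtain ⟨U, eU⟩ : ∃ U : E n → ℝ, U = fun θ => α * Real.exp (-(7 * p0)) * cen μ T (s • e) θ + (1 - α) :=
    ⟨_, rfl⟩
  obtain ⟨V, eV⟩ : ∃ V : E n → ℝ, V = fun θ => α * Real.exp (-(7 * p0)) * cen μ T ((-s) • e) θ + (1 - α) :=
    ⟨_, rfl⟩
  have hpt : ∀ θ, cen μ T (c • e) θ ≤ 1 + 8 * l ^ 2 * (Real.exp 1 * (U θ + V θ)) := by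
    intro θ
    have := isProb_post hμ T θ
    obtain ⟨b, hb⟩ : ∃ b, b = pexp μ T (fun y => ⟪e, y⟫) θ := ⟨_, rfl⟩
    have hcen : ∀ a : ℝ, cen μ T (a • e) θ
        = ∫ y, Real.exp (a * (⟪e, y⟫ - b)) ∂(post μ T θ) := by
      intro a
      unfold cen
      simp only [pexp, real_inner_smul_left, integral_const_mul]
      rw [show (∫ y, ⟪e, y⟫ ∂(post μ T θ)) = b from hb.symm, ← integral_mul_const]
      exact integral_congr_ae (ae_of_all _ fun y => by
        show Real.exp _ * Real.exp _ = Real.exp _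
        rw [← Real.exp_add]; congr 1; ring)
    have hib : ∀ {f : E n → ℝ}, Continuous f → Integrable f (post μ T θ) :=
      fun hf => intBall (post_ball hμ T θ) hf
    have hb0 : ∫ y, (⟪e, y⟫ - b) ∂(post μ T θ) = 0 := by
      rw [integral_sub (hib (by fun_prop)) (integrable_const _), integral_const, probReal_univ,
        one_smul, hb]
      exact sub_self _
    have hconv : ∀ q : ℝ, Real.exp (α * q) ≤ Real.exp 1 * (α * (Real.exp (-(7 * p0)) * Real.exp q)
        + (1 - α)) := by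
      intro q
      have h := Real.geom_mean_le_arith_mean2_weighted hα0 (by linarith : 0 ≤ 1 - α)
        (Real.exp_pos (q - 7 * p0)).le zero_le_one (by ring)
      rw [← Real.exp_mul, Real.one_rpow, mul_one, mul_one] at h
      have e1 : Real.exp (α * q) = Real.exp 1 * Real.exp ((q - 7 * p0) * α) := by
        rw [← Real.exp_add]
        congr 1
        rw [eα]
        field_simp
        ring
      rw [e1]
      refine mul_le_mul_of_nonneg_left (h.trans_eq ?_) (Real.exp_pos 1).le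
      rw [sub_eq_add_neg q, Real.exp_add, mul_comm (Real.exp q)]
    rw [eU, eV]
    simp only [hcen]
    have hbnd : ∫ y, Real.exp (c * (⟪e, y⟫ - b)) ∂(post μ T θ)
        ≤ ∫ y, ((1 + l * α * s * (⟪e, y⟫ - b)) + 8 * l ^ 2 * (Real.exp 1 *
          ((α * Real.exp (-(7 * p0)) * Real.exp (s * (⟪e, y⟫ - b)) + (1 - α))
          + (α * Real.exp (-(7 * p0)) * Real.exp ((-s) * (⟪e, y⟫ - b)) + (1 - α)))))
          ∂(post μ T θ) := by
      refine integral_mono (hib (by fun_prop)) (hib (by fun_prop)) fun y => ?_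
      obtain ⟨q, hq⟩ : ∃ q, q = ⟪e, y⟫ - b := ⟨_, rfl⟩
      simp only [← hq]
      have ec : c * q = l * (α * (s * q)) := by
        rw [el, eα, ← hs2]
        field_simp
      rw [ec]
      refine (exp_quad (α * (s * q)) hl).trans ?_
      have k1 := hconv (s * q)
      have k2 := hconv ((-s) * q)
      rw [show α * (-s * q) = -(α * (s * q)) by ring] at k2
      have k3 := mul_le_mul_of_nonneg_left (add_le_add k1 k2) (by positivity : 0 ≤ 8 * l ^ 2)
      linarith
    refine hbnd.trans_eq ?_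
    rw [integral_add (hib (by fun_prop)) (hib (by fun_prop)),
      integral_add (integrable_const _) (hib (by fun_prop)), integral_const, probReal_univ, one_smul,
      integral_const_mul, hb0, mul_zero, add_zero, integral_const_mul, integral_const_mul,
      integral_add (hib (by fun_prop)) (hib (by fun_prop)),
      integral_add (hib (by fun_prop)) (integrable_const _),
      integral_add (hib (by fun_prop)) (integrable_const _), integral_const, probReal_univ, one_smul,
      integral_const_mul, integral_const_mul]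
  have hE : ∀ a : ℝ, a ^ 2 = p0 →
      avg T (fun θ => α * Real.exp (-(7 * p0)) * cen μ T (a • e) θ + (1 - α)) x ≤ 1 := by
    intro a ha
    have hn : ‖a • e‖ ^ 2 = p0 := by rw [norm_smul, he, mul_one, Real.norm_eq_abs, sq_abs, ha]
    have h1 := h7 x hx (a • e) hn.ge
    rw [hn, Real.log_le_iff_le_exp (zero_lt_one.trans_le (one_le_avg_sym hμ _ x))] at h1
    have h2 := (avg_le_avg (T := T) (bddCont_cen hlc hμ hT (a • e)) (bddCont_sym hμ (a • e))
      (fun θ => cen_le_sym hμ _ θ) x).trans h1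
    unfold avg at h2 ⊢
    rw [integral_add (((bddCont_cen hlc hμ hT _).comp_obs T x).integrable _ |>.const_mul _)
      (integrable_const _), integral_const_mul, integral_const, probReal_univ, one_smul]
    have h3 := mul_le_mul_of_nonneg_left h2 (mul_nonneg hα0 (Real.exp_pos (-(7 * p0))).le)
    have e3 : α * Real.exp (-(7 * p0)) * Real.exp (7 * p0) = α := by
      rw [mul_assoc, ← Real.exp_add, neg_add_cancel, Real.exp_zero, mul_one]
    rw [e3] at h3
    linarith
  have hUc : BddCont U := eU ▸ ((BddCont.const (α * Real.exp (-(7 * p0)))).mul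
    (bddCont_cen hlc hμ hT (s • e))).add (BddCont.const (1 - α))
  have hVc : BddCont V := eV ▸ ((BddCont.const (α * Real.exp (-(7 * p0)))).mul
    (bddCont_cen hlc hμ hT ((-s) • e))).add (BddCont.const (1 - α))
  have htot : avg T (cen μ T (c • e)) x ≤ 1 + 48 * l ^ 2 := by
    refine (avg_le_avg (bddCont_cen hlc hμ hT _) ((BddCont.const 1).add ((BddCont.const (8 * l ^ 2)).mul
      ((BddCont.const (Real.exp 1)).mul (hUc.add hVc)))) hpt x).trans ?_
    have hu : avg T U x ≤ 1 := eU ▸ hE s hs2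
    have hv : avg T V x ≤ 1 := eV ▸ hE (-s) (by rw [neg_sq, hs2])
    unfold avg at hu hv ⊢
    rw [integral_add (integrable_const _) ((((hUc.add hVc).comp_obs T x).integrable _).const_mul _
      |>.const_mul _), integral_const, probReal_univ, one_smul, integral_const_mul,
      integral_const_mul, integral_add ((hUc.comp_obs T x).integrable _) ((hVc.comp_obs T x).integrable _)]
    have h3 : Real.exp 1 ≤ 3 := by linarith [Real.exp_one_lt_d9]
    have h4 := mul_le_mul_of_nonneg_left (add_le_add hu hv) (Real.exp_pos 1).le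
    have h5 := mul_le_mul_of_nonneg_left (h4.trans (mul_le_mul_of_nonneg_right h3 (by norm_num)))
      (by positivity : 0 ≤ 8 * l ^ 2)
    linarith
  refine (Real.log_le_sub_one_of_pos (zero_lt_one.trans_le (one_le_avg_cen hlc hμ hT _ x))).trans ?_
  have : l ^ 2 = 49 * p0 * c ^ 2 := by rw [el, mul_pow, mul_pow, hs2]; ring
  linarith

include hlc hμ hT in
/-- The pointwise gradient bound of the resampled function. -/
theorem grad_bound (hp0 : 1 ≤ p0) (h7 : Good μ T R p0 7) {g : E n → ℝ} (hg : Continuous g) {δ : ℝ}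
    (hδ : 0 < δ) (hgδ : ∀ y, δ ≤ g y) {x : E n} (hx : ‖x‖ ≤ R) :
    ‖fderiv ℝ (avg T (pexp μ T g)) x‖ ^ 2
      ≤ 12544 * T ^ 2 * p0 * avg T (pexp μ T g) x * jEnt μ T g x := by
  have g0 : ∀ y, 0 ≤ g y := fun y => hδ.le.trans (hgδ y)
  obtain ⟨h, eh⟩ : ∃ h, h = avg T (pexp μ T g) x := ⟨_, rfl⟩
  obtain ⟨J, eJ⟩ : ∃ J, J = jEnt μ T g x := ⟨_, rfl⟩
  obtain ⟨s, es⟩ : ∃ s, s = Real.sqrt p0 := ⟨_, rfl⟩
  have hs1 : 1 ≤ s := es ▸ Real.one_le_sqrt.2 hp0
  have hs2 : s ^ 2 = p0 := by rw [es]; exact Real.sq_sqrt (zero_le_one.trans hp0)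
  have hh : δ ≤ h := by
    have h1 := integral_mono (integrable_const δ) (((bddCont_pexp hμ T hg).comp_obs T x).integrable
      (gauss n)) fun w => by
        have := isProb_post hμ T (obs T x w)
        have h2 := pexp_mono (T := T) hμ (continuous_const (y := δ)) hg (fun y _ => hgδ y) (obs T x w)
        rwa [pexp, integral_const, probReal_univ, one_smul] at h2
    rw [integral_const, probReal_univ, one_smul] at h1
    rw [eh]
    exact h1
  have hh0 : 0 < h := hδ.trans_le hh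
  have hJ : 0 ≤ J := eJ ▸ jEnt_nonneg hμ hg g0 x
  have hbig : ∀ (e : E n) (c : ℝ), ‖e‖ = 1 → s ≤ c → Real.log (avg T (cen μ T (c • e)) x) ≤ 7 * c ^ 2 := by
    intro e c he hc
    have hn : ‖c • e‖ ^ 2 = c ^ 2 := by rw [norm_smul, he, mul_one, Real.norm_eq_abs, sq_abs]
    have h1 := h7 x hx (c • e) (by rw [hn, ← hs2]; exact pow_le_pow_left₀ (by linarith) hc 2)
    rw [hn] at h1
    refine le_trans (Real.log_le_log (zero_lt_one.trans_le (one_le_avg_cen hlc hμ hT _ x)) ?_) h1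
    exact avg_le_avg (bddCont_cen hlc hμ hT _) (bddCont_sym hμ _) (fun θ => cen_le_sym hμ _ θ) x
  have key : ∀ d : ℝ, 0 < d → J ≤ h * d →
      ‖fderiv ℝ (avg T (pexp μ T g)) x‖ ≤ 112 * T * h * (s * Real.sqrt d) := by
    intro d hd hJd
    obtain ⟨r, er⟩ : ∃ r, r = Real.sqrt d := ⟨_, rfl⟩
    have hr : 0 < r := er ▸ Real.sqrt_pos.2 hd
    have hr2 : r ^ 2 = d := by rw [er]; exact Real.sq_sqrt hd.le
    rw [← er]
    refine opNorm_le_of_le (by positivity) fun e he => ?_
    have base : ∀ c Φ : ℝ, 0 < c → Real.log (avg T (cen μ T (c • e)) x) ≤ Φ →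
        d + Φ ≤ 112 * c * (s * r) →
        fderiv ℝ (avg T (pexp μ T g)) x e ≤ 112 * T * h * (s * r) := by
      intro c Φ hc hΦ hfin
      have h1 := fderiv_avg_pexp_le hlc hμ hT hg g0 x (c • e)
      rw [map_smul, smul_eq_mul, ← eh, ← eJ] at h1
      have h2 := h1.trans (mul_le_mul_of_nonneg_left
        (add_le_add hJd (mul_le_mul_of_nonneg_left hΦ hh0.le)) hT.le)
      refine le_of_mul_le_mul_left ?_ hc
      have h3 := mul_le_mul_of_nonneg_left hfin (mul_nonneg hT.le hh0.le)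
      linarith
    rcases le_or_gt r 1 with hr1 | hr1
    · have hc : 0 < r / (28 * s) := by positivity
      refine base _ _ hc (small_scale hlc hμ hT hp0 h7 hx he hc.le (by rw [← es]; gcongr)) ?_
      have e1 : 2352 * p0 * (r / (28 * s)) ^ 2 = 3 * d := by
        rw [← hs2, ← hr2]; field_simp; ring
      have e2 : 112 * (r / (28 * s)) * (s * r) = 4 * d := by
        rw [← hr2]; field_simp; ring
      linarith
    · rcases le_or_gt r s with hrs | hrs
      · refine base s _ (by linarith) (hbig e s he le_rfl) ?_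
        have h1 : d ≤ s * (s * r) := by
          rw [← hr2]
          nlinarith [mul_le_mul hrs hs1 zero_le_one (by linarith : (0:ℝ) ≤ s)]
        have h2 : s ^ 2 ≤ s * (s * r) := by nlinarith
        nlinarith
      · refine base r _ hr (hbig e r he hrs.le) ?_
        rw [← hr2]
        nlinarith
  rw [← eh, ← eJ]
  refine le_of_forall_pos_le_add fun ε hε => ?_
  obtain ⟨η, hη, hηe⟩ : ∃ η, 0 < η ∧ 12544 * T ^ 2 * p0 * h * η ≤ ε := by
    refine ⟨ε / (12544 * T ^ 2 * p0 * h + 1), by positivity, ?_⟩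
    rw [← mul_div_assoc, div_le_iff₀ (by positivity)]
    nlinarith
  have hd : 0 < (J + η) / h := by positivity
  have h1 := pow_le_pow_left₀ (norm_nonneg _)
    (key _ hd (by rw [mul_div_cancel₀ _ hh0.ne']; linarith)) 2
  rw [mul_pow, mul_pow, mul_pow, mul_pow, hs2, Real.sq_sqrt hd.le] at h1
  have e : (112 : ℝ) ^ 2 * T ^ 2 * h ^ 2 * (p0 * ((J + η) / h))
      = 12544 * T ^ 2 * p0 * h * J + 12544 * T ^ 2 * p0 * h * η := by
    field_simp
    ring
  linarith

omit [IsProbabilityMeasure μ] in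
theorem continuous_avg {G : E n → ℝ} (hG : BddCont G) : Continuous (avg T G) := by
  obtain ⟨Mb, hMb⟩ := hG.2
  refine continuous_of_dominated (bound := fun _ => Mb) (fun x => ?_)
    (fun x => ae_of_all _ fun w => ?_) (integrable_const _) (ae_of_all _ fun w => ?_)
  · exact (hG.comp_obs T x).1.aestronglyMeasurable
  · exact (Real.norm_eq_abs _).trans_le (hMb _)
  · exact hG.1.comp (by unfold obs; fun_prop)

include hlc hμ hT in
/-- One step of the bootstrap for positive functions. -/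
theorem contract_pos (hp0 : 1 ≤ p0) (h7 : Good μ T R p0 7) {K : ℝ} (hK : 0 ≤ K) (hlsi : LSIK μ K)
    {f : E n → ℝ} (hf : ContDiff ℝ 1 f) {M δ : ℝ} (hM : ∀ x, |f x| ≤ M) (hδ : 0 < δ)
    (hfδ : ∀ x, δ ≤ f x ^ 2) :
    Ent μ (fun x => f x ^ 2)
      ≤ (6 / T + 18816 * T * p0 * K) * ∫ x, ‖fderiv ℝ f x‖ ^ 2 ∂μ := by
  obtain ⟨g, eg⟩ : ∃ g : E n → ℝ, g = fun x => f x ^ 2 := ⟨_, rfl⟩
  have hg : Continuous g := eg ▸ hf.continuous.pow 2
  have g0 : ∀ x, 0 ≤ g x := fun x => eg ▸ sq_nonneg (f x)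
  have hgδ : ∀ x, δ ≤ g x := fun x => eg ▸ hfδ x
  rw [← eg]
  have cq : Continuous fun x => ‖fderiv ℝ f x‖ ^ 2 := (hf.continuous_fderiv one_ne_zero).norm.pow 2
  have cl : Continuous fun x => g x * Real.log (g x) := Real.continuous_mul_log.comp hg
  obtain ⟨h, eh⟩ : ∃ h : E n → ℝ, h = avg T (pexp μ T g) := ⟨_, rfl⟩
  obtain ⟨Mg, hMg0, hMg⟩ := bdd_continuous_of_compact hg R
  have hh1 : ContDiff ℝ 1 h := eh ▸ contDiff_avg T (contDiff_pexp hμ T hg)
    (fun θ => abs_pexp_le hμ T hMg θ) fun θ => norm_fderiv_pexp_le hμ T hg hMg θ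
  have hGpos : ∀ θ, δ ≤ pexp μ T g θ := fun θ => by
    have := isProb_post hμ T θ
    have h := pexp_mono (T := T) hμ (continuous_const (y := δ)) hg (fun x _ => hgδ x) θ
    rwa [pexp, integral_const, probReal_univ, one_smul] at h
  have hhδ : ∀ x, δ ≤ h x := fun x => by
    have h1 := integral_mono (integrable_const δ) (((bddCont_pexp hμ T hg).comp_obs T x).integrable
      (gauss n)) fun w => hGpos (obs T x w)
    rw [integral_const, probReal_univ, one_smul] at h1
    rw [eh]; exact h1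
  have hhb : ∀ x, h x ≤ Mg := fun x => by
    have h1 := integral_mono (((bddCont_pexp hμ T hg).comp_obs T x).integrable (gauss n))
      (integrable_const Mg) fun w => (le_abs_self _).trans (abs_pexp_le hμ T hMg _)
    rw [integral_const, probReal_univ, one_smul] at h1
    rw [eh]; exact h1
  have hhl : Continuous fun x => h x * Real.log (h x) := Real.continuous_mul_log.comp hh1.continuous
  have hEavg : Continuous (avg T (entP μ T g)) := continuous_avg (bddCont_entP hμ hg g0)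
  have hJc : Continuous (jEnt μ T g) :=
    (continuous_avg (bddCont_pexp hμ T cl)).sub (eh ▸ hhl)
  have split : Ent μ g = ∫ x, jEnt μ T g x ∂μ + Ent μ h := by
    unfold Ent jEnt
    rw [integral_sub (intBall hμ (continuous_avg (bddCont_pexp hμ T cl)))
      (intBall hμ (eh ▸ hhl)), integral_avg_pexp hμ hT.le cl, eh, integral_avg_pexp hμ hT.le hg]
    ring
  have hEP : ∫ x, avg T (entP μ T g) x ∂μ ≤ 2 / T * ∫ x, ‖fderiv ℝ f x‖ ^ 2 ∂μ := by
    rw [← integral_avg_pexp hμ hT.le cq, ← integral_const_mul]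
    refine integral_mono (intBall hμ hEavg)
      ((intBall hμ (continuous_avg (bddCont_pexp hμ T cq))).const_mul _) fun x => ?_
    show avg T (entP μ T g) x ≤ 2 / T * avg T (pexp μ T fun y => ‖fderiv ℝ f y‖ ^ 2) x
    unfold avg
    rw [← integral_const_mul]
    refine integral_mono (((bddCont_entP hμ hg g0).comp_obs T x).integrable _)
      ((((bddCont_pexp hμ T cq).comp_obs T x).integrable _).const_mul _) fun w => ?_
    have := isProb_post hμ T (obs T x w)
    have hs : SLC T (post μ T (obs T x w)) := by simpa using hlc.post T (obs T x w)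
    rw [eg]
    exact hs.lsi hT (post_ball hμ T _) hf hM
  have hJ : ∫ x, jEnt μ T g x ∂μ ≤ 6 / T * ∫ x, ‖fderiv ℝ f x‖ ^ 2 ∂μ := by
    refine (integral_mono (intBall hμ hJc) ((intBall hμ hEavg).const_mul 3)
      fun x => jEnt_le hlc hμ hT hg hδ hgδ x).trans ?_
    rw [integral_const_mul]
    have := mul_le_mul_of_nonneg_left hEP (by norm_num : (0 : ℝ) ≤ 3)
    calc 3 * ∫ x, avg T (entP μ T g) x ∂μ ≤ 3 * (2 / T * ∫ x, ‖fderiv ℝ f x‖ ^ 2 ∂μ) := this
      _ = _ := by ring
  have hsh : ContDiff ℝ 1 fun x => Real.sqrt (h x) := hh1.sqrt fun x => (hδ.trans_le (hhδ x)).ne'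
  have hsb : ∀ x, |Real.sqrt (h x)| ≤ Real.sqrt Mg := fun x => by
    rw [abs_of_nonneg (Real.sqrt_nonneg _)]
    exact Real.sqrt_le_sqrt (hhb x)
  have key := hlsi _ hsh _ hsb
  simp only [Real.sq_sqrt (hδ.le.trans (hhδ _))] at key
  have hgr : ∫ x, ‖fderiv ℝ (fun x => Real.sqrt (h x)) x‖ ^ 2 ∂μ
      ≤ 3136 * T ^ 2 * p0 * ∫ x, jEnt μ T g x ∂μ := by
    rw [← integral_const_mul]
    refine integral_mono_ae (intBall hμ ((hsh.continuous_fderiv one_ne_zero).norm.pow 2))
      ((intBall hμ hJc).const_mul _) ((ae_iff.2 hμ).mono fun x hx => ?_)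
    have hpos : 0 < h x := hδ.trans_le (hhδ x)
    have hb := grad_bound hlc hμ hT hp0 h7 hg hδ hgδ (mem_closedBall_zero_iff.1 hx)
    rw [← eh] at hb
    show ‖fderiv ℝ (fun x => Real.sqrt (h x)) x‖ ^ 2 ≤ _
    rw [((hh1.differentiable one_ne_zero x).hasFDerivAt.sqrt hpos.ne').fderiv, norm_smul, mul_pow,
      Real.norm_eq_abs, sq_abs, div_pow, one_pow, mul_pow, Real.sq_sqrt hpos.le, div_mul_eq_mul_div,
      one_mul, div_le_iff₀ (by positivity)]
    linarith
  rw [split]
  have h1 := key.trans (mul_le_mul_of_nonneg_left hgr hK)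
  have h2 := mul_le_mul_of_nonneg_left hJ (by positivity : 0 ≤ K * (3136 * T ^ 2 * p0))
  have e : K * (3136 * T ^ 2 * p0) * (6 / T * ∫ x, ‖fderiv ℝ f x‖ ^ 2 ∂μ)
      = 18816 * T * p0 * K * ∫ x, ‖fderiv ℝ f x‖ ^ 2 ∂μ := by
    field_simp
    ring
  rw [add_mul]
  linarith

include hlc hμ hT in
/-- One step of the bootstrap. -/
theorem contract (hp0 : 1 ≤ p0) (h7 : Good μ T R p0 7) {K : ℝ} (hK : 0 ≤ K) (hlsi : LSIK μ K) :
    LSIK μ (6 / T + 18816 * T * p0 * K) := by
  intro f hf M hM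
  have hg2 : ∀ x, f x ^ 2 ≤ M ^ 2 := fun x => by
    have := pow_le_pow_left₀ (abs_nonneg _) (hM x) 2
    rwa [sq_abs] at this
  refine le_of_tendsto (tendsto_ent_add (hf.continuous.measurable.pow_const 2)
    (fun x => sq_nonneg _) hg2) ?_
  filter_upwards [self_mem_nhdsWithin] with δ hδ
  have hδ' : 0 < δ := hδ
  have hpos : ∀ x, 0 < f x ^ 2 + δ := fun x => add_pos_of_nonneg_of_pos (sq_nonneg _) hδ'
  have hf2 : ContDiff ℝ 1 fun x => Real.sqrt (f x ^ 2 + δ) :=
    ((hf.pow 2).add contDiff_const).sqrt fun x => (hpos x).ne'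
  have h := contract_pos hlc hμ hT hp0 h7 hK hlsi hf2 (M := Real.sqrt (M ^ 2 + δ))
    (fun x => by
      rw [abs_of_nonneg (Real.sqrt_nonneg _)]
      exact Real.sqrt_le_sqrt (by linarith [hg2 x]))
    hδ' fun x => by rw [Real.sq_sqrt (hpos x).le]; linarith [sq_nonneg (f x)]
  simp only [Real.sq_sqrt (hpos _).le] at h
  refine h.trans (mul_le_mul_of_nonneg_left ?_ (by positivity))
  refine integral_mono (intBall hμ ((hf2.continuous_fderiv one_ne_zero).norm.pow 2))
    (intBall hμ ((hf.continuous_fderiv one_ne_zero).norm.pow 2)) fun x => ?_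
  rw [((((hf.differentiable one_ne_zero x).hasFDerivAt.pow 2).add_const δ).sqrt (hpos x).ne').fderiv]
  simp only [norm_smul, Real.norm_eq_abs, mul_pow, sq_abs, div_pow, one_pow,
    Real.sq_sqrt (hpos x).le]
  have e : (Real.sqrt (f x ^ 2 + δ) * 2) ^ 2 = (f x ^ 2 + δ) * 4 := by
    rw [mul_pow, Real.sq_sqrt (hpos x).le]; norm_num
  rw [div_mul_eq_mul_div, div_le_iff₀ (by positivity)]
  norm_num
  nlinarith [mul_nonneg hδ'.le (sq_nonneg ‖fderiv ℝ f x‖)]

end Vale.Agent.P245.LSI
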