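import Mathlib
import Vale.Agent.P245.LSI.Core

namespace Vale.Agent.P245.LSI

open MeasureTheory Set Filter
open scoped ENNReal RealInnerProductSpace Topology

variable {n : ℕ} {μ : Measure (E n)}

theorem SLC.mono {c c' : ℝ} (h : SLC c μ) (hc : c' ≤ c) : SLC c' μ := by
  obtain ⟨ρ, hm, h0, hμ, hlc⟩ := h
  refine ⟨ρ, hm, h0, hμ, fun a b x y ha hb hab => le_trans ?_ (hlc a b x y ha hb hab)⟩
  refine mul_le_mul_of_nonneg_left (Real.exp_le_exp.2 ?_)
    (mul_nonneg (Real.rpow_nonneg (h0 x) _) (Real.rpow_nonneg (h0 y) _))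
  gcongr

theorem LSIK.mono {K K' : ℝ} (h : LSIK μ K) (hK : K ≤ K') : LSIK μ K' := fun f hf M hM =>
  (h f hf M hM).trans (mul_le_mul_of_nonneg_right hK (integral_nonneg fun x => sq_nonneg _))

theorem subG_mgf [IsProbabilityMeasure μ] {R : ℝ} (hμ : μ (Metric.closedBall 0 R)ᶜ = 0)
    (hs : SubG 4 μ) (u : E n) :
    ∫ x, Real.exp ⟪u, x⟫ ∂μ ≤ 4 * Real.exp (‖u‖ ^ 2 / 4) := by
  rcases eq_or_ne u 0 with rfl | hu
  · simp
  have hu' : 0 < ‖u‖ := norm_pos_iff.2 hu
  obtain ⟨v, hv⟩ : ∃ v, v = ‖u‖⁻¹ • u := ⟨_, rfl⟩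
  have hv1 : ‖v‖ = 1 := by rw [hv, norm_smul, norm_inv, norm_norm, inv_mul_cancel₀ hu'.ne']
  have hc : Continuous fun x : E n => Real.exp (⟪x, v⟫ ^ 2) := by fun_prop
  have h1 : ∫ x, Real.exp (⟪x, v⟫ ^ 2) ∂μ ≤ 4 := by
    have := hs v hv1
    rw [← ofReal_integral_eq_lintegral_ofReal (intBall hμ hc) (ae_of_all _ fun x => (Real.exp_pos _).le)]
      at this
    exact (ENNReal.ofReal_le_ofReal_iff (by norm_num)).1 this
  calc ∫ x, Real.exp ⟪u, x⟫ ∂μ ≤ ∫ x, Real.exp (‖u‖ ^ 2 / 4) * Real.exp (⟪x, v⟫ ^ 2) ∂μ := by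
        refine integral_mono (intBall hμ (by fun_prop)) (intBall hμ (hc.const_mul _ |>.congr fun x => rfl))
          fun x => ?_
        show Real.exp ⟪u, x⟫ ≤ Real.exp (‖u‖ ^ 2 / 4) * Real.exp (⟪x, v⟫ ^ 2)
        rw [← Real.exp_add, Real.exp_le_exp]
        have e : ⟪u, x⟫ = ‖u‖ * ⟪x, v⟫ := by
          rw [hv, real_inner_smul_right, real_inner_comm x u, ← mul_assoc, mul_inv_cancel₀ hu'.ne',
            one_mul]
        nlinarith [sq_nonneg (‖u‖ / 2 - ⟪x, v⟫)]
    _ ≤ 4 * Real.exp (‖u‖ ^ 2 / 4) := by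
        rw [integral_const_mul, mul_comm]
        exact mul_le_mul_of_nonneg_right h1 (Real.exp_pos _).le

/-- The inequality for measures carried by a ball of radius a multiple of `√n`. -/
theorem stmtCore : StmtCore := by
  intro L hL
  have hL2 : 1 ≤ L ^ 2 := one_le_pow₀ hL
  obtain ⟨c, ec⟩ : ∃ c : ℝ, c = 1 / (2 * 18816 * 1025 * L ^ 2) := ⟨_, rfl⟩
  have hc : 0 < c := ec ▸ by positivity
  refine ⟨13 / c, by positivity, fun n hn μ hprob hlc hμ hs f hf M hM => ?_⟩
  obtain ⟨R, eR⟩ : ∃ R, R = L * Real.sqrt n := ⟨_, rfl⟩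
  rw [← eR] at hμ
  have hn1 : (1 : ℝ) ≤ n := Nat.one_le_cast.2 hn
  obtain ⟨m, em⟩ : ∃ m : ℝ, m = (n : ℝ) ^ (1 / 3 : ℝ) := ⟨_, rfl⟩
  have hm1 : 1 ≤ m := em ▸ Real.one_le_rpow hn1 (by norm_num)
  have hm3 : m ^ 3 = n := by
    rw [em, ← Real.rpow_natCast, ← Real.rpow_mul (by linarith)]
    norm_num
  obtain ⟨T, eT⟩ : ∃ T, T = c / m := ⟨_, rfl⟩
  have hT : 0 < T := eT ▸ by positivity
  obtain ⟨p0, ep⟩ : ∃ p0, p0 = 1 + (32 * T * R) ^ 2 := ⟨_, rfl⟩
  have hp0 : 1 ≤ p0 := ep ▸ by nlinarith [sq_nonneg (32 * T * R)]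
  have hR : 0 ≤ R := eR ▸ by positivity
  have hpR : 32 * T * R ≤ Real.sqrt p0 := Real.le_sqrt_of_sq_le (by rw [ep]; linarith)
  have hc1 : c ≤ 1 := by
    rw [ec, div_le_one (by positivity)]
    linarith
  have hq : 18816 * T * p0 ≤ 1 / 2 := by
    have e : T * p0 = T + 1024 * c ^ 3 * L ^ 2 := by
      rw [ep, eR, eT, mul_pow, mul_pow, mul_pow, Real.sq_sqrt (by linarith), ← hm3, div_pow]
      field_simp
      ring
    have h1 : T ≤ c := eT ▸ div_le_self hc.le hm1
    have h3 : c ^ 3 ≤ c := pow_le_of_le_one hc.le hc1 (by norm_num)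
    have h2 : T * p0 ≤ 1025 * (c * L ^ 2) := by
      rw [e]
      have := mul_le_mul_of_nonneg_right h3 (sq_nonneg L)
      nlinarith [mul_le_mul_of_nonneg_left hL2 hc.le]
    have h4 : 18816 * (1025 * (c * L ^ 2)) = 1 / 2 := by
      rw [ec]
      field_simp
    linarith
  have hgoal : 13 / T = 13 / c * m := by rw [eT]; field_simp
  rw [← em, ← hgoal]
  have hreg : ∀ᶠ ε : ℝ in 𝓝[>] 0, Ent (post μ ε 0) (fun x => f x ^ 2)
      ≤ 13 / T * ∫ x, ‖fderiv ℝ f x‖ ^ 2 ∂(post μ ε 0) := by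
    have hev : ∀ᶠ ε : ℝ in 𝓝[>] 0, Real.exp (ε / 2 * R ^ 2) ≤ 5 / 4 := by
      have hcont : Continuous fun ε : ℝ => Real.exp (ε / 2 * R ^ 2) := by fun_prop
      have := (hcont.tendsto 0).eventually (Iic_mem_nhds (show Real.exp ((0 : ℝ) / 2 * R ^ 2) < 5 / 4
        by norm_num))
      exact this.filter_mono nhdsWithin_le_nhds
    filter_upwards [hev, self_mem_nhdsWithin] with ε hε hε0
    have hε' : 0 < ε := hε0
    have := isProb_post hμ ε (0 : E n)
    have hball := post_ball hμ ε (0 : E n)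
    have hslc : SLC ε (post μ ε (0 : E n)) := by simpa using hlc.post ε (0 : E n)
    have hsub : ∀ u : E n, ∫ x, Real.exp ⟪u, x⟫ ∂(post μ ε 0) ≤ 5 * Real.exp (‖u‖ ^ 2 / 4) := by
      intro u
      have h1 : num μ ε (fun x => Real.exp ⟪u, x⟫) 0 ≤ 4 * Real.exp (‖u‖ ^ 2 / 4) := by
        refine le_trans ?_ (subG_mgf hμ hs u)
        refine integral_mono (intBall hμ (((by fun_prop : Continuous fun x : E n =>
          Real.exp ⟪u, x⟫)).mul (continuous_phase ε 0).rexp)) (intBall hμ (by fun_prop)) fun x => ?_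
        refine mul_le_of_le_one_right (Real.exp_pos _).le (Real.exp_le_one_iff.2 ?_)
        simp only [phase, inner_zero_left]
        nlinarith [sq_nonneg ‖x‖]
      have h2 : Real.exp (-(ε / 2 * R ^ 2)) ≤ num μ ε (fun _ => 1) 0 := by
        have := integral_mono_ae (integrable_const (Real.exp (-(ε / 2 * R ^ 2))))
          (intBall hμ (continuous_phase ε (0 : E n)).rexp) ((ae_iff.2 hμ).mono fun x hx => by
            simp only [phase, inner_zero_left, zero_sub]
            gcongr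
            exact mem_closedBall_zero_iff.1 hx)
        rw [integral_const, probReal_univ, one_smul] at this
        simpa [num] using this
      show pexp μ ε (fun x => Real.exp ⟪u, x⟫) 0 ≤ _
      rw [pexp_eq, div_le_iff₀ (num_one_pos hμ ε 0)]
      refine h1.trans ?_
      have h3 : 1 ≤ 5 / 4 * Real.exp (-(ε / 2 * R ^ 2)) := by
        rw [Real.exp_neg, ← div_eq_mul_inv, one_le_div (Real.exp_pos _)]
        exact hε
      calc 4 * Real.exp (‖u‖ ^ 2 / 4) = 4 * Real.exp (‖u‖ ^ 2 / 4) * 1 := (mul_one _).symm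
        _ ≤ 4 * Real.exp (‖u‖ ^ 2 / 4) * (5 / 4 * num μ ε (fun _ => 1) 0) := by
            gcongr
            exact h3.trans (mul_le_mul_of_nonneg_left h2 (by norm_num))
        _ = _ := by ring
    have h0 : SLC 0 (post μ ε (0 : E n)) := hslc.mono hε'.le
    have h7 := good_seven h0 hball hT hsub hp0 hpR
    have key : ∀ j : ℕ, LSIK (post μ ε (0 : E n)) (12 / T + 2 / ε * (1 / 2) ^ j) := by
      intro j
      induction j with
      | zero =>
        intro g hg Mg hMg
        refine (hslc.lsi hε' hball hg hMg).trans (mul_le_mul_of_nonneg_right ?_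
          (integral_nonneg fun x => sq_nonneg _))
        rw [pow_zero, mul_one]
        exact le_add_of_nonneg_left (by positivity)
      | succ j ih =>
        have hK : 0 ≤ 12 / T + 2 / ε * (1 / 2) ^ j := by positivity
        refine (contract h0 hball hT hp0 h7 hK ih).mono ?_
        have := mul_le_mul_of_nonneg_right hq hK
        have e : (12 : ℝ) / T = 2 * (6 / T) := by ring
        rw [pow_succ]
        linarith
    obtain ⟨j, hj⟩ := exists_pow_lt_of_lt_one (show (0 : ℝ) < ε / (2 * T) by positivity)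
      (show (1 / 2 : ℝ) < 1 by norm_num)
    refine (key j).mono ?_ f hf M hM
    have : 2 / ε * (1 / 2) ^ j ≤ 1 / T := by
      refine (mul_le_mul_of_nonneg_left hj.le (by positivity)).trans_eq ?_
      field_simp
    rw [show (13 : ℝ) / T = 12 / T + 1 / T by ring]
    linarith
  have hlim : ∀ F : E n → ℝ, Continuous F →
      Tendsto (fun ε : ℝ => ∫ x, F x ∂(post μ ε 0)) (𝓝[>] 0) (𝓝 (∫ x, F x ∂μ)) := by
    intro F hF
    have hnum : ∀ G : E n → ℝ, Continuous G →
        Tendsto (fun ε : ℝ => num μ ε G 0) (𝓝[>] 0) (𝓝 (∫ x, G x ∂μ)) := by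
      intro G hG
      refine tendsto_integral_filter_of_dominated_convergence (fun x => |G x|) ?_ ?_
        (intBall hμ hG.abs) ?_
      · exact Eventually.of_forall fun ε => (hG.mul (continuous_phase ε 0).rexp).aestronglyMeasurable
      · filter_upwards [self_mem_nhdsWithin] with ε hε
        refine ae_of_all _ fun x => ?_
        rw [Real.norm_eq_abs, abs_mul, abs_of_pos (Real.exp_pos _)]
        refine mul_le_of_le_one_right (abs_nonneg _) (Real.exp_le_one_iff.2 ?_)
        simp only [phase, inner_zero_left]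
        nlinarith [sq_nonneg ‖x‖, Set.mem_Ioi.1 hε]
      · refine ae_of_all _ fun x => ?_
        have hc2 : Continuous fun ε : ℝ => G x * Real.exp (phase ε 0 x) := by unfold phase; fun_prop
        simpa [phase] using (hc2.tendsto 0).mono_left nhdsWithin_le_nhds
    have h := (hnum F hF).div (hnum (fun _ => 1) continuous_const) (by simp)
    simp only [integral_const, probReal_univ, one_smul, div_one] at h
    exact h.congr fun ε => (pexp_eq ε F 0).symm
  have c2 : Continuous fun x => f x ^ 2 := hf.continuous.pow 2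
  refine le_of_tendsto_of_tendsto (((hlim _ (Real.continuous_mul_log.comp c2))).sub
    ((Real.continuous_mul_log.tendsto _).comp (hlim _ c2)))
    ((hlim _ ((hf.continuous_fderiv one_ne_zero).norm.pow 2)).const_mul (13 / T)) hreg

end Vale.Agent.P245.LSI
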