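import Mathlib
import Vale.Agent.P245.LSI.Iface

/-!
# P245: a partition of unity in squares at radius `L √n`
-/

namespace Vale.Agent.P245.LSI

open MeasureTheory Set
open scoped RealInnerProductSpace

variable {n : ℕ}

theorem exists_smoothTransition_bound :
    ∃ D : ℝ, 1 ≤ D ∧ (∀ t, |deriv Real.smoothTransition t| ≤ D) ∧
      ∀ t, 1 < t → deriv Real.smoothTransition t = 0 := by
  have hc : Continuous (deriv Real.smoothTransition) :=
    (Real.smoothTransition.contDiff (n := 1)).continuous_deriv le_rfl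
  have hhi : ∀ t : ℝ, 1 < t → deriv Real.smoothTransition t = 0 := fun t ht => by
    have : Real.smoothTransition =ᶠ[nhds t] fun _ => (1 : ℝ) :=
      Filter.eventuallyEq_of_mem (Ioi_mem_nhds ht) fun s hs =>
        Real.smoothTransition.one_of_one_le (le_of_lt hs)
    rw [this.deriv_eq, deriv_const]
  have hlo : ∀ t : ℝ, t < 0 → deriv Real.smoothTransition t = 0 := fun t ht => by
    have : Real.smoothTransition =ᶠ[nhds t] fun _ => (0 : ℝ) :=
      Filter.eventuallyEq_of_mem (Iio_mem_nhds ht) fun s hs =>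
        Real.smoothTransition.zero_of_nonpos (le_of_lt hs)
    rw [this.deriv_eq, deriv_const]
  obtain ⟨B, hB⟩ := (isCompact_Icc (a := (0 : ℝ)) (b := 1)).exists_bound_of_continuousOn hc.continuousOn
  refine ⟨max B 1, le_max_right _ _, fun t => ?_, hhi⟩
  by_cases ht : t ∈ Icc (0 : ℝ) 1
  · exact ((Real.norm_eq_abs _).ge.trans (hB t ht)).trans (le_max_left _ _)
  · rw [mem_Icc, not_and_or, not_le, not_le] at ht
    rcases ht with ht | ht
    · rw [hlo t ht, abs_zero]; exact zero_le_one.trans (le_max_right _ _)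
    · rw [hhi t ht, abs_zero]; exact zero_le_one.trans (le_max_right _ _)

/-- A bound on the derivative of the transition. -/
noncomputable def stBound : ℝ := exists_smoothTransition_bound.choose

theorem one_le_stBound : 1 ≤ stBound := exists_smoothTransition_bound.choose_spec.1

/-- The angle of the cutoff. -/
noncomputable def angle (L : ℝ) (x : E n) : ℝ :=
  Real.pi / 2 * Real.smoothTransition ((‖x‖ ^ 2 / (L ^ 2 * n) - 1) / 3)

theorem contDiff_angle (L : ℝ) : ContDiff ℝ 1 (angle (n := n) L) :=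
  contDiff_const.mul ((Real.smoothTransition.contDiff (n := 1)).comp
    ((((contDiff_norm_sq ℝ).div_const _).sub contDiff_const).div_const _))

theorem angle_inner {L : ℝ} (hL : 0 < L) (hn : 1 ≤ n) {x : E n} (hx : ‖x‖ ≤ L * Real.sqrt n) :
    angle L x = 0 := by
  have hn0 : (0 : ℝ) < n := by exact_mod_cast hn
  rw [angle, Real.smoothTransition.zero_of_nonpos, mul_zero]
  refine div_nonpos_of_nonpos_of_nonneg (sub_nonpos.2 ((div_le_one (by positivity)).2 ?_)) (by norm_num)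
  have h := pow_le_pow_left₀ (norm_nonneg x) hx 2
  rwa [mul_pow, Real.sq_sqrt hn0.le] at h

theorem angle_outer {L : ℝ} (hL : 0 < L) (hn : 1 ≤ n) {x : E n} (hx : 2 * L * Real.sqrt n ≤ ‖x‖) :
    angle L x = Real.pi / 2 := by
  have hn0 : (0 : ℝ) < n := by exact_mod_cast hn
  rw [angle, Real.smoothTransition.one_of_one_le, mul_one]
  have h := pow_le_pow_left₀ (by positivity) hx 2
  rw [mul_pow, Real.sq_sqrt hn0.le] at h
  rw [le_div_iff₀ (by norm_num : (0 : ℝ) < 3), le_sub_iff_add_le, le_div_iff₀ (by positivity)]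
  nlinarith

theorem norm_fderiv_angle {L : ℝ} (hL : 0 < L) (hn : 1 ≤ n) (x : E n) :
    ‖fderiv ℝ (angle L) x‖ ≤ 3 * stBound / (L * Real.sqrt n) := by
  have hn0 : (0 : ℝ) < n := by exact_mod_cast hn
  obtain ⟨s, hs⟩ : ∃ s, s = (‖x‖ ^ 2 / (L ^ 2 * n) - 1) / 3 := ⟨_, rfl⟩
  have h1 : HasFDerivAt (fun y : E n => (‖y‖ ^ 2 / (L ^ 2 * n) - 1) / 3)
      ((3 : ℝ)⁻¹ • ((L ^ 2 * n)⁻¹ • (2 • innerSL ℝ x))) x := by
    have h0 := ((((hasStrictFDerivAt_norm_sq x).hasFDerivAt.const_smul ((L ^ 2 * (n : ℝ))⁻¹)).sub_const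
      (1 : ℝ)).const_smul (3 : ℝ)⁻¹)
    refine h0.congr_of_eventuallyEq (Filter.Eventually.of_forall fun y => ?_)
    show (‖y‖ ^ 2 / (L ^ 2 * n) - 1) / 3 = (3 : ℝ)⁻¹ * ((L ^ 2 * (n : ℝ))⁻¹ * ‖y‖ ^ 2 - 1)
    ring
  have h2 : HasDerivAt Real.smoothTransition (deriv Real.smoothTransition s)
      ((fun y : E n => (‖y‖ ^ 2 / (L ^ 2 * n) - 1) / 3) x) := by
    rw [show (fun y : E n => (‖y‖ ^ 2 / (L ^ 2 * n) - 1) / 3) x = s from hs.symm]
    exact ((Real.smoothTransition.contDiff (n := 1)).differentiable one_ne_zero s).hasDerivAt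
  have h3 := (h2.comp_hasFDerivAt x h1).const_mul (Real.pi / 2)
  have e : fderiv ℝ (angle L) x = (Real.pi / 2) • (deriv Real.smoothTransition s •
      ((3 : ℝ)⁻¹ • ((L ^ 2 * n)⁻¹ • (2 • innerSL ℝ x)))) := h3.fderiv
  obtain ⟨-, hD, hhi⟩ := exists_smoothTransition_bound.choose_spec
  rw [e, norm_smul, norm_smul, norm_smul, norm_smul, Real.norm_of_nonneg (by positivity),
    Real.norm_eq_abs, Real.norm_of_nonneg (by positivity : (0 : ℝ) ≤ (3 : ℝ)⁻¹),
    Real.norm_of_nonneg (by positivity : (0 : ℝ) ≤ (L ^ 2 * n)⁻¹),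
    two_smul ℕ, ← two_smul ℝ (innerSL ℝ x), norm_smul, Real.norm_two, innerSL_apply_norm]
  have hK : (0 : ℝ) ≤ stBound := zero_le_one.trans one_le_stBound
  by_cases h1s : 1 < s
  · rw [hhi s h1s, abs_zero, zero_mul, mul_zero]
    positivity
  have hx : ‖x‖ ≤ 2 * L * Real.sqrt n := by
    rw [not_lt, hs, div_le_one (by norm_num : (0 : ℝ) < 3), sub_le_iff_le_add,
      div_le_iff₀ (by positivity)] at h1s
    refine (pow_le_pow_iff_left₀ (norm_nonneg _) (by positivity) two_ne_zero).1 ?_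
    rw [mul_pow, Real.sq_sqrt hn0.le]
    linarith
  have hd : |deriv Real.smoothTransition s| ≤ stBound := hD s
  have hp : Real.pi / 2 ≤ 2 := by linarith [Real.pi_le_four]
  calc Real.pi / 2 * (|deriv Real.smoothTransition s| * ((3 : ℝ)⁻¹ * ((L ^ 2 * n)⁻¹ * (2 * ‖x‖))))
      ≤ 2 * (stBound * ((3 : ℝ)⁻¹ * ((L ^ 2 * n)⁻¹ * (2 * (2 * L * Real.sqrt n))))) := by gcongr
    _ = 8 / 3 * stBound / (L * Real.sqrt n) := by
        have h5 : Real.sqrt n * Real.sqrt n = n := Real.mul_self_sqrt hn0.le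
        field_simp
        linear_combination 8 * stBound * h5
    _ ≤ _ := by gcongr; norm_num

/-- The inner part. -/
noncomputable def inPart (L : ℝ) (f : E n → ℝ) (x : E n) : ℝ := f x * Real.cos (angle L x)

/-- The outer part. -/
noncomputable def outPart (L : ℝ) (f : E n → ℝ) (x : E n) : ℝ := f x * Real.sin (angle L x)

theorem sq_add_sq_parts (L : ℝ) (f : E n → ℝ) (x : E n) :
    inPart L f x ^ 2 + outPart L f x ^ 2 = f x ^ 2 := by
  have h := Real.sin_sq_add_cos_sq (angle L x)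
  unfold inPart outPart
  linear_combination f x ^ 2 * h

theorem contDiff_parts {L : ℝ} {f : E n → ℝ} (hf : ContDiff ℝ 1 f) :
    ContDiff ℝ 1 (inPart L f) ∧ ContDiff ℝ 1 (outPart L f) :=
  ⟨hf.mul (Real.contDiff_cos.comp (contDiff_angle L)),
    hf.mul (Real.contDiff_sin.comp (contDiff_angle L))⟩

theorem abs_parts_le (L : ℝ) (f : E n → ℝ) (x : E n) :
    |inPart L f x| ≤ |f x| ∧ |outPart L f x| ≤ |f x| := by
  constructor
  · rw [inPart, abs_mul]
    exact mul_le_of_le_one_right (abs_nonneg _) (Real.abs_cos_le_one _)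
  · rw [outPart, abs_mul]
    exact mul_le_of_le_one_right (abs_nonneg _) (Real.abs_sin_le_one _)

theorem sq_norm_fderiv_parts {L : ℝ} {f : E n → ℝ} (hf : ContDiff ℝ 1 f) (x : E n) :
    ‖fderiv ℝ (inPart L f) x‖ ^ 2 ≤
        2 * ‖fderiv ℝ f x‖ ^ 2 + 2 * (f x ^ 2 * ‖fderiv ℝ (angle L) x‖ ^ 2) ∧
      ‖fderiv ℝ (outPart L f) x‖ ^ 2 ≤
        2 * ‖fderiv ℝ f x‖ ^ 2 + 2 * (f x ^ 2 * ‖fderiv ℝ (angle L) x‖ ^ 2) := by
  have hd := (hf.differentiable one_ne_zero x).hasFDerivAt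
  have hc := ((contDiff_angle (n := n) L).differentiable one_ne_zero x).hasFDerivAt
  have key : ∀ (a b : ℝ), |a| ≤ 1 → |b| ≤ 1 →
      ‖f x • (a • fderiv ℝ (angle L) x) + b • fderiv ℝ f x‖ ^ 2 ≤
        2 * ‖fderiv ℝ f x‖ ^ 2 + 2 * (f x ^ 2 * ‖fderiv ℝ (angle L) x‖ ^ 2) := by
    intro a b ha hb
    have h1 : ‖f x • (a • fderiv ℝ (angle L) x) + b • fderiv ℝ f x‖ ≤
        |f x| * ‖fderiv ℝ (angle L) x‖ + ‖fderiv ℝ f x‖ := by
      refine (norm_add_le _ _).trans (add_le_add ?_ ?_)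
      · rw [norm_smul, norm_smul, Real.norm_eq_abs, Real.norm_eq_abs]
        exact mul_le_mul_of_nonneg_left (mul_le_of_le_one_left (norm_nonneg _) ha) (abs_nonneg _)
      · rw [norm_smul, Real.norm_eq_abs]
        exact mul_le_of_le_one_left (norm_nonneg _) hb
    refine (pow_le_pow_left₀ (norm_nonneg _) h1 2).trans ?_
    nlinarith [sq_nonneg (|f x| * ‖fderiv ℝ (angle L) x‖ - ‖fderiv ℝ f x‖), sq_abs (f x)]
  constructor
  · have h : fderiv ℝ (inPart L f) x = f x • (-Real.sin (angle L x) • fderiv ℝ (angle L) x) +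
        Real.cos (angle L x) • fderiv ℝ f x := (hd.mul hc.cos).fderiv
    rw [h]
    exact key _ _ (by rw [abs_neg]; exact Real.abs_sin_le_one _) (Real.abs_cos_le_one _)
  · have h : fderiv ℝ (outPart L f) x = f x • (Real.cos (angle L x) • fderiv ℝ (angle L) x) +
        Real.sin (angle L x) • fderiv ℝ f x := (hd.mul hc.sin).fderiv
    rw [h]
    exact key _ _ (Real.abs_cos_le_one _) (Real.abs_sin_le_one _)

end Vale.Agent.P245.LSI
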