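import Mathlib
import Vale.Agent.P245.LSI.Iface

/-!
# P245: norm tails from linear subgaussianity
-/

namespace Vale.Agent.P245.LSI

open MeasureTheory Set
open scoped ENNReal RealInnerProductSpace

variable {n : ℕ} {μ : Measure (E n)}

theorem lintegral_exp_inner_le [IsProbabilityMeasure μ] (hS : SubG 2 μ) (u : E n) :
    ∫⁻ x, ENNReal.ofReal (Real.exp ⟪u, x⟫) ∂μ ≤ ENNReal.ofReal (2 * Real.exp (‖u‖ ^ 2 / 4)) := by
  rcases eq_or_ne u 0 with rfl | hu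
  · simp only [inner_zero_left, Real.exp_zero, ENNReal.ofReal_one, lintegral_const, measure_univ,
      mul_one, norm_zero]
    norm_num
  have hu0 : 0 < ‖u‖ := norm_pos_iff.2 hu
  set v := ‖u‖⁻¹ • u with hv
  have hv1 : ‖v‖ = 1 := by rw [hv, norm_smul, norm_inv, norm_norm, inv_mul_cancel₀ hu0.ne']
  have hp : ∀ x : E n, ⟪u, x⟫ ≤ ⟪x, v⟫ ^ 2 + ‖u‖ ^ 2 / 4 := fun x => by
    have e : ⟪u, x⟫ = ‖u‖ * ⟪x, v⟫ := by
      rw [hv, real_inner_smul_right, ← mul_assoc, mul_inv_cancel₀ hu0.ne', one_mul, real_inner_comm]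
    rw [e]
    nlinarith [sq_nonneg (⟪x, v⟫ - ‖u‖ / 2)]
  calc ∫⁻ x, ENNReal.ofReal (Real.exp ⟪u, x⟫) ∂μ
      ≤ ∫⁻ x, ENNReal.ofReal (Real.exp (⟪x, v⟫ ^ 2)) * ENNReal.ofReal (Real.exp (‖u‖ ^ 2 / 4)) ∂μ :=
        lintegral_mono fun x => by
          rw [← ENNReal.ofReal_mul (Real.exp_pos _).le, ← Real.exp_add]
          exact ENNReal.ofReal_le_ofReal (Real.exp_le_exp.2 (hp x))
    _ = (∫⁻ x, ENNReal.ofReal (Real.exp (⟪x, v⟫ ^ 2)) ∂μ) *
          ENNReal.ofReal (Real.exp (‖u‖ ^ 2 / 4)) := lintegral_mul_const' _ _ ENNReal.ofReal_ne_top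
    _ ≤ ENNReal.ofReal 2 * ENNReal.ofReal (Real.exp (‖u‖ ^ 2 / 4)) := by
        gcongr
        exact hS v hv1
    _ = _ := (ENNReal.ofReal_mul zero_le_two).symm

/-- The Gaussian average of an exponential linear function. -/
theorem gauss_exp_inner (x : E n) :
    ∫ w, Real.exp ⟪w, x⟫ ∂(gauss n) = Real.exp (‖x‖ ^ 2 / 2) := by
  have hZ : 0 < ∫ w : E n, Real.exp (-(1 / 2) * ‖w‖ ^ 2) := integral_exp_pos (integrable_gauss_weight n)
  rw [integral_gauss, div_eq_iff hZ.ne']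
  have e : ∀ w : E n, Real.exp (-(1 / 2) * ‖w‖ ^ 2) * Real.exp ⟪w, x⟫ =
      Real.exp (‖x‖ ^ 2 / 2) * Real.exp (-(1 / 2) * ‖w - x‖ ^ 2) := fun w => by
    rw [← Real.exp_add, ← Real.exp_add, norm_sub_sq_real]
    congr 1
    ring
  simp only [e]
  rw [integral_const_mul, integral_sub_right_eq_self fun w : E n => Real.exp (-(1 / 2) * ‖w‖ ^ 2)]

theorem gauss_exp_quarter (n : ℕ) :
    ∫ w, Real.exp (‖w‖ ^ 2 / 4) ∂(gauss n) = Real.sqrt 2 ^ n := by
  have hZ : 0 < ∫ w : E n, Real.exp (-(1 / 2) * ‖w‖ ^ 2) := integral_exp_pos (integrable_gauss_weight n)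
  rw [integral_gauss, div_eq_iff hZ.ne']
  have e : ∀ w : E n, Real.exp (-(1 / 2) * ‖w‖ ^ 2) * Real.exp (‖w‖ ^ 2 / 4) =
      (fun y : E n => Real.exp (-(1 / 2) * ‖y‖ ^ 2)) ((Real.sqrt 2)⁻¹ • w) := fun w => by
    rw [← Real.exp_add]
    show _ = Real.exp _
    rw [norm_smul, norm_inv, Real.norm_of_nonneg (Real.sqrt_nonneg 2), mul_pow, inv_pow,
      Real.sq_sqrt zero_le_two]
    congr 1
    ring
  simp only [e]
  rw [Measure.integral_comp_inv_smul volume (fun y : E n => Real.exp (-(1 / 2) * ‖y‖ ^ 2))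
    (Real.sqrt 2), finrank_euclideanSpace_fin, smul_eq_mul, abs_of_pos (by positivity)]

theorem gauss_exp_integrable (x : E n) : Integrable (fun w => Real.exp ⟪w, x⟫) (gauss n) :=
  Integrable.of_integral_ne_zero (by rw [gauss_exp_inner]; exact (Real.exp_pos _).ne')

theorem lintegral_exp_sq_le [IsProbabilityMeasure μ] (hn : 1 ≤ n) (hS : SubG 2 μ) :
    ∫⁻ x, ENNReal.ofReal (Real.exp (‖x‖ ^ 2 / 2)) ∂μ ≤ ENNReal.ofReal (Real.exp (3 * n)) := by
  have := gauss_prob n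
  have hi : Integrable (fun w : E n => Real.exp (‖w‖ ^ 2 / 4)) (gauss n) :=
    Integrable.of_integral_ne_zero (by rw [gauss_exp_quarter]; positivity)
  calc ∫⁻ x, ENNReal.ofReal (Real.exp (‖x‖ ^ 2 / 2)) ∂μ
      = ∫⁻ x, ∫⁻ w, ENNReal.ofReal (Real.exp ⟪w, x⟫) ∂(gauss n) ∂μ := by
        refine lintegral_congr fun x => ?_
        rw [← gauss_exp_inner x, ofReal_integral_eq_lintegral_ofReal (gauss_exp_integrable x)
          (ae_of_all _ fun w => (Real.exp_pos _).le)]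
    _ = ∫⁻ w, ∫⁻ x, ENNReal.ofReal (Real.exp ⟪w, x⟫) ∂μ ∂(gauss n) :=
        lintegral_lintegral_swap (by fun_prop)
    _ ≤ ∫⁻ w, ENNReal.ofReal (2 * Real.exp (‖w‖ ^ 2 / 4)) ∂(gauss n) :=
        lintegral_mono fun w => lintegral_exp_inner_le hS w
    _ = ENNReal.ofReal (2 * Real.sqrt 2 ^ n) := by
        rw [← ofReal_integral_eq_lintegral_ofReal (hi.const_mul 2)
          (ae_of_all _ fun w => by positivity), integral_const_mul, gauss_exp_quarter]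
    _ ≤ _ := ENNReal.ofReal_le_ofReal (by
        have h1 : Real.sqrt 2 ≤ 2 := Real.sqrt_le_iff.2 ⟨zero_le_two, by norm_num⟩
        have h2 : (2 : ℝ) ≤ Real.exp 1 := by linarith [Real.add_one_le_exp (1 : ℝ)]
        calc 2 * Real.sqrt 2 ^ n ≤ Real.exp 1 * Real.exp 1 ^ n := by
              gcongr
              exact h1.trans h2
          _ ≤ _ := by
              rw [← Real.exp_nat_mul, ← Real.exp_add, mul_one, Real.exp_le_exp]
              have : (1 : ℝ) ≤ n := by exact_mod_cast hn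
              linarith)

theorem integrable_exp_sq [IsProbabilityMeasure μ] (hn : 1 ≤ n) (hS : SubG 2 μ) :
    Integrable (fun x => Real.exp (‖x‖ ^ 2 / 2)) μ ∧
      ∫ x, Real.exp (‖x‖ ^ 2 / 2) ∂μ ≤ Real.exp (3 * n) := by
  have h := lintegral_exp_sq_le hn hS
  have hm : AEStronglyMeasurable (fun x : E n => Real.exp (‖x‖ ^ 2 / 2)) μ :=
    (by fun_prop : Continuous fun x : E n => Real.exp (‖x‖ ^ 2 / 2)).aestronglyMeasurable
  refine ⟨⟨hm, ?_⟩, ?_⟩
  · rw [hasFiniteIntegral_iff_ofReal (ae_of_all _ fun x => (Real.exp_pos _).le)]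
    exact h.trans_lt ENNReal.ofReal_lt_top
  · rw [integral_eq_lintegral_of_nonneg_ae (ae_of_all _ fun x => (Real.exp_pos _).le) hm]
    exact ENNReal.toReal_le_of_le_ofReal (Real.exp_pos _).le h

/-- The tail of the norm. -/
theorem tail_le [IsProbabilityMeasure μ] (hn : 1 ≤ n) (hS : SubG 2 μ) {R : ℝ} (hR : 0 ≤ R) :
    (μ (Metric.closedBall 0 R)ᶜ).toReal ≤ Real.exp (3 * n - R ^ 2 / 2) := by
  obtain ⟨hi, hb⟩ := integrable_exp_sq hn hS
  have hsub : (Metric.closedBall (0 : E n) R)ᶜ ⊆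
      {x | Real.exp (R ^ 2 / 2) ≤ Real.exp (‖x‖ ^ 2 / 2)} := fun x hx => by
    simp only [Set.mem_compl_iff, mem_closedBall_zero_iff, not_le] at hx
    show Real.exp _ ≤ Real.exp _
    gcongr
  have h1 := mul_meas_ge_le_integral_of_nonneg (μ := μ)
    (ae_of_all _ fun x : E n => (Real.exp_pos (‖x‖ ^ 2 / 2)).le) hi (Real.exp (R ^ 2 / 2))
  have h2 : (μ (Metric.closedBall 0 R)ᶜ).toReal ≤
      μ.real {x | Real.exp (R ^ 2 / 2) ≤ Real.exp (‖x‖ ^ 2 / 2)} := measureReal_mono hsub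
  rw [Real.exp_sub, le_div_iff₀ (Real.exp_pos _)]
  calc _ ≤ Real.exp (R ^ 2 / 2) * μ.real {x | Real.exp (R ^ 2 / 2) ≤ Real.exp (‖x‖ ^ 2 / 2)} := by
        rw [mul_comm]
        exact mul_le_mul_of_nonneg_left h2 (Real.exp_pos _).le
    _ ≤ _ := h1.trans hb

theorem ball_ge [IsProbabilityMeasure μ] (hn : 1 ≤ n) (hS : SubG 2 μ) {R : ℝ} (hR : 0 ≤ R) :
    1 - Real.exp (3 * n - R ^ 2 / 2) ≤ (μ (Metric.closedBall 0 R)).toReal := by
  have h := tail_le hn hS hR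
  have e : (μ (Metric.closedBall 0 R)ᶜ).toReal = 1 - (μ (Metric.closedBall 0 R)).toReal :=
    probReal_compl_eq_one_sub measurableSet_closedBall
  linarith

theorem integrable_norm_sq [IsProbabilityMeasure μ] (hn : 1 ≤ n) (hS : SubG 2 μ) :
    Integrable (fun x => ‖x‖ ^ 2) μ := by
  refine ((integrable_exp_sq hn hS).1.const_mul 2).mono' (by fun_prop) (ae_of_all _ fun x => ?_)
  rw [Real.norm_of_nonneg (sq_nonneg _)]
  linarith [Real.add_one_le_exp (‖x‖ ^ 2 / 2)]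

/-- Entropy controls the second moment. -/
theorem moment_le [IsProbabilityMeasure μ] (hn : 1 ≤ n) (hS : SubG 2 μ) {g : E n → ℝ}
    (hm : Measurable g) (h0 : ∀ x, 0 ≤ g x) {M : ℝ} (hb : ∀ x, g x ≤ M) :
    Integrable (fun x => g x * ‖x‖ ^ 2) μ ∧
      ∫ x, g x * ‖x‖ ^ 2 ∂μ ≤ 2 * Ent μ g + 6 * n * ∫ x, g x ∂μ := by
  have hi2 := integrable_norm_sq hn hS
  have ig : Integrable g μ := intBdd hm fun x => by rw [abs_of_nonneg (h0 x)]; exact hb x
  have iF : Integrable (fun x => g x * ‖x‖ ^ 2) μ :=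
    hi2.bdd_mul hm.aestronglyMeasurable (ae_of_all _ fun x => by
      rw [Real.norm_of_nonneg (h0 x)]; exact hb x)
  refine ⟨iF, ?_⟩
  obtain ⟨hi, hI⟩ := integrable_exp_sq hn hS
  have iF2 : Integrable (fun x => g x * (‖x‖ ^ 2 / 2)) μ := by
    simpa [mul_div_assoc] using iF.div_const 2
  have h := donsker (F := fun x => ‖x‖ ^ 2 / 2) h0 ig (intLog hm h0 hb) iF2 hi
  have e : ∫ x, g x * (‖x‖ ^ 2 / 2) ∂μ = (∫ x, g x * ‖x‖ ^ 2 ∂μ) / 2 := by
    rw [← integral_div]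
    exact integral_congr_ae (ae_of_all _ fun x => by ring)
  have hlog : Real.log (∫ x, Real.exp (‖x‖ ^ 2 / 2) ∂μ) ≤ 3 * n := by
    rw [Real.log_le_iff_le_exp (integral_exp_pos hi)]
    exact hI
  have := mul_le_mul_of_nonneg_left hlog (integral_nonneg (μ := μ) h0)
  rw [e] at h
  linarith

end Vale.Agent.P245.LSI
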