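import Mathlib
import Vale.Agent.P245.LSI.Tail
import Vale.Agent.P245.LSI.Cutoff

/-!
# P245: from measures carried by a ball to all measures
-/

namespace Vale.Agent.P245.LSI

open MeasureTheory Set Filter ProbabilityTheory
open scoped ENNReal RealInnerProductSpace Topology

variable {n : ℕ} {μ : Measure (E n)}

theorem bdd_of_zero_outside {h : E n → ℝ} (hc : Continuous h) {R : ℝ}
    (h0 : ∀ x, R < ‖x‖ → h x = 0) : ∃ M, 0 ≤ M ∧ ∀ x, |h x| ≤ M := by
  obtain ⟨M, hM0, hM⟩ := bdd_continuous_of_compact hc R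
  refine ⟨M, hM0, fun x => ?_⟩
  rcases le_or_gt ‖x‖ R with hx | hx
  · exact hM x hx
  · rw [h0 x hx, abs_zero]
    exact hM0

theorem sq_le_of_abs_le {a M : ℝ} (h : |a| ≤ M) : a ^ 2 ≤ M ^ 2 := by
  have := pow_le_pow_left₀ (abs_nonneg _) h 2
  rwa [sq_abs] at this

theorem sq_data [IsFiniteMeasure μ] {f : E n → ℝ} (hf : Continuous f) {M : ℝ}
    (hb : ∀ x, |f x| ≤ M) :
    Integrable (fun x => f x ^ 2) μ ∧ Integrable (fun x => f x ^ 2 * Real.log (f x ^ 2)) μ :=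
  ⟨intBdd (hf.measurable.pow_const 2) fun x => by
      rw [abs_of_nonneg (sq_nonneg _)]
      exact sq_le_of_abs_le (hb x),
    intLog (hf.measurable.pow_const 2) (fun x => sq_nonneg _) fun x => sq_le_of_abs_le (hb x)⟩

theorem fderiv_sq_int [IsFiniteMeasure μ] {f : E n → ℝ} (hf : ContDiff ℝ 1 f) {R : ℝ}
    (h0 : ∀ x, R < ‖x‖ → fderiv ℝ f x = 0) : Integrable (fun x => ‖fderiv ℝ f x‖ ^ 2) μ := by
  have hc : Continuous fun x => ‖fderiv ℝ f x‖ ^ 2 := (hf.continuous_fderiv one_ne_zero).norm.pow 2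
  obtain ⟨M, -, hM⟩ := bdd_of_zero_outside hc (R := R) fun x hx => by simp [h0 x hx]
  exact intBdd hc.measurable hM

theorem ball_large [IsProbabilityMeasure μ] (hn : 1 ≤ n) (hS : SubG 2 μ) {R : ℝ}
    (hR : 4 * Real.sqrt n ≤ R) :
    1 - 1 / (5 * (n : ℝ)) ≤ (μ (Metric.closedBall 0 R)).toReal ∧
      1 / 2 ≤ (μ (Metric.closedBall 0 R)).toReal := by
  have hn1 : (1 : ℝ) ≤ n := by exact_mod_cast hn
  have hR0 : 0 ≤ R := le_trans (by positivity) hR
  have h := ball_ge hn hS hR0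
  have h2 : 16 * (n : ℝ) ≤ R ^ 2 := by
    have := pow_le_pow_left₀ (by positivity) hR 2
    rw [mul_pow, Real.sq_sqrt (by linarith)] at this
    linarith
  have h3 : Real.exp (3 * n - R ^ 2 / 2) ≤ 1 / (5 * n) := by
    refine (Real.exp_le_exp.2 (by linarith : 3 * (n : ℝ) - R ^ 2 / 2 ≤ -(5 * n))).trans ?_
    rw [Real.exp_neg, one_div]
    exact inv_anti₀ (by linarith) (by linarith [Real.add_one_le_exp (5 * (n : ℝ))])
  have h4 : 1 / (5 * (n : ℝ)) ≤ 1 / 2 := by gcongr; linarith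
  exact ⟨by linarith, by linarith⟩

/-- Functions vanishing on a ball of radius `L √n`. -/
theorem out_le [IsProbabilityMeasure μ] (hn : 1 ≤ n) (h : SLC 0 μ) (hS : SubG 2 μ) {L : ℝ}
    (hL : 8 ≤ L) {q : E n → ℝ} (hq : ContDiff ℝ 1 q) {M : ℝ} (hb : ∀ x, |q x| ≤ M) {R1 : ℝ}
    (hsupp : ∀ x, R1 < ‖x‖ → fderiv ℝ q x = 0) (h0 : ∀ x, ‖x‖ ≤ L * Real.sqrt n → q x = 0) :
    Ent μ (fun x => q x ^ 2) ≤ 32 * ∫ x, ‖fderiv ℝ q x‖ ^ 2 ∂μ ∧
      27 * n * ∫ x, q x ^ 2 ∂μ ≤ Ent μ (fun x => q x ^ 2) := by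
  have hn1 : (1 : ℝ) ≤ n := by exact_mod_cast hn
  have hn0 : (0 : ℝ) < n := by linarith
  obtain ⟨i2, i3⟩ := sq_data (μ := μ) hq.continuous hb
  obtain ⟨k, ek⟩ : ∃ k, k = (L ^ 2 / 2 - 4) * (n : ℝ) := ⟨_, rfl⟩
  have hk : 28 * (n : ℝ) ≤ k := by
    rw [ek]
    exact mul_le_mul_of_nonneg_right (by nlinarith) hn0.le
  obtain ⟨O, eO⟩ : ∃ O : Set (E n), O = (Metric.closedBall 0 (L * Real.sqrt n))ᶜ := ⟨_, rfl⟩
  have hO : MeasurableSet O := eO ▸ measurableSet_closedBall.compl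
  obtain ⟨F, eF⟩ : ∃ F : E n → ℝ, F = O.indicator fun _ => k := ⟨_, rfl⟩
  have eexp : (fun x => Real.exp (F x)) =
      fun x => 1 + O.indicator (fun _ => Real.exp k - 1) x := by
    funext x
    by_cases hx : x ∈ O <;> simp [eF, hx]
  have eqF : (fun x => q x ^ 2 * F x) = fun x => k * q x ^ 2 := by
    funext x
    by_cases hx : x ∈ O
    · simp [eF, hx, mul_comm]
    · have : q x = 0 := h0 x (by simpa [eO] using hx)
      simp [this]
  have ie : Integrable (fun x => Real.exp (F x)) μ := by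
    rw [eexp]
    exact (integrable_const _).add ((integrable_const _).indicator hO)
  have hd := donsker (μ := μ) (g := fun x => q x ^ 2) (F := F) (fun x => sq_nonneg _) i2 i3
    (by rw [eqF]; exact i2.const_mul k) ie
  have hlog : Real.log (∫ x, Real.exp (F x) ∂μ) ≤ 1 := by
    rw [Real.log_le_iff_le_exp (integral_exp_pos ie), eexp,
      integral_add (integrable_const _) ((integrable_const _).indicator hO), integral_const,
      probReal_univ, one_smul, integral_indicator_const _ hO, smul_eq_mul]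
    have ht : μ.real O ≤ Real.exp (3 * n - (L * Real.sqrt n) ^ 2 / 2) :=
      eO ▸ tail_le hn hS (by positivity)
    have h1 : μ.real O * (Real.exp k - 1) ≤ μ.real O * Real.exp k :=
      mul_le_mul_of_nonneg_left (by linarith) measureReal_nonneg
    have h2 : μ.real O * Real.exp k ≤ 1 := by
      refine (mul_le_mul_of_nonneg_right ht (Real.exp_pos k).le).trans ?_
      rw [← Real.exp_add, Real.exp_le_one_iff, ek, mul_pow, Real.sq_sqrt hn0.le]
      linarith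
    linarith [Real.add_one_le_exp (1 : ℝ)]
  have eI : ∫ x, q x ^ 2 * F x ∂μ = k * ∫ x, q x ^ 2 ∂μ := by
    rw [eqF, integral_const_mul]
  rw [eI] at hd
  obtain ⟨S, eS⟩ : ∃ S, S = ∫ x, q x ^ 2 ∂μ := ⟨_, rfl⟩
  have hS0 : 0 ≤ S := eS ▸ integral_nonneg fun x => sq_nonneg _
  rw [← eS] at hd ⊢
  have hA : 27 * n * S ≤ Ent μ (fun x => q x ^ 2) := by
    have h1 := mul_le_mul_of_nonneg_left hlog hS0
    have h2 := mul_le_mul_of_nonneg_right hk hS0
    have h3 := mul_le_mul_of_nonneg_right hn1 hS0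
    linarith
  refine ⟨?_, hA⟩
  -- the small set inequality
  have hsm := h.small (r := 4 * Real.sqrt n) (lm := -Real.log 2) (by positivity)
    (by
      rw [Real.exp_neg, Real.exp_log two_pos]
      exact (le_of_eq (by norm_num)).trans (ball_large hn hS le_rfl).2)
    hq hb hsupp
  obtain ⟨iq, hmom⟩ := moment_le (μ := μ) hn hS (g := fun x => q x ^ 2)
    (hq.continuous.measurable.pow_const 2) (fun x => sq_nonneg _) fun x => sq_le_of_abs_le (hb x)
  have iD := fderiv_sq_int (μ := μ) hq hsupp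
  have hpt : ∀ x, 2 * |q x| * ((‖x‖ + 4 * Real.sqrt n) * ‖fderiv ℝ q x‖) ≤
      1 / 8 * (q x ^ 2 * ‖x‖ ^ 2) + 2 * n * q x ^ 2 + 16 * ‖fderiv ℝ q x‖ ^ 2 := fun x => by
    have hs : Real.sqrt n ^ 2 = n := Real.sq_sqrt hn0.le
    have h1 := sq_nonneg (|q x| * (‖x‖ + 4 * Real.sqrt n) / 4 - 4 * ‖fderiv ℝ q x‖)
    have h2 : q x ^ 2 * (‖x‖ + 4 * Real.sqrt n) ^ 2 ≤ q x ^ 2 * (2 * ‖x‖ ^ 2 + 32 * n) := by
      refine mul_le_mul_of_nonneg_left ?_ (sq_nonneg _)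
      nlinarith [sq_nonneg (‖x‖ - 4 * Real.sqrt n)]
    nlinarith [sq_abs (q x)]
  have iR : Integrable (fun x => 1 / 8 * (q x ^ 2 * ‖x‖ ^ 2) + 2 * n * q x ^ 2
      + 16 * ‖fderiv ℝ q x‖ ^ 2) μ :=
    ((iq.const_mul _).add (i2.const_mul _)).add (iD.const_mul _)
  have hint : ∫ x, 2 * |q x| * ((‖x‖ + 4 * Real.sqrt n) * ‖fderiv ℝ q x‖) ∂μ ≤
      1 / 8 * ∫ x, q x ^ 2 * ‖x‖ ^ 2 ∂μ + 2 * n * S + 16 * ∫ x, ‖fderiv ℝ q x‖ ^ 2 ∂μ := by
    refine (integral_mono_of_nonneg (ae_of_all _ fun x => by positivity) iR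
      (ae_of_all _ hpt)).trans_eq ?_
    rw [integral_add (f := fun x => 1 / 8 * (q x ^ 2 * ‖x‖ ^ 2) + 2 * n * q x ^ 2)
        ((iq.const_mul _).add (i2.const_mul _)) (iD.const_mul _),
      integral_add (iq.const_mul _) (i2.const_mul _), integral_const_mul, integral_const_mul,
      integral_const_mul, eS]
  rw [← eS] at hsm hmom
  have hl2 : Real.log 2 * S ≤ (n : ℝ) * S :=
    mul_le_mul_of_nonneg_right (by linarith [Real.log_two_lt_d9]) hS0
  have hpos : 0 ≤ (n : ℝ) * S := mul_nonneg hn0.le hS0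
  linarith

theorem cond_integral (B : Set (E n)) (h : E n → ℝ) :
    ∫ x, h x ∂(cond μ B) = (μ B).toReal⁻¹ * ∫ x in B, h x ∂μ := by
  rw [ProbabilityTheory.cond, integral_smul_measure, ENNReal.toReal_inv, smul_eq_mul]

theorem cond_subG [IsProbabilityMeasure μ] (hS : SubG 2 μ) {B : Set (E n)}
    (hm : 1 / 2 ≤ (μ B).toReal) : SubG 4 (cond μ B) := by
  intro v hv
  rw [ProbabilityTheory.cond, lintegral_smul_measure, smul_eq_mul]
  refine (mul_le_mul' ?_ ((setLIntegral_le_lintegral B _).trans (hS v hv))).trans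
    (le_of_eq (b := ENNReal.ofReal 2 * ENNReal.ofReal 2) rfl) |>.trans (le_of_eq ?_)
  · have h1 : ENNReal.ofReal (1 / 2) ≤ μ B := ENNReal.ofReal_le_of_le_toReal hm
    refine (ENNReal.inv_le_inv.2 h1).trans (le_of_eq ?_)
    rw [← ENNReal.ofReal_inv_of_pos (by norm_num)]
    norm_num
  · rw [← ENNReal.ofReal_mul zero_le_two]
    norm_num

/-- Functions carried by a ball. -/
theorem in_le [IsProbabilityMeasure μ] (hn : 1 ≤ n) (hS : SubG 2 μ) {R K : ℝ}
    (hR : 4 * Real.sqrt n ≤ R) (hK : 0 ≤ K) {p : E n → ℝ} (hp : ContDiff ℝ 1 p)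
    (h0 : ∀ x, R ≤ ‖x‖ → p x = 0)
    (hν : Ent (cond μ (Metric.closedBall 0 R)) (fun x => p x ^ 2) ≤
      K * ∫ x, ‖fderiv ℝ p x‖ ^ 2 ∂(cond μ (Metric.closedBall 0 R))) :
    Ent μ (fun x => p x ^ 2) ≤
      K * ∫ x, ‖fderiv ℝ p x‖ ^ 2 ∂μ + 2 / (5 * n) * ∫ x, p x ^ 2 ∂μ := by
  obtain ⟨h1, h2⟩ := ball_large hn hS hR
  obtain ⟨B, eB⟩ : ∃ B : Set (E n), B = Metric.closedBall 0 R := ⟨_, rfl⟩
  rw [← eB] at hν h1 h2
  have hz : ∀ x, x ∉ B → p x = 0 := fun x hx => h0 x (by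
    rw [eB, mem_closedBall_zero_iff, not_le] at hx
    exact hx.le)
  have e1 : ∫ x in B, p x ^ 2 ∂μ = ∫ x, p x ^ 2 ∂μ :=
    setIntegral_eq_integral_of_forall_compl_eq_zero fun x hx => by simp [hz x hx]
  have e2 : ∫ x in B, p x ^ 2 * Real.log (p x ^ 2) ∂μ = ∫ x, p x ^ 2 * Real.log (p x ^ 2) ∂μ :=
    setIntegral_eq_integral_of_forall_compl_eq_zero fun x hx => by simp [hz x hx]
  have hd : ∀ x, R < ‖x‖ → fderiv ℝ p x = 0 := fun x hx => by
    have : p =ᶠ[𝓝 x] fun _ => (0 : ℝ) :=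
      eventuallyEq_of_mem ((isOpen_lt continuous_const continuous_norm).mem_nhds hx)
        fun y hy => h0 y (le_of_lt hy)
    rw [this.fderiv_eq, fderiv_fun_const]
    rfl
  obtain ⟨m, em⟩ : ∃ m, m = (μ B).toReal := ⟨_, rfl⟩
  rw [← em] at h1 h2
  have hm : 0 < m := by linarith
  have hm1 : m ≤ 1 := em ▸ measureReal_le_one
  obtain ⟨A, eA⟩ : ∃ A, A = ∫ x, p x ^ 2 ∂μ := ⟨_, rfl⟩
  obtain ⟨G, eG⟩ : ∃ G, G = ∫ x, p x ^ 2 * Real.log (p x ^ 2) ∂μ := ⟨_, rfl⟩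
  have hA : 0 ≤ A := eA ▸ integral_nonneg fun x => sq_nonneg _
  have key : Ent (cond μ B) (fun x => p x ^ 2) * m = Ent μ (fun x => p x ^ 2) + A * Real.log m := by
    unfold Ent
    rw [cond_integral, cond_integral, e1, e2, ← em, ← eA, ← eG]
    rcases hA.eq_or_lt with hA | hA
    · rw [← hA]
      field_simp
      simp
    · rw [Real.log_mul (inv_ne_zero hm.ne') hA.ne', Real.log_inv]
      field_simp
      ring
  have hI : (∫ x, ‖fderiv ℝ p x‖ ^ 2 ∂(cond μ B)) * m ≤ ∫ x, ‖fderiv ℝ p x‖ ^ 2 ∂μ := by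
    rw [cond_integral, ← em, mul_comm, mul_inv_cancel_left₀ hm.ne']
    exact setIntegral_le_integral (fderiv_sq_int hp hd) (ae_of_all _ fun x => sq_nonneg _)
  have hl : -Real.log m ≤ 2 / (5 * n) := by
    have h3 := Real.one_sub_inv_le_log_of_pos hm
    have h4 : m⁻¹ - 1 ≤ 2 * (1 - m) := by
      rw [sub_le_iff_le_add, inv_le_iff_one_le_mul₀ hm]
      nlinarith
    have : 2 / (5 * (n : ℝ)) = 2 * (1 / (5 * n)) := by ring
    linarith
  have h5 := mul_le_mul_of_nonneg_left hl hA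
  have h6 := mul_le_mul_of_nonneg_right hν hm.le
  have h7 := mul_le_mul_of_nonneg_left hI hK
  rw [← eA]
  linarith

theorem fderiv_angle_outer {L : ℝ} (hL : 0 < L) (hn : 1 ≤ n) {x : E n}
    (hx : 2 * L * Real.sqrt n < ‖x‖) : fderiv ℝ (angle L) x = 0 := by
  have : angle L =ᶠ[𝓝 x] fun _ : E n => Real.pi / 2 :=
    eventuallyEq_of_mem ((isOpen_lt continuous_const continuous_norm).mem_nhds hx)
      fun y hy => angle_outer hL hn (le_of_lt hy)
  rw [this.fderiv_eq, fderiv_fun_const]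
  rfl

theorem outPart_data {L : ℝ} (hL : 0 < L) (hn : 1 ≤ n) {g : E n → ℝ} (hg : ContDiff ℝ 1 g)
    {R1 : ℝ} (hd : ∀ x, R1 < ‖x‖ → fderiv ℝ g x = 0) :
    (∀ x, ‖x‖ ≤ L * Real.sqrt n → outPart L g x = 0) ∧
      ∀ x, max R1 (2 * L * Real.sqrt n) < ‖x‖ → fderiv ℝ (outPart L g) x = 0 := by
  refine ⟨fun x hx => by simp [outPart, angle_inner hL hn hx], fun x hx => ?_⟩
  have h := (sq_norm_fderiv_parts (L := L) hg x).2
  rw [hd x ((le_max_left _ _).trans_lt hx),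
    fderiv_angle_outer hL hn ((le_max_right _ _).trans_lt hx)] at h
  simp only [norm_zero] at h
  exact norm_eq_zero.1 (pow_eq_zero_iff two_ne_zero |>.1
    (le_antisymm (by linarith) (sq_nonneg _)))

theorem parts_dir [IsProbabilityMeasure μ] (hn : 1 ≤ n) {L : ℝ} (hL : 10 * stBound ≤ L)
    {g : E n → ℝ} (hg : ContDiff ℝ 1 g) {M : ℝ} (hb : ∀ x, |g x| ≤ M) {R1 : ℝ}
    (hd : ∀ x, R1 < ‖x‖ → fderiv ℝ g x = 0) :
    ∫ x, ‖fderiv ℝ (inPart L g) x‖ ^ 2 ∂μ ≤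
        2 * ∫ x, ‖fderiv ℝ g x‖ ^ 2 ∂μ + 1 / (5 * n) * ∫ x, g x ^ 2 ∂μ ∧
      ∫ x, ‖fderiv ℝ (outPart L g) x‖ ^ 2 ∂μ ≤
        2 * ∫ x, ‖fderiv ℝ g x‖ ^ 2 ∂μ + 1 / (5 * n) * ∫ x, g x ^ 2 ∂μ := by
  have hn0 : (0 : ℝ) < n := by exact_mod_cast hn
  have hst := one_le_stBound
  have hL0 : 0 < L := by linarith
  have hpt : ∀ x : E n, 2 * (g x ^ 2 * ‖fderiv ℝ (angle L) x‖ ^ 2) ≤ 1 / (5 * n) * g x ^ 2 := fun x => by
    have h1 : ‖fderiv ℝ (angle L) x‖ ≤ 3 / 10 / Real.sqrt n := by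
      refine (norm_fderiv_angle hL0 hn x).trans ?_
      rw [div_mul_eq_div_div]
      refine div_le_div_of_nonneg_right ?_ (Real.sqrt_nonneg _)
      rw [div_le_div_iff₀ hL0 (by norm_num : (0 : ℝ) < 10)]
      linarith
    have h2 := pow_le_pow_left₀ (norm_nonneg _) h1 2
    rw [div_pow (3 / 10 : ℝ), Real.sq_sqrt hn0.le] at h2
    have h3 : (3 / 10 : ℝ) ^ 2 / n ≤ 1 / (10 * n) := by
      rw [div_le_div_iff₀ hn0 (by positivity)]
      linarith
    have h4 := mul_le_mul_of_nonneg_left (h2.trans h3) (sq_nonneg (g x))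
    have e : 1 / (5 * (n : ℝ)) = 2 * (1 / (10 * n)) := by ring
    rw [e]
    linarith
  have iD := fderiv_sq_int (μ := μ) hg hd
  have i2 := (sq_data (μ := μ) hg.continuous hb).1
  have iR : Integrable (fun x => 2 * ‖fderiv ℝ g x‖ ^ 2 + 1 / (5 * n) * g x ^ 2) μ :=
    (iD.const_mul _).add (i2.const_mul _)
  have e : ∫ x, (2 * ‖fderiv ℝ g x‖ ^ 2 + 1 / (5 * n) * g x ^ 2) ∂μ =
      2 * ∫ x, ‖fderiv ℝ g x‖ ^ 2 ∂μ + 1 / (5 * n) * ∫ x, g x ^ 2 ∂μ := by
    rw [integral_add (iD.const_mul _) (i2.const_mul _), integral_const_mul, integral_const_mul]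
  rw [← e]
  constructor <;>
    refine integral_mono_of_nonneg (ae_of_all _ fun x => sq_nonneg _) iR (ae_of_all _ fun x => ?_)
  · exact (sq_norm_fderiv_parts hg x).1.trans (add_le_add le_rfl (hpt x))
  · exact (sq_norm_fderiv_parts hg x).2.trans (add_le_add le_rfl (hpt x))

/-- The inequality for all measures from the one for measures carried by a ball. -/
theorem stmtUnit_of_core (hcore : StmtCore) : StmtUnit := by
  have hst := one_le_stBound
  obtain ⟨L, eL⟩ : ∃ L, L = 8 + 10 * stBound := ⟨_, rfl⟩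
  have hL8 : 8 ≤ L := by linarith
  have hL10 : 10 * stBound ≤ L := by linarith
  have hL0 : 0 < L := by linarith
  obtain ⟨A, hA, hcoreA⟩ := hcore (2 * L) (by linarith)
  refine ⟨(344 + 1024 * (A + 1)) * (A + 1), by positivity, fun n hn μ _ h hS f hf hfs => ?_⟩
  have hn1 : (1 : ℝ) ≤ n := by exact_mod_cast hn
  have hn0 : (0 : ℝ) < n := by linarith
  obtain ⟨w, ew⟩ : ∃ w, w = (n : ℝ) ^ (1 / 3 : ℝ) := ⟨_, rfl⟩
  have hw1 : 1 ≤ w := ew ▸ Real.one_le_rpow hn1 (by norm_num)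
  have hwn : w ≤ n := ew ▸ (Real.rpow_le_rpow_of_exponent_le hn1 (by norm_num : (1 / 3 : ℝ) ≤ 1)).trans
    (le_of_eq (Real.rpow_one _))
  rw [← ew]
  have hR : 4 * Real.sqrt n ≤ 2 * L * Real.sqrt n :=
    mul_le_mul_of_nonneg_right (by linarith) (Real.sqrt_nonneg _)
  obtain ⟨B, eB⟩ : ∃ B : Set (E n), B = Metric.closedBall 0 (2 * L * Real.sqrt n) := ⟨_, rfl⟩
  have hBm : MeasurableSet B := eB ▸ measurableSet_closedBall
  have hBh : 1 / 2 ≤ (μ B).toReal := eB ▸ (ball_large hn hS hR).2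
  obtain ⟨m, em⟩ : ∃ m, m = (μ B).toReal := ⟨_, rfl⟩
  have hm : 0 < m := by linarith
  have hB0 : μ B ≠ 0 := fun h0 => by
    rw [h0, ENNReal.toReal_zero] at hBh
    linarith
  have := cond_isProbabilityMeasure hB0
  have hν0 : (cond μ B) (Metric.closedBall 0 (2 * L * Real.sqrt n))ᶜ = 0 := by
    rw [← eB, ProbabilityTheory.cond_apply hBm]
    simp
  have hν : ∀ g : E n → ℝ, ContDiff ℝ 1 g → ∀ M : ℝ, (∀ x, |g x| ≤ M) →
      Ent (cond μ B) (fun x => g x ^ 2) ≤ A * w * ∫ x, ‖fderiv ℝ g x‖ ^ 2 ∂(cond μ B) := by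
    intro g hg M hM
    rw [ew]
    exact hcoreA n hn (cond μ B) inferInstance
      (h.cond (eB ▸ convex_closedBall (0 : E n) _) hBm hB0 (measure_ne_top _ _)) hν0
      (cond_subG hS hBh) g hg M hM
  have hK : 0 ≤ A * w := by positivity
  -- the inequality with a defect
  have comb : ∀ g : E n → ℝ, ContDiff ℝ 1 g → ∀ M : ℝ, (∀ x, |g x| ≤ M) → ∀ R1 : ℝ,
      (∀ x, R1 < ‖x‖ → fderiv ℝ g x = 0) →
      Ent μ (fun x => g x ^ 2) ≤
          64 * ((A + 1) * w) * (∫ x, ‖fderiv ℝ g x‖ ^ 2 ∂μ + (∫ x, g x ^ 2 ∂μ) / n) ∧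
        ∫ x in Bᶜ, g x ^ 2 ∂μ ≤ 3 * ∫ x, ‖fderiv ℝ g x‖ ^ 2 ∂μ + 1 / 4 * ∫ x, g x ^ 2 ∂μ := by
    intro g hg M hM R1 hd
    obtain ⟨hp, hq⟩ := contDiff_parts (L := L) hg
    have hbp : ∀ x, |inPart L g x| ≤ M := fun x => (abs_parts_le L g x).1.trans (hM x)
    have hbq : ∀ x, |outPart L g x| ≤ M := fun x => (abs_parts_le L g x).2.trans (hM x)
    obtain ⟨dp, dq⟩ := parts_dir (μ := μ) hn hL10 hg hM hd
    obtain ⟨q0, qd⟩ := outPart_data hL0 hn hg hd
    obtain ⟨ho1, ho2⟩ := out_le hn h hS hL8 hq hbq qd q0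
    have hi := in_le hn hS hR hK hp
      (fun x hx => by simp [inPart, angle_outer hL0 hn hx]) (eB ▸ hν _ hp M hbp)
    obtain ⟨ip, ipl⟩ := sq_data (μ := μ) hp.continuous hbp
    obtain ⟨iq, iql⟩ := sq_data (μ := μ) hq.continuous hbq
    obtain ⟨ig, igl⟩ := sq_data (μ := μ) hg.continuous hM
    have hadd : Ent μ (fun x => inPart L g x ^ 2 + outPart L g x ^ 2) ≤
        Ent μ (fun x => inPart L g x ^ 2) + Ent μ (fun x => outPart L g x ^ 2) :=
      ent_add_le (fun x => sq_nonneg _) (fun x => sq_nonneg _) ip iq ipl iql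
        (by simpa only [sq_add_sq_parts] using igl)
    simp only [sq_add_sq_parts] at hadd
    have hps : ∫ x, inPart L g x ^ 2 ∂μ ≤ ∫ x, g x ^ 2 ∂μ :=
      integral_mono ip ig fun x => sq_le_sq.2 (abs_parts_le L g x).1
    obtain ⟨I, eI⟩ : ∃ I, I = ∫ x, ‖fderiv ℝ g x‖ ^ 2 ∂μ := ⟨_, rfl⟩
    obtain ⟨S, eS⟩ : ∃ S, S = ∫ x, g x ^ 2 ∂μ := ⟨_, rfl⟩
    rw [← eI, ← eS] at dp dq ⊢
    rw [← eS] at hps
    have hI : 0 ≤ I := eI ▸ integral_nonneg fun x => sq_nonneg _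
    have hS0 : 0 ≤ S := eS ▸ integral_nonneg fun x => sq_nonneg _
    constructor
    · have hq1 : 0 ≤ S / n := by positivity
      have h1 := mul_le_mul_of_nonneg_left dp hK
      have h2 := mul_le_mul_of_nonneg_left hps (by positivity : (0 : ℝ) ≤ 2 / (5 * n))
      have e1 : 1 / (5 * (n : ℝ)) * S = 1 / 5 * (S / n) := by ring
      have e2 : 2 / (5 * (n : ℝ)) * S = 2 / 5 * (S / n) := by ring
      rw [e1] at h1 dq
      rw [e2] at h2
      have h3 := mul_le_mul_of_nonneg_right hw1 hI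
      have h4 := mul_le_mul_of_nonneg_right hw1 hq1
      have h5 := mul_nonneg hK hI
      have h6 := mul_nonneg hK hq1
      linarith
    · have h7 : ∫ x in Bᶜ, g x ^ 2 ∂μ ≤ ∫ x, outPart L g x ^ 2 ∂μ := by
        refine le_trans (le_of_eq (setIntegral_congr_fun hBm.compl fun x hx => ?_))
          (setIntegral_le_integral iq (ae_of_all _ fun x => sq_nonneg _))
        rw [eB, Set.mem_compl_iff, mem_closedBall_zero_iff, not_le] at hx
        simp [outPart, angle_outer hL0 hn hx.le]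
      have h8 : 1 / (5 * (n : ℝ)) * S ≤ 1 / 5 * S :=
        mul_le_mul_of_nonneg_right (by gcongr; linarith) hS0
      have h9 := mul_le_mul_of_nonneg_right hn1
        (integral_nonneg (fun x => sq_nonneg (outPart L g x)) : 0 ≤ ∫ x, outPart L g x ^ 2 ∂μ)
      linarith
  -- removing the defect
  obtain ⟨M, hM⟩ := hfs.exists_bound_of_continuous hf.continuous
  have hM' : ∀ x, |f x| ≤ M := fun x => by simpa using hM x
  obtain ⟨R1, hR1⟩ : ∃ R1, ∀ x, R1 < ‖x‖ → fderiv ℝ f x = 0 := by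
    obtain ⟨R1, hR1⟩ := (hfs.fderiv ℝ).isBounded.subset_closedBall 0
    exact ⟨R1, fun x hx => image_eq_zero_of_notMem_tsupport fun hx' =>
      absurd (mem_closedBall_zero_iff.1 (hR1 hx')) (not_le.2 hx)⟩
  obtain ⟨c0, ec0⟩ : ∃ c0, c0 = ∫ x, f x ∂(cond μ B) := ⟨_, rfl⟩
  obtain ⟨u, eu⟩ : ∃ u : E n → ℝ, u = fun x => f x - c0 := ⟨_, rfl⟩
  have hu : ContDiff ℝ 1 u := eu ▸ hf.sub contDiff_const
  have hub : ∀ x, |u x| ≤ M + |c0| := fun x => by
    rw [eu]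
    exact (abs_sub _ _).trans (add_le_add (hM' x) le_rfl)
  have hud : ∀ x, fderiv ℝ u x = fderiv ℝ f x := fun x => by rw [eu, fderiv_sub_const]
  obtain ⟨hEu, hOu⟩ := comb u hu _ hub R1 fun x hx => (hud x).trans (hR1 x hx)
  simp only [hud] at hEu hOu
  obtain ⟨iu, iul⟩ := sq_data (μ := μ) hu.continuous hub
  have hin : ∫ x in B, u x ^ 2 ∂μ ≤ A * w * ∫ x, ‖fderiv ℝ f x‖ ^ 2 ∂μ := by
    have hb2 : ∀ x, |f x + M| ≤ M + M := fun x => (abs_add_le _ _).trans (add_le_add (hM' x)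
      (le_of_eq (abs_of_nonneg ((abs_nonneg _).trans (hM' x)))))
    obtain ⟨j2, j3⟩ := sq_data (μ := cond μ B) (hf.continuous.add continuous_const) hb2
    have j1 : Integrable (fun x => f x + M) (cond μ B) :=
      intBdd (hf.continuous.add continuous_const).measurable hb2
    have hv := (var_le_ent (μ := cond μ B) (fun x => by linarith [(abs_le.1 (hM' x)).1]) j1 j2 j3).trans
      (hν (fun x => f x + M) (hf.add contDiff_const) _ hb2)
    simp only [fderiv_add_const] at hv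
    have if1 : Integrable f (cond μ B) := intBdd hf.continuous.measurable hM'
    have e1 : ∫ x, (f x + M) ∂(cond μ B) = c0 + M := by
      rw [integral_add if1 (integrable_const _), integral_const, probReal_univ, one_smul, ec0]
    have e2 : ∫ x, (f x + M) ^ 2 ∂(cond μ B) = ∫ x, u x ^ 2 ∂(cond μ B) + (c0 + M) ^ 2 := by
      have iu1 : Integrable u (cond μ B) := intBdd hu.continuous.measurable hub
      have iu2 : Integrable (fun x => u x ^ 2) (cond μ B) := (sq_data hu.continuous hub).1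
      have e : ∀ x, (f x + M) ^ 2 = u x ^ 2 + (2 * (c0 + M) * u x + (c0 + M) ^ 2) := fun x => by
        rw [eu]; ring
      have e0 : ∫ x, u x ∂(cond μ B) = 0 := by
        rw [eu, integral_sub if1 (integrable_const _), integral_const, probReal_univ, one_smul,
          ← ec0, sub_self]
      simp only [e]
      rw [integral_add (g := fun x => 2 * (c0 + M) * u x + (c0 + M) ^ 2) iu2
          ((iu1.const_mul _).add (integrable_const _)),
        integral_add (iu1.const_mul _) (integrable_const _), integral_const_mul, e0, mul_zero,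
        zero_add, integral_const, probReal_univ, one_smul]
    rw [e1, e2, add_sub_cancel_right, cond_integral, cond_integral, ← em, mul_left_comm] at hv
    have h1 := mul_le_mul_of_nonneg_left hv hm.le
    rw [mul_inv_cancel_left₀ hm.ne', mul_inv_cancel_left₀ hm.ne'] at h1
    exact h1.trans (mul_le_mul_of_nonneg_left
      (setIntegral_le_integral (fderiv_sq_int hf hR1) (ae_of_all _ fun x => sq_nonneg _)) hK)
  obtain ⟨if2, ifl⟩ := sq_data (μ := μ) hf.continuous hM'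
  have hr := rothaus (μ := μ) (u := u) (m := c0) iu iul (by simpa [eu] using if2)
    (by simpa [eu] using ifl)
  have ef : (fun x => (c0 + u x) ^ 2) = fun x => f x ^ 2 := by
    funext x
    rw [eu]
    ring
  rw [ef] at hr
  obtain ⟨I, eI⟩ : ∃ I, I = ∫ x, ‖fderiv ℝ f x‖ ^ 2 ∂μ := ⟨_, rfl⟩
  obtain ⟨S, eS⟩ : ∃ S, S = ∫ x, u x ^ 2 ∂μ := ⟨_, rfl⟩
  have hsplit := integral_add_compl hBm iu
  rw [← eI, ← eS] at hEu hOu
  rw [← eI] at hin ⊢
  rw [← eS] at hr hsplit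
  have hI : 0 ≤ I := eI ▸ integral_nonneg fun x => sq_nonneg _
  have h1 := mul_le_mul_of_nonneg_right hw1 hI
  have hS4 : S ≤ 4 * ((A + 1) * w) * I := by
    have h5 := mul_nonneg hK hI
    linarith
  have hSn : S / n ≤ 4 * (A + 1) * I := by
    rw [div_le_iff₀ hn0]
    refine hS4.trans ?_
    have := mul_le_mul_of_nonneg_left hwn (by positivity : (0 : ℝ) ≤ 4 * (A + 1) * I)
    linarith
  have h2 := mul_le_mul_of_nonneg_left hSn (by positivity : (0 : ℝ) ≤ 256 * ((A + 1) * w))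
  linarith

end Vale.Agent.P245.LSI
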