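import Mathlib
import Vale.Agent.P245.LSI.Outer

/-!
# P245: scaling and the statement in the terms of the question
-/

namespace Vale.Agent.P245.LSI

open MeasureTheory Set Filter
open scoped ENNReal RealInnerProductSpace Topology

variable {n : ℕ}

/-- A log-concave function has a Borel version that is log-concave in the two-point form. -/
theorem borel_version {ρ : E n → ℝ} (h0 : ∀ x, 0 ≤ ρ x) (hS : Convex ℝ {x | 0 < ρ x})
    (hc : ConcaveOn ℝ {x | 0 < ρ x} fun x => Real.log (ρ x)) :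
    ∃ σ : E n → ℝ, Measurable σ ∧ (∀ x, 0 ≤ σ x) ∧ σ =ᵐ[volume] ρ ∧
      ∀ α β : ℝ, ∀ x y : E n, 0 < α → 0 < β → α + β = 1 →
        σ x ^ α * σ y ^ β ≤ σ (α • x + β • y) := by
  obtain ⟨U, eU⟩ : ∃ U, U = interior {x | 0 < ρ x} := ⟨_, rfl⟩
  have hUS : U ⊆ {x | 0 < ρ x} := eU ▸ interior_subset
  have hUo : IsOpen U := eU ▸ isOpen_interior
  have hUc : Convex ℝ U := eU ▸ hS.interior
  have hlog : ContinuousOn (fun x => Real.log (ρ x)) U :=
    ((hc.subset hUS hUc).continuousOn hUo)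
  have hcont : ContinuousOn ρ U :=
    (Real.continuous_exp.comp_continuousOn hlog).congr fun x hx => (Real.exp_log (hUS hx)).symm
  have hn0 : ∀ x, 0 ≤ U.indicator ρ x := fun x => Set.indicator_nonneg (fun y _ => h0 y) x
  refine ⟨U.indicator ρ, ?_, hn0, ?_, fun α β x y hα hβ hab => ?_⟩
  · classical
    rw [← Set.piecewise_eq_indicator]
    exact hcont.measurable_piecewise continuousOn_const hUo.measurableSet
  · refine (measure_eq_zero_iff_ae_notMem.1 (hS.addHaar_frontier volume)).mono fun x hx => ?_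
    by_cases hxU : x ∈ U
    · exact Set.indicator_of_mem hxU _
    · rw [Set.indicator_of_notMem hxU]
      have h1 : x ∉ closure {x | 0 < ρ x} := fun h1 => hx ⟨h1, eU ▸ hxU⟩
      exact le_antisymm (h0 x) (not_lt.1 fun h2 => h1 (subset_closure h2))
  · by_cases hx : x ∈ U
    swap
    · rw [Set.indicator_of_notMem hx, Real.zero_rpow hα.ne', zero_mul]
      exact hn0 _
    by_cases hy : y ∈ U
    swap
    · rw [Set.indicator_of_notMem hy, Real.zero_rpow hβ.ne', mul_zero]
      exact hn0 _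
    have hz := hUc hx hy hα.le hβ.le hab
    rw [Set.indicator_of_mem hx, Set.indicator_of_mem hy, Set.indicator_of_mem hz,
      Real.rpow_def_of_pos (hUS hx), Real.rpow_def_of_pos (hUS hy), ← Real.exp_add,
      ← Real.le_log_iff_exp_le (hUS hz), mul_comm, mul_comm (Real.log (ρ y))]
    exact hc.2 (hUS hx) (hUS hy) hα.le hβ.le hab

/-- A linearly subgaussian measure with a log-concave density, in the terms of the question. -/
theorem final (hcore : StmtCore) :
    ∃ C : ℝ, 0 < C ∧ ∀ n : ℕ, 1 ≤ n → ∀ ρ : EuclideanSpace ℝ (Fin n) → ℝ, (∀ x, 0 ≤ ρ x) →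
      Convex ℝ {x | 0 < ρ x} → ConcaveOn ℝ {x | 0 < ρ x} (fun x => Real.log (ρ x)) →
      ∫⁻ x, ENNReal.ofReal (ρ x) = 1 →
      ∀ a : ℝ, 0 < a →
        (∀ θ : EuclideanSpace ℝ (Fin n), ‖θ‖ = 1 →
          ∫⁻ x, ENNReal.ofReal (Real.exp (⟪x, θ⟫ ^ 2 / a ^ 2) * ρ x) ≤ 2) →
        ∀ f : EuclideanSpace ℝ (Fin n) → ℝ, ContDiff ℝ (⊤ : ℕ∞) f → HasCompactSupport f →
          (∫ x, f x ^ 2 * Real.log (f x ^ 2) * ρ x)
              - (∫ x, f x ^ 2 * ρ x) * Real.log (∫ x, f x ^ 2 * ρ x)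
            ≤ C * (n : ℝ) ^ (1 / 3 : ℝ) * a ^ 2 * ∫ x, ‖fderiv ℝ f x‖ ^ 2 * ρ x := by
  obtain ⟨C, hC, hU⟩ := stmtUnit_of_core hcore
  refine ⟨C, hC, fun n hn ρ h0 hS hc hone a ha hsub f hf hfs => ?_⟩
  obtain ⟨σ, hσm, hσ0, hσρ, hσlc⟩ := borel_version h0 hS hc
  have han : (0 : ℝ) < a ^ n := pow_pos ha n
  obtain ⟨r, er⟩ : ∃ r : E n → ℝ, r = fun x => a ^ n * σ (a • x) := ⟨_, rfl⟩
  have hrm : Measurable r := er ▸ (hσm.comp (measurable_const_smul a)).const_mul _
  have hr0 : ∀ x, 0 ≤ r x := fun x => er ▸ mul_nonneg han.le (hσ0 _)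
  obtain ⟨μ, eμ⟩ : ∃ μ : Measure (E n), μ = volume.withDensity fun x => ENNReal.ofReal (r x) :=
    ⟨_, rfl⟩
  have hlin : ∀ F : E n → ℝ, Measurable F → (∀ x, 0 ≤ F x) →
      ∫⁻ x, ENNReal.ofReal (F x) ∂μ = ∫⁻ y, ENNReal.ofReal (F (a⁻¹ • y) * ρ y) := by
    intro F hF hF0
    have hGm : Measurable fun y : E n => ENNReal.ofReal (F (a⁻¹ • y) * σ y) :=
      ((hF.comp (measurable_const_smul _)).mul hσm).ennreal_ofReal
    calc ∫⁻ x, ENNReal.ofReal (F x) ∂μ
        = ∫⁻ x, ENNReal.ofReal (a ^ n) *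
            (fun y : E n => ENNReal.ofReal (F (a⁻¹ • y) * σ y)) (a • x) := by
          rw [eμ, lintegral_withDensity_eq_lintegral_mul _ hrm.ennreal_ofReal hF.ennreal_ofReal]
          refine lintegral_congr fun x => ?_
          rw [Pi.mul_apply, ← ENNReal.ofReal_mul (hr0 x), er, ← ENNReal.ofReal_mul han.le]
          congr 1
          rw [inv_smul_smul₀ ha.ne']
          ring
      _ = ∫⁻ y, ENNReal.ofReal (F (a⁻¹ • y) * σ y) := by
          rw [lintegral_const_mul' _ _ ENNReal.ofReal_ne_top,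
            ← lintegral_map hGm (measurable_const_smul a), Measure.map_addHaar_smul _ ha.ne',
            lintegral_smul_measure, finrank_euclideanSpace_fin, smul_eq_mul, ← mul_assoc,
            ← ENNReal.ofReal_mul han.le, abs_of_pos (inv_pos.2 han), mul_inv_cancel₀ han.ne',
            ENNReal.ofReal_one, one_mul]
      _ = _ := lintegral_congr_ae (hσρ.mono fun y hy => by simp [hy])
  have hint : ∀ F : E n → ℝ, ∫ x, F x ∂μ = ∫ y, F (a⁻¹ • y) * ρ y := fun F => by
    calc ∫ x, F x ∂μ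
        = ∫ x, a ^ n * (fun y : E n => F (a⁻¹ • y) * σ y) (a • x) := by
          rw [eμ, integral_withDensity_eq_integral_toReal_smul hrm.ennreal_ofReal
            (ae_of_all _ fun _ => ENNReal.ofReal_lt_top)]
          refine integral_congr_ae (ae_of_all _ fun x => ?_)
          show (ENNReal.ofReal (r x)).toReal • F x = _
          rw [ENNReal.toReal_ofReal (hr0 x), smul_eq_mul, er]
          simp only [inv_smul_smul₀ ha.ne']
          ring
      _ = ∫ y, F (a⁻¹ • y) * σ y := by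
          rw [integral_const_mul, Measure.integral_comp_smul volume
            (fun y : E n => F (a⁻¹ • y) * σ y) a, finrank_euclideanSpace_fin, smul_eq_mul,
            abs_of_pos (inv_pos.2 han), ← mul_assoc, mul_inv_cancel₀ han.ne', one_mul]
      _ = _ := integral_congr_ae (hσρ.mono fun y hy => by simp [hy])
  have hprob : IsProbabilityMeasure μ := ⟨by
    have := hlin (fun _ => 1) measurable_const fun _ => zero_le_one
    simpa [hone] using this⟩
  have hslc : SLC 0 μ := ⟨r, hrm, hr0, eμ, fun α β x y hα hβ hab => by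
    rw [zero_mul, zero_div, zero_mul, Real.exp_zero, mul_one, er]
    show (a ^ n * σ (a • x)) ^ α * (a ^ n * σ (a • y)) ^ β ≤ a ^ n * σ (a • (α • x + β • y))
    rw [Real.mul_rpow han.le (hσ0 _), Real.mul_rpow han.le (hσ0 _), smul_add, smul_comm a α,
      smul_comm a β]
    have e : (a ^ n) ^ α * (a ^ n) ^ β = a ^ n := by rw [← Real.rpow_add han, hab, Real.rpow_one]
    calc (a ^ n) ^ α * σ (a • x) ^ α * ((a ^ n) ^ β * σ (a • y) ^ β)
        = ((a ^ n) ^ α * (a ^ n) ^ β) * (σ (a • x) ^ α * σ (a • y) ^ β) := by ring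
      _ ≤ _ := by
          rw [e]
          exact mul_le_mul_of_nonneg_left (hσlc α β _ _ hα hβ hab) han.le⟩
  have hS2 : SubG 2 μ := fun v hv => by
    rw [hlin (fun x => Real.exp (⟪x, v⟫ ^ 2)) (by fun_prop) fun x => (Real.exp_pos _).le,
      ENNReal.ofReal_ofNat]
    refine le_trans (le_of_eq (lintegral_congr fun y => ?_)) (hsub v hv)
    rw [real_inner_smul_left]
    congr 2
    ring_nf
  have hf1 : ContDiff ℝ 1 f := hf.of_le (by norm_num)
  obtain ⟨g, eg⟩ : ∃ g : E n → ℝ, g = fun x => f (a • x) := ⟨_, rfl⟩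
  have hg : ContDiff ℝ 1 g := eg ▸ hf1.comp (contDiff_const_smul a)
  have key := hU n hn μ hprob hslc hS2 g hg (eg ▸ hfs.comp_smul ha.ne')
  have hD : ∀ y, fderiv ℝ g (a⁻¹ • y) = a • fderiv ℝ f y := fun y => by
    have h1 : HasFDerivAt (fun z : E n => a • z) (a • ContinuousLinearMap.id ℝ (E n)) (a⁻¹ • y) :=
      (hasFDerivAt_id _).const_smul a
    have h2 : HasFDerivAt f (fderiv ℝ f y) (a • a⁻¹ • y) := by
      rw [smul_inv_smul₀ ha.ne']
      exact (hf1.differentiable one_ne_zero y).hasFDerivAt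
    rw [eg]
    refine (h2.comp (a⁻¹ • y) h1).fderiv.trans ?_
    ext v
    simp
  unfold Ent at key
  simp only [hint, hD, norm_smul, mul_pow, Real.norm_eq_abs, sq_abs, mul_assoc (a ^ 2),
    integral_const_mul] at key
  simp only [eg, smul_inv_smul₀ ha.ne'] at key
  refine key.trans (le_of_eq ?_)
  ring

end Vale.Agent.P245.LSI
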